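import Vale.Agent.P301.H450.EffPar
import Vale.Agent.P301.H99.PairV

/-!
# P301: line bundles with a nonzero holomorphic form are powers of `L` (Picard rank two)
-/

open scoped Manifold ContDiff ComplexOrder Topology Matrix
open MeasureTheory Set Filter
open Vale.Agent.P272.K Vale.Agent.P299 Vale.Agent.P301.H450
open Vale.Agent.P272.K.INT (IsClosedForm intX)
open Vale.Agent.P301.H724 (IsSec Nz Homog)
open Vale.Agent.P301.H897 (LamF)
open Vale.Agent.P301.H794 (q_pull q_fixed isClosedForm_pull)
open Vale.Agent.P301.H949 (IsoPow isoPow_of_curvature)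

set_option linter.all false

noncomputable section

namespace Vale.Agent.P301.H599

variable {d : ℕ} {X : Type} [TopologicalSpace X] [ChartedSpace (Cm d) X]
  {w w0 s a b θ : Fm d X} {ι κ ν : Type} {L : LineBundle d X ι} {V : LineBundle d X κ}
  {ρ : ι → X → ℝ} {ρV : κ → X → ℝ} {c : ℝ}

variable [IsManifold 𝓘(ℂ, Cm d) ω X] [T2Space X] [CompactSpace X]

/-- the product of the class of a line bundle `M` with a holomorphic section of `Λ^p ⊗ M` and a nef
class is nonnegative -/
theorem q_sec_nonneg [ConnectedSpace X] (hs : IsSymplectic d X w s) {M : LineBundle d X ν}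
    {ρM : ν → X → ℝ} (hρM : IsMetric M ρM) {p : ℕ}
    {β : ν → Chart d X → Cm d → Finset (Fin d) → ℂ} (hβ : IsSec M LamF 1 β) (hh : Homog M p β)
    (hne : ∃ x, Nz M β x) (hθ : IsReal11 θ) (hn : IsNef w θ) :
    0 ≤ q s (curvature M ρM) θ := by
  refine q_nonneg_of_hk hs (isReal11_curvature' hρM) hθ hn fun w1 κ1 hw1 => ?_
  obtain ⟨H, hH⟩ := (isNeg_ten (d := d) (X := X) p).met w1 hw1.kahler hw1.ric
  have h1 := semistable_q (SData.of hs hw1) hH hρM (isSec_tenS hβ p) (nz_tenS hβ hh hne)
  simpa using h1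

/-- iterated pull-backs of a Kähler form -/
def itP (F : X → X) (w : Fm d X) : ℕ → Fm d X
  | 0 => w
  | k + 1 => pull F (itP F w k)

theorem itP_pos (F : X → X) (hw : ∀ e x, At e x → (w e (e x)).PosSemidef) (k : ℕ) :
    ∀ e x, At e x → (itP F w k e (e x)).PosSemidef := by
  induction k with
  | zero => exact hw
  | succ k ih => exact fun e x _ => pull_posSemidef F ih

theorem itP_closed {F : X → X} (hF : ContMDiff 𝓘(ℂ, Cm d) 𝓘(ℂ, Cm d) ω F) (hw : IsClosedForm w)
    (k : ℕ) : IsClosedForm (itP F w k) := by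
  induction k with
  | zero => exact hw
  | succ k ih => exact isClosedForm_pull hF ih

theorem pull_symm_self (F : Auto d X) (hb : IsForm b) : FEq (pull F (pull F.symm b)) b := by
  have h1 := pull_pull F.contMDiff F.symm.contMDiff hb
  have h2 : (fun y => F.symm (F y)) = fun y : X => y := by
    funext y; exact F.symm_apply_apply y
  rw [h2] at h1
  exact h1.trans (pull_id hb)

section numbers

variable [ConnectedSpace X] {k1 : ℝ} {w1 : Fm d X}

/-- action of `F^*` on the products with `L` and `V` -/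
theorem q_step (hs : IsSymplectic d X w0 s) (S : SData s w1 k1) (F : Auto d X)
    (hρ : IsMetric L ρ) (hρV : IsMetric V ρV)
    (hθ : SameClass (pull F (curvature L ρ)) (curvature L ρ)) {a : ℤ}
    (hF : SameClass (pull F (curvature V ρV))
      (fun e z => curvature V ρV e z + (a : ℂ) • curvature L ρ e z)) (hb : IsClosedForm b) :
    q s (curvature L ρ) (pull F b) = q s (curvature L ρ) b ∧
    q s (curvature V ρV) (pull F b) = q s (curvature V ρV) b - a * q s (curvature L ρ) b := by
  have cL := (isReal11_curvature' hρ).toIsClosedForm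
  have cV := (isReal11_curvature' hρV).toIsClosedForm
  have hFb := isClosedForm_pull F.contMDiff hb
  have h1 : q s (curvature L ρ) (pull F b) = q s (curvature L ρ) b :=
    q_fixed F hs S cL hθ hb
  refine ⟨h1, ?_⟩
  have h2 := q_pull F hs S cV hb
  obtain ⟨u, hu, h3⟩ := hF
  have c4 : IsClosedForm fun e z => ((a : ℝ) : ℂ) • curvature L ρ e z := cL.smul _
  have h4 : q s (pull F (curvature V ρV)) (pull F b) =
      q s (fun e z => (curvature V ρV e z + ((a : ℝ) : ℂ) • curvature L ρ e z) + ddc u e z)
        (pull F b) := by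
    refine q_congr (fun e x hx => ?_) fun _ _ _ => rfl
    rw [h3 e x hx]
    push_cast
    rfl
  rw [h4, q_add_left S (cV.add c4) (isClosed_ddc hu) hFb, q_hess_left S hFb hu, add_zero,
    q_add_left S cV c4 hFb, q_smul_left, h1] at h2
  linarith

/-- action of `(F⁻¹)^*` on the products with `L` and `V` -/
theorem q_step_symm (hs : IsSymplectic d X w0 s) (S : SData s w1 k1) (F : Auto d X)
    (hρ : IsMetric L ρ) (hρV : IsMetric V ρV)
    (hθ : SameClass (pull F (curvature L ρ)) (curvature L ρ)) {a : ℤ}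
    (hF : SameClass (pull F (curvature V ρV))
      (fun e z => curvature V ρV e z + (a : ℂ) • curvature L ρ e z)) (hb : IsClosedForm b) :
    q s (curvature L ρ) (pull F.symm b) = q s (curvature L ρ) b ∧
    q s (curvature V ρV) (pull F.symm b) = q s (curvature V ρV) b + a * q s (curvature L ρ) b := by
  have hGb := isClosedForm_pull F.symm.contMDiff hb
  obtain ⟨h1, h2⟩ := q_step hs S F hρ hρV hθ hF hGb
  have h3 : ∀ c' : Fm d X, q s c' (pull F (pull F.symm b)) = q s c' b := fun c' =>
    q_congr (fun _ _ _ => rfl) (pull_symm_self F hb.form)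
  rw [h3] at h1 h2
  refine ⟨h1.symm, ?_⟩
  rw [h2, h1]
  ring

end numbers

/-- **Line bundles `M` with a nonzero section of `Λ^p ⊗ M` are powers of `L`.** -/
theorem nsl [SimplyConnectedSpace X] (hs : IsSymplectic d X w s) (hρ : IsMetric L ρ)
    (F : Auto d X) (hc : 0 < c) (hθ : SameClass (pull F (curvature L ρ)) (curvature L ρ))
    (hdd : SameClass (fun e z => pull F (pull F w) e z - (2 : ℂ) • pull F w e z + w e z)
      (fun e z => (c : ℂ) • curvature L ρ e z))
    (hex : ¬ IsExact (curvature L ρ)) (hρV : IsMetric V ρV) {a : ℤ} (ha : a ≠ 0)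
    (hF : SameClass (pull F (curvature V ρV))
      (fun e z => curvature V ρV e z + (a : ℂ) • curvature L ρ e z))
    (hNS : H99.NS L ρ V ρV) {M : LineBundle d X ν} {p : ℕ}
    {β : ν → Chart d X → Cm d → Finset (Fin d) → ℂ} (hβ : IsSec M LamF 1 β) (hh : Homog M p β)
    (hne : ∃ x, Nz M β x) : ∃ k : ℕ, IsoPow M 1 L k := by
  haveI : Nonempty X := inferInstance
  have hd := pos_of_not_exact hex
  have hn := nef_par hs hρ F hc hθ hdd
  obtain ⟨ρM, hρM⟩ := exists_metric M
  obtain ⟨u0, κ0, hu0, hk0⟩ := exists_rf hs hs.kahler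
  have S := SData.of hs hk0
  have cL := (isReal11_curvature' hρ).toIsClosedForm
  have cV := (isReal11_curvature' hρV).toIsClosedForm
  have cM := (isReal11_curvature' hρM).toIsClosedForm
  have cw := INT.IsKahler.isClosedForm hs.kahler
  have hwp : ∀ e x, At e x → (w e (e x)).PosSemidef := fun e x hx =>
    (hs.kahler.posDef e x hx).posSemidef
  -- `q(L, w) > 0`
  have hLw : 0 < q s (curvature L ρ) w := by
    have h1 := q_nef_pos hd hs hk0 hs.kahler (isReal11_curvature' hρ) hn hex
    have h2 : q s (curvature L ρ) (addH w u0) = q s (curvature L ρ) w := by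
      show q s (curvature L ρ) (fun e z => w e z + ddc u0 e z) = _
      rw [q_add_right S cL cw (isClosed_ddc hu0), q_hess_right S cL hu0, add_zero]
    rwa [h2] at h1
  -- the class of `M`
  obtain ⟨α, β', u, hu, hM⟩ := hNS.comb ν M ρM hρM
  have hqM : ∀ b : Fm d X, IsClosedForm b → q s (curvature M ρM) b =
      α * q s (curvature L ρ) b + β' * q s (curvature V ρV) b := by
    intro b hb
    have h1 : q s (curvature M ρM) b = q s (fun e z => ((α : ℂ) • curvature L ρ e z +
        (β' : ℂ) • curvature V ρV e z) + ddc u e z) b := q_congr hM fun _ _ _ => rfl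
    rw [h1, q_add_left S ((cL.smul _).add (cV.smul _)) (isClosed_ddc hu) hb, q_hess_left S hb hu,
      add_zero, q_add_left S (cL.smul _) (cV.smul _) hb, q_smul_left, q_smul_left]
  have hpos : ∀ b : Fm d X, IsClosedForm b → (∀ e x, At e x → (b e (e x)).PosSemidef) →
      0 ≤ α * q s (curvature L ρ) b + β' * q s (curvature V ρV) b := by
    intro b hb hbp
    rw [← hqM b hb]
    refine q_sec_nonneg hs hρM hβ hh hne ⟨hb, fun e x hx => (hbp e x hx).isHermitian⟩ ?_
    intro ε hε
    refine ⟨fun _ => 0, Smooth.const 0, fun e x hx => ?_⟩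
    rw [ddc_const 0 e x hx, add_zero]
    exact (hbp e x hx).add ((hwp e x hx).smul (by exact_mod_cast hε.le))
  -- iterates of `F` and of `F⁻¹`
  have hit : ∀ k : ℕ, q s (curvature L ρ) (itP F w k) = q s (curvature L ρ) w ∧
      q s (curvature V ρV) (itP F w k) = q s (curvature V ρV) w -
        k * (a * q s (curvature L ρ) w) := by
    intro k
    induction k with
    | zero => simp [itP]
    | succ k ih =>
      obtain ⟨h1, h2⟩ := q_step hs S F hρ hρV hθ hF (itP_closed F.contMDiff cw k)
      refine ⟨h1.trans ih.1, ?_⟩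
      show q s (curvature V ρV) (pull F (itP F w k)) = _
      rw [h2, ih.1, ih.2]
      push_cast
      ring
  have hit' : ∀ k : ℕ, q s (curvature L ρ) (itP F.symm w k) = q s (curvature L ρ) w ∧
      q s (curvature V ρV) (itP F.symm w k) = q s (curvature V ρV) w +
        k * (a * q s (curvature L ρ) w) := by
    intro k
    induction k with
    | zero => simp [itP]
    | succ k ih =>
      obtain ⟨h1, h2⟩ := q_step_symm hs S F hρ hρV hθ hF (itP_closed F.symm.contMDiff cw k)
      refine ⟨h1.trans ih.1, ?_⟩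
      show q s (curvature V ρV) (pull F.symm (itP F.symm w k)) = _
      rw [h2, ih.1, ih.2]
      push_cast
      ring
  set A : ℝ := q s (curvature L ρ) w with hA
  set B : ℝ := q s (curvature V ρV) w with hB
  have hineq : ∀ k : ℕ, 0 ≤ (α * A + β' * B) - k * (β' * (a * A)) ∧
      0 ≤ (α * A + β' * B) + k * (β' * (a * A)) := by
    intro k
    constructor
    · have h1 := hpos _ (itP_closed F.contMDiff cw k) (itP_pos F hwp k)
      rw [(hit k).1, (hit k).2] at h1
      linarith
    · have h1 := hpos _ (itP_closed F.symm.contMDiff cw k) (itP_pos F.symm hwp k)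
      rw [(hit' k).1, (hit' k).2] at h1
      linarith
  have hβ0 : β' = 0 := by
    have h1 : β' * (a * A) = 0 := by
      by_contra h0
      have h2 : 0 < |β' * (a * A)| := abs_pos.2 h0
      obtain ⟨k, hk⟩ := exists_nat_gt ((α * A + β' * B) / |β' * (a * A)|)
      rw [div_lt_iff₀ h2] at hk
      obtain ⟨h3, h4⟩ := hineq k
      rcases abs_cases (β' * (a * A)) with ⟨h5, -⟩ | ⟨h5, -⟩
      · rw [h5] at hk; linarith
      · rw [h5] at hk; linarith
    have h6 : (a : ℝ) * A ≠ 0 := mul_ne_zero (by exact_mod_cast ha) hLw.ne'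
    exact (mul_eq_zero.1 h1).resolve_right h6
  have hcls : SameClass (curvature M ρM) (fun e z => (α : ℂ) • curvature L ρ e z) := by
    refine ⟨u, hu, fun e x hx => ?_⟩
    rw [hM e x hx, hβ0]
    simp
  obtain ⟨m, hm⟩ := hNS.int ν M ρM hρM α hcls
  have hm0 : 0 ≤ m := by
    have h1 := (hineq 0).1
    rw [hβ0] at h1
    have h2 : 0 ≤ α * A := by
      simpa using h1
    have h3 : 0 ≤ α := nonneg_of_mul_nonneg_left h2 hLw
    rw [← hm] at h3
    exact_mod_cast h3
  obtain ⟨k, rfl⟩ := Int.eq_ofNat_of_zero_le hm0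
  refine ⟨k, isoPow_of_curvature hρ hρM (q := 1) (a := k) ?_⟩
  obtain ⟨v, hv, h1⟩ := hcls
  refine ⟨v, hv, fun e x hx => ?_⟩
  simp only [Nat.cast_one, one_smul]
  rw [h1 e x hx, ← hm]
  push_cast
  rfl

end Vale.Agent.P301.H599
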