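import Vale.Agent.P301.H599.CY4
import Vale.Agent.P301.H450.Fuj

/-! P301, H599: the lower volume bound and the Calabi-Yau approximations of an invariant line
bundle on an irreducible holomorphic symplectic manifold. -/

open scoped Manifold ContDiff ComplexOrder Topology ENNReal
open Filter Metric Set MeasureTheory

set_option linter.all false

noncomputable section

namespace Vale.Agent.P301.H599

open Vale.Agent.P272.K Vale.Agent.P272.K.QN

variable {d : ℕ} {X : Type} [TopologicalSpace X] [ChartedSpace (Cm d) X]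
  [IsManifold 𝓘(ℂ, Cm d) ω X] [T2Space X] [CompactSpace X] {ι : Type}
variable {L : LineBundle d X ι} {ρ : ι → X → ℝ} {w s : Fm d X} {F : Auto d X} {c : ℝ} {u h : X → ℝ}

lemma curvature_isHermitian (hρ : IsMetric L ρ) {e : Chart d X} {x : X} (hx : At e x) :
    (curvature L ρ e (e x)).IsHermitian := by
  obtain ⟨i, hi⟩ := L.cover x
  rw [curvature_eq hρ hx hi]
  exact cHess_isHermitian ((hρ.smooth i e x hx hi).of_le (by norm_cast))

lemma isReal11_curvature (hρ : IsMetric L ρ) : H450.IsReal11 (curvature L ρ) :=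
  { isClosedForm_curvature hρ with herm := fun e x hx => curvature_isHermitian hρ hx }

/-- the class of the curvature is nef -/
theorem Dat.isNef (D : Dat F w L ρ c u h) : H450.IsNef w (curvature L ρ) := by
  have hw := D.kahler
  have hρ := D.metric
  intro ε hε
  obtain ⟨B, hB0, hB⟩ := exists_B F D.kahler D.metric D.cpos D.su D.dd D.sh D.pdd
  obtain ⟨N, hN⟩ := exists_nat_gt (B / ε)
  have hN0 : (0 : ℝ) < N := lt_of_le_of_lt (by positivity) hN
  have hN1 : 1 ≤ N := by
    have : 0 < N := by exact_mod_cast hN0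
    omega
  have hBN : B / N ≤ ε := by
    rw [div_lt_iff₀ hε] at hN
    rw [div_le_iff₀ hN0]
    linarith
  have hf : Smooth (d := d) (fun x => u x / c) := by
    have h1 : (fun x => u x / c) = fun x => (1 / c) * u x := by funext x; ring
    rw [h1]; exact D.su.const_mul (1 / c)
  obtain ⟨A, C₀, C₁, C₂, hA, hfam⟩ := H794.exists_fam D hf
  have hUs : Smooth (d := d) (fun x => UU F h c N x + u x / c) := (hfam N hN1).smooth
  refine ⟨fun x => UU F h c N x + u x / c, hUs, fun e x hx => ?_⟩
  obtain ⟨i, hi⟩ := L.cover x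
  have h1 := hB N hN1 i e x hx hi
  have s2 : ContDiffAt ℝ 2 (fun z => ρ i (e.symm z)) (e x) :=
    (hρ.smooth i e x hx hi).of_le (by norm_cast)
  have h2 : cHess (fun z => (2 / c) * (S3 F h N (e.symm z) / (N : ℝ) ^ 2) +
      (ρ i (e.symm z) + u (e.symm z) / c)) (e x) =
      curvature L ρ e (e x) + ddc (fun x => UU F h c N x + u x / c) e (e x) := by
    have e1 : (fun z => (2 / c) * (S3 F h N (e.symm z) / (N : ℝ) ^ 2) +
        (ρ i (e.symm z) + u (e.symm z) / c)) = fun z =>
        (fun z => ρ i (e.symm z)) z + (fun z => (fun x => UU F h c N x + u x / c) (e.symm z)) z := by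
      funext z
      simp only [UU]
      ring
    rw [e1, cHess_add s2 (hUs.two e x hx), curvature_eq hρ hx hi]
    rfl
  rw [h2] at h1
  have h3 : curvature L ρ e (e x) + (ε : ℂ) • w e (e x) +
      ddc (fun x => UU F h c N x + u x / c) e (e x) =
      (curvature L ρ e (e x) + ddc (fun x => UU F h c N x + u x / c) e (e x) +
        ((B / N : ℝ) : ℂ) • w e (e x)) + (ε - B / N) • w e (e x) := by
    ext a b
    simp only [Matrix.add_apply, Matrix.smul_apply, smul_eq_mul, Complex.real_smul]
    push_cast
    ring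
  rw [h3]
  exact h1.add ((hw.posDef e x hx).posSemidef.smul (by linarith))

variable [ConnectedSpace X]

/-- **The lower volume bound.** -/
theorem volLow (hs : IsSymplectic d X w s) (hρ : IsMetric L ρ) {n : ℕ} (hd : d = 2 * n)
    (hn : 0 < n) (hnef : H450.IsNef w (curvature L ρ)) (hne : ¬ H450.IsExact (curvature L ρ)) :
    VolLow L ρ w n := by
  haveI : Nonempty X := inferInstance
  have hw := hs.kahler
  obtain ⟨c, hc, hv⟩ := H450.vol_lower (by omega) hs (isReal11_curvature hρ) hnef hne
  set vol : ℝ := INT.intX (fun (e : Chart d X) z => (w e z).det.re) with hvol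
  have hvol0 : 0 < vol := INT.intX_pos (INT.isDensity_det hw.toIsHermitian.isForm hw.smooth)
    fun e x hx => (INT.posDef_det_re (hw.posDef e x hx)).1
  refine ⟨c / vol, by positivity, fun ε hε0 hε1 v C hvs hK hdet => ?_⟩
  have h1 := hv ε hε0 v hvs fun e x hx => hK.posDef e x hx
  have h2 : INT.intX (fun e z => (curvature L ρ e z + (ε : ℂ) • w e z + ddc v e z).det.re) =
      C * vol := by
    rw [hvol, ← INT.intX_const_mul]
    exact INT.intX_congr fun e x hx => hdet e x hx
  have h3 : Real.sqrt (ε ^ d) = ε ^ n := by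
    rw [hd, mul_comm 2 n, pow_mul, Real.sqrt_sq (by positivity)]
  rw [h2, h3] at h1
  rw [div_mul_eq_mul_div, div_le_iff₀ hvol0]
  exact h1

/-- **CY-MAIN** for irreducible holomorphic symplectic manifolds. -/
theorem exists_cy_symplectic (hs : IsSymplectic d X w s) (D : Dat F w L ρ c u h) {n : ℕ}
    (hd : d = 2 * n) (hn : 0 < n) (hne : ¬ H450.IsExact (curvature L ρ)) {m : ℕ} (hm : 1 ≤ m)
    {p : ℝ} (hp : 0 ≤ p) : CYStatement F L ρ w n m p := by
  haveI : Nonempty X := inferInstance
  exact exists_cy D (volLow hs D.metric hd hn D.isNef hne) hm hp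

end Vale.Agent.P301.H599
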