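import Mathlib.Topology.Homeomorph.Defs
import Mathlib.Topology.Compactness.Compact
import Mathlib.Algebra.Order.Field.Basic
import Mathlib.Data.Real.Basic
import Mathlib.Topology.Algebra.Monoid
import Mathlib.Topology.Algebra.Order.LiminfLimsup
import Mathlib.Tactic

/-! P301, H599: iterated Birkhoff sums. -/

open Filter Topology Finset

noncomputable section

namespace Vale.Agent.P301.H599

variable {X : Type}

/-- `h_k = Σ_{l<k} h ∘ F^l` -/
def S1 (F : X → X) (h : X → ℝ) (k : ℕ) (x : X) : ℝ := ∑ l ∈ range k, h (F^[l] x)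

/-- `H_k = Σ_{i<k} h_i` -/
def S2 (F : X → X) (h : X → ℝ) (k : ℕ) (x : X) : ℝ := ∑ i ∈ range k, S1 F h i x

/-- `G_k = Σ_{j<k} H_j = Σ_{i<k} (k-1-i) h_i` -/
def S3 (F : X → X) (h : X → ℝ) (k : ℕ) (x : X) : ℝ := ∑ j ∈ range k, S2 F h j x

variable {F : X → X} {h : X → ℝ} {k : ℕ} {x : X}

@[simp] lemma S1_zero : S1 F h 0 x = 0 := by simp [S1]
@[simp] lemma S2_zero : S2 F h 0 x = 0 := by simp [S2]
@[simp] lemma S3_zero : S3 F h 0 x = 0 := by simp [S3]
lemma S1_succ : S1 F h (k + 1) x = S1 F h k x + h (F^[k] x) := by simp [S1, sum_range_succ]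
lemma S2_succ : S2 F h (k + 1) x = S2 F h k x + S1 F h k x := by simp [S2, sum_range_succ]
lemma S3_succ : S3 F h (k + 1) x = S3 F h k x + S2 F h k x := by simp [S3, sum_range_succ]

lemma S1_succ' : S1 F h (k + 1) x = h x + S1 F h k (F x) := by
  simp only [S1, sum_range_succ', Function.iterate_succ_apply, Function.iterate_zero_apply]
  ring

lemma S1_comp : S1 F h k (F x) = S1 F h (k + 1) x - h x := by rw [S1_succ']; ring

lemma S2_comp : S2 F h k (F x) = S2 F h (k + 1) x - k * h x := by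
  induction k with
  | zero => simp [S2_succ]
  | succ k ih =>
    rw [S2_succ, ih, S1_comp, S2_succ (k := k + 1)]
    push_cast
    ring

lemma S3_comp : S3 F h k (F x) = S3 F h (k + 1) x - (k * (k - 1) / 2 : ℝ) * h x := by
  induction k with
  | zero => simp [S3_succ]
  | succ k ih =>
    rw [S3_succ, ih, S2_comp, S3_succ (k := k + 1)]
    push_cast
    ring

end Vale.Agent.P301.H599
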