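import Vale.Agent.P301.H599.Pull
import Vale.Agent.P301.H599.Dyn

/-! P301, H599: the iterates of a form under `F^*`, and the curvature of a line bundle. -/

open scoped Manifold ContDiff ComplexOrder Topology
open Filter Metric Set

set_option linter.all false

noncomputable section

namespace Vale.Agent.P301.H599

open Vale.Agent.P272.K

variable {d : ℕ} {X : Type} [TopologicalSpace X] [ChartedSpace (Cm d) X]
  [IsManifold 𝓘(ℂ, Cm d) ω X]

section
variable {F : X → X} {h : X → ℝ}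

lemma smooth_iter (hF : ContMDiff 𝓘(ℂ, Cm d) 𝓘(ℂ, Cm d) ω F) (hh : Smooth (d := d) h) (l : ℕ) :
    Smooth (d := d) (fun x => h (F^[l] x)) := by
  induction l with
  | zero => exact hh
  | succ l ih =>
    have : (fun x => h (F^[l + 1] x)) = fun x => (fun y => h (F^[l] y)) (F x) := by
      funext x; rw [Function.iterate_succ_apply]
    rw [this]
    exact Smooth.comp hF ih

lemma smooth_S1 (hF : ContMDiff 𝓘(ℂ, Cm d) 𝓘(ℂ, Cm d) ω F) (hh : Smooth (d := d) h) (k : ℕ) :
    Smooth (d := d) (S1 F h k) := Smooth.sum _ fun l _ => smooth_iter hF hh l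

lemma smooth_S2 (hF : ContMDiff 𝓘(ℂ, Cm d) 𝓘(ℂ, Cm d) ω F) (hh : Smooth (d := d) h) (k : ℕ) :
    Smooth (d := d) (S2 F h k) := Smooth.sum _ fun l _ => smooth_S1 hF hh l

lemma smooth_S3 (hF : ContMDiff 𝓘(ℂ, Cm d) 𝓘(ℂ, Cm d) ω F) (hh : Smooth (d := d) h) (k : ℕ) :
    Smooth (d := d) (S3 F h k) := Smooth.sum _ fun l _ => smooth_S2 hF hh l

/-- iterated pullback -/
def Wk (F : X → X) (w : Fm d X) : ℕ → Fm d X
  | 0 => w
  | k + 1 => pull F (Wk F w k)

/-- `F^*F^* w - 2 F^* w + w` -/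
def DD (F : X → X) (w : Fm d X) : Fm d X :=
  fun e z => pull F (pull F w) e z - (2 : ℂ) • pull F w e z + w e z

lemma pull_DD (F : X → X) (w : Fm d X) : pull F (DD F w) =
    fun e z => pull F (pull F (pull F w)) e z - (2 : ℂ) • pull F (pull F w) e z + pull F w e z := by
  unfold DD
  rw [pull_add F (fun e z => pull F (pull F w) e z - (2 : ℂ) • pull F w e z) w,
    pull_sub F (pull F (pull F w)) (fun e z => (2 : ℂ) • pull F w e z), pull_smul]

lemma isForm_DD {w : Fm d X} (hF : ContMDiff 𝓘(ℂ, Cm d) 𝓘(ℂ, Cm d) ω F) (hw : IsForm w) :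
    IsForm (DD F w) := by
  have h1 := isForm_pull hF (isForm_pull hF hw)
  have h2 := (isForm_pull hF hw).smul (-2)
  have h3 := (h1.add h2).add hw
  have : DD F w = fun e z => pull F (pull F w) e z + (-2 : ℂ) • pull F w e z + w e z := by
    funext e z; unfold DD; rw [neg_smul, sub_eq_add_neg]
  rw [this]
  exact h3

lemma DD_Wk (F : X → X) (w : Fm d X) (k : ℕ) : DD F (Wk F w k) =
    fun e z => Wk F w (k + 2) e z - (2 : ℂ) • Wk F w (k + 1) e z + Wk F w k e z := rfl

lemma DD_congr (F : X → X) {a b : Fm d X} (h : FEq a b) : FEq (DD F a) (DD F b) := by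
  intro e x hx
  unfold DD
  rw [pull_congr F (pull_congr F h) e x hx, pull_congr F h e x hx, h e x hx]

lemma DD_Wk_succ (F : X → X) (w : Fm d X) (k : ℕ) :
    DD F (Wk F w (k + 1)) = pull F (DD F (Wk F w k)) := by
  rw [pull_DD]; rfl

/-- second differences of the iterates -/
lemma DD_Wk_eq (hF : ContMDiff 𝓘(ℂ, Cm d) 𝓘(ℂ, Cm d) ω F) {w : Fm d X}
    (hh : Smooth (d := d) h)
    (hD : FEq (pull F (DD F w)) (fun e z => DD F w e z + ddc h e z)) (k : ℕ) :
    FEq (DD F (Wk F w k)) (fun e z => DD F w e z + ddc (S1 F h k) e z) := by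
  induction k with
  | zero =>
    intro e x hx
    have h0 : (S1 F h 0) = fun _ : X => (0 : ℝ) := by funext x; simp
    show DD F w e (e x) = DD F w e (e x) + ddc (S1 F h 0) e (e x)
    rw [h0, ddc_const 0 e x hx, add_zero]
  | succ k ih =>
    rw [DD_Wk_succ]
    refine (pull_congr F ih).trans ?_
    rw [pull_add]
    intro e x hx
    show pull F (DD F w) e (e x) + pull F (ddc (S1 F h k)) e (e x) = _
    rw [hD e x hx, ← ddc_comp hF (smooth_S1 hF hh k) e x hx]
    show DD F w e (e x) + ddc h e (e x) + ddc (fun x => S1 F h k (F x)) e (e x) =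
      DD F w e (e x) + ddc (S1 F h (k + 1)) e (e x)
    have h1 : S1 F h (k + 1) = fun x => h x + S1 F h k (F x) := by
      funext x; exact S1_succ'
    rw [h1, ddc_add hh (Smooth.comp hF (smooth_S1 hF hh k)) e x hx, add_assoc]

/-- the formula for the iterates -/
lemma Wk_eq (hF : ContMDiff 𝓘(ℂ, Cm d) 𝓘(ℂ, Cm d) ω F) {w : Fm d X}
    (hh : Smooth (d := d) h)
    (hD : FEq (pull F (DD F w)) (fun e z => DD F w e z + ddc h e z)) (k : ℕ) :
    FEq (Wk F w k) (fun e z => w e z + (k : ℂ) • (pull F w e z - w e z) +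
      ((k * (k - 1) / 2 : ℝ) : ℂ) • DD F w e z + ddc (S3 F h k) e z) := by
  suffices h2 : ∀ k, FEq (Wk F w k) (fun e z => w e z + (k : ℂ) • (pull F w e z - w e z) +
      ((k * (k - 1) / 2 : ℝ) : ℂ) • DD F w e z + ddc (S3 F h k) e z) ∧
      FEq (Wk F w (k + 1)) (fun e z => w e z + ((k + 1 : ℕ) : ℂ) • (pull F w e z - w e z) +
      (((k + 1 : ℕ) * (((k + 1 : ℕ) : ℝ) - 1) / 2 : ℝ) : ℂ) • DD F w e z +
        ddc (S3 F h (k + 1)) e z) from (h2 k).1
  intro k
  induction k with
  | zero =>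
    have h0 : (S3 F h 0) = fun _ : X => (0 : ℝ) := by funext x; simp
    have h1 : (S3 F h 1) = fun _ : X => (0 : ℝ) := by funext x; simp [S3_succ]
    constructor
    · intro e x hx
      show w e (e x) = _
      simp only []
      rw [h0, ddc_const 0 e x hx]
      simp
    · intro e x hx
      show pull F w e (e x) = _
      simp only []
      rw [h1, ddc_const 0 e x hx]
      simp
  | succ k ih =>
    refine ⟨ih.2, ?_⟩
    intro e x hx
    have h1 := DD_Wk_eq hF hh hD k e x hx
    rw [DD_Wk] at h1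
    simp only [] at h1
    have h3 : Wk F w (k + 2) e (e x) = (2 : ℂ) • Wk F w (k + 1) e (e x) - Wk F w k e (e x) +
        (DD F w e (e x) + ddc (S1 F h k) e (e x)) := by
      rw [← h1]; abel
    have hS1 := smooth_S1 hF hh k
    have hSk := smooth_S3 hF hh k
    have hSk1 := smooth_S3 hF hh (k + 1)
    have h4 : (S3 F h (k + 2)) = fun x => (2 * S3 F h (k + 1) x - S3 F h k x) + S1 F h k x := by
      funext x
      rw [S3_succ, S2_succ, S3_succ (k := k)]; ring
    have h5 : ddc (S3 F h (k + 2)) e (e x) = (2 : ℂ) • ddc (S3 F h (k + 1)) e (e x) -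
        ddc (S3 F h k) e (e x) + ddc (S1 F h k) e (e x) := by
      rw [h4, ddc_add ((hSk1.const_mul 2).sub hSk) hS1 e x hx]
      show ddc (fun x => 2 * S3 F h (k + 1) x - S3 F h k x) e (e x) + _ = _
      rw [ddc_sub (hSk1.const_mul 2) hSk e x hx]
      show ddc (fun x => 2 * S3 F h (k + 1) x) e (e x) - _ + _ = _
      rw [ddc_const_mul 2 hSk1 e x hx]
      norm_num
    show Wk F w (k + 2) e (e x) = _
    rw [h3, ih.1 e x hx, ih.2 e x hx]
    simp only []
    show _ = w e (e x) + _ + _ + ddc (S3 F h (k + 2)) e (e x)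
    rw [h5]
    ext i j
    simp only [Matrix.add_apply, Matrix.sub_apply, Matrix.smul_apply, smul_eq_mul]
    push_cast
    ring

lemma Wk_posSemidef {w : Fm d X} (hw : ∀ e x, At e x → (w e (e x)).PosSemidef) (k : ℕ) :
    ∀ e x, At e x → (Wk F w k e (e x)).PosSemidef := by
  induction k with
  | zero => exact hw
  | succ k ih => intro e x _; exact pull_posSemidef F ih

end

section curv
variable {ι : Type} {L : LineBundle d X ι} {ρ : ι → X → ℝ}

lemma ddc_rho (hρ : IsMetric L ρ) {i j : ι} {e : Chart d X} {x : X} (hx : At e x)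
    (hi : x ∈ L.U i) (hj : x ∈ L.U j) : ddc (ρ i) e (e x) = ddc (ρ j) e (e x) := by
  have hopen : ∀ᶠ z in 𝓝 (e x), e.symm z ∈ L.U i ∧ e.symm z ∈ L.U j := by
    have hc : ContinuousAt e.symm (e x) := e.continuousAt_symm hx.mem_target
    refine hc.eventually (p := fun y => y ∈ L.U i ∧ y ∈ L.U j) ?_
    rw [hx.left_inv]
    exact Filter.inter_mem ((L.isOpen i).mem_nhds hi) ((L.isOpen j).mem_nhds hj)
  have h1 : (fun z => ρ i (e.symm z)) =ᶠ[𝓝 (e x)]
      fun z => ρ j (e.symm z) + Real.log (‖L.g i j (e.symm z)‖ ^ 2) := by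
    filter_upwards [hopen] with z hz
    exact hρ.change i j _ hz.1 hz.2
  have hg : ContDiffAt ℂ ω (fun z => L.g i j (e.symm z)) (e x) :=
    (L.holo i j e x hx hi hj).contDiffAt
  have hg0 : L.g i j (e.symm (e x)) ≠ 0 := by
    rw [hx.left_inv]; exact L.ne_zero i j x hi hj
  have h3 : ContDiffAt ℝ 2 (fun z => Real.log (‖L.g i j (e.symm z)‖ ^ 2)) (e x) := by
    have h4 : ContDiffAt ℝ 2 (fun z => L.g i j (e.symm z)) (e x) :=
      (hg.restrict_scalars ℝ).of_le (by exact le_top)
    exact (h4.norm_sq ℝ).log (pow_ne_zero 2 (norm_ne_zero_iff.2 hg0))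
  unfold ddc
  rw [cHess_congr h1, cHess_add ((hρ.smooth j e x hx hj).of_le (by norm_cast)) h3,
    cHess_log_norm_sq hg hg0, add_zero]

lemma curvature_eq (hρ : IsMetric L ρ) {i : ι} {e : Chart d X} {x : X} (hx : At e x)
    (hi : x ∈ L.U i) : curvature L ρ e (e x) = ddc (ρ i) e (e x) := by
  unfold curvature
  have h0 : e.symm (e x) = x := hx.left_inv
  have hs : x ∈ L.U (L.cover (e.symm (e x))).choose :=
    @Eq.subst X (fun y => y ∈ L.U (L.cover (e.symm (e x))).choose) _ _ h0
      (L.cover (e.symm (e x))).choose_spec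
  exact ddc_rho hρ hx hs hi

lemma curvature_ev (hρ : IsMetric L ρ) {i : ι} {e : Chart d X} {x : X} (hx : At e x)
    (hi : x ∈ L.U i) : curvature L ρ e =ᶠ[𝓝 (e x)] ddc (ρ i) e := by
  have hopen : ∀ᶠ z in 𝓝 (e x), e.symm z ∈ L.U i := by
    have hc : ContinuousAt e.symm (e x) := e.continuousAt_symm hx.mem_target
    refine hc.eventually (p := fun y => y ∈ L.U i) ?_
    rw [hx.left_inv]
    exact (L.isOpen i).mem_nhds hi
  filter_upwards [hopen, hx.nhds_target] with z hz hz'
  have := curvature_eq hρ (At.of_target hx.1 hz') hz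
  rwa [e.right_inv hz'] at this

lemma isForm_curvature (hρ : IsMetric L ρ) : IsForm (curvature L ρ) := by
  intro e e' x h h'
  obtain ⟨i, hi⟩ := L.cover x
  rw [curvature_eq hρ h hi, curvature_eq hρ h' hi]
  have h1 : (fun y => ρ i (e.symm y)) =ᶠ[𝓝 (e x)] fun y => ρ i (e'.symm (e' (e.symm y))) := by
    filter_upwards [h.nhds_at h'] with z hz
    rw [hz.2.2.left_inv]
  have h2 : e' (e.symm (e x)) = e' x := by rw [h.left_inv]
  unfold ddc
  rw [cHess_congr h1]
  have := cHess_comp (τ := fun z => e' (e.symm z)) (f := fun y => ρ i (e'.symm y)) (z := e x)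
    (by rw [h2]; exact (hρ.smooth i e' x h' hi).of_le (by norm_cast)) (transition h h')
  rw [h2] at this
  exact this

end curv

end Vale.Agent.P301.H599
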