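import Vale.Agent.P301.H599.Vol

/-! P301, H599: the volume form of the symplectic form is invariant under automorphisms. -/

open scoped Manifold ContDiff ComplexOrder Topology
open Filter Metric Set MeasureTheory

set_option linter.all false

noncomputable section

namespace Vale.Agent.P301.H599

open Vale.Agent.P272.K

variable {d : ℕ} {X : Type} [TopologicalSpace X] [ChartedSpace (Cm d) X]

/-- pullback of a holomorphic 2-form -/
def pull2 (F : X → X) (b : Fm d X) : Fm d X :=
  fun e z =>
    let y := F (e.symm z)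
    let e' : Chart d X := chartAt (Cm d) y
    (jacF F e e' z).transpose * b e' (e' y) * jacF F e e' z

variable [IsManifold 𝓘(ℂ, Cm d) ω X]

section
variable {F : X → X} {s : Fm d X}

lemma pull2_eq (hF : ContMDiff 𝓘(ℂ, Cm d) 𝓘(ℂ, Cm d) ω F) (hs : IsHolTwoForm s)
    {e e' : Chart d X} {x : X} (h : At e x) (h' : At e' (F x)) :
    pull2 F s e (e x) = (jacF F e e' (e x)).transpose * s e' (e' (F x)) *
      jacF F e e' (e x) := by
  have h0 : e.symm (e x) = x := h.left_inv
  unfold pull2
  simp only [h0]
  have hc := atChart (d := d) (F x)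
  rw [jacF_change hF h h' hc, hs.change e' _ (F x) h' hc]
  simp only [Matrix.transpose_mul, Matrix.mul_assoc]

lemma isHolTwoForm_pull2 (hF : ContMDiff 𝓘(ℂ, Cm d) 𝓘(ℂ, Cm d) ω F) (hs : IsHolTwoForm s) :
    IsHolTwoForm (pull2 F s) where
  holo e x h i j := by
    have hc := atChart (d := d) (F x)
    set e' := chartAt (Cm d) (F x)
    have h1 : (fun z => pull2 F s e z i j) =ᶠ[𝓝 (e x)] fun z => ((jacF F e e' z).transpose *
        s e' (e' (F (e.symm z))) * jacF F e e' z) i j := by
      filter_upwards [map_near hF.continuous h hc] with z hz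
      have := pull2_eq hF hs hz.2.1 hz.2.2
      rw [e.right_inv hz.1] at this
      rw [this]
    refine AnalyticAt.congr ?_ h1.symm
    have h2 := map_holo hF h hc
    have hJ : ∀ p q, AnalyticAt ℂ (fun z => jacF F e e' z p q) (e x) := fun p q =>
      ((jmat_holo h2 p q).analyticAt)
    have h3 : AnalyticAt ℂ (fun z => e' (F (e.symm z))) (e x) :=
      h2.analyticAt
    have hB : ∀ p q, AnalyticAt ℂ (fun z => s e' (e' (F (e.symm z))) p q) (e x) := by
      intro p q
      refine AnalyticAt.comp' (g := fun y => s e' y p q) (f := fun z => e' (F (e.symm z))) ?_ h3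
      rw [h.left_inv]
      exact hs.holo e' (F x) hc p q
    simp only [Matrix.mul_apply, Matrix.transpose_apply]
    refine Finset.analyticAt_fun_sum _ fun q _ => (AnalyticAt.mul ?_ (hJ q j))
    exact Finset.analyticAt_fun_sum _ fun p _ => (hJ p i).mul (hB p q)
  alt e x h := by
    have hc := atChart (d := d) (F x)
    rw [pull2_eq hF hs h hc]
    simp only [Matrix.transpose_mul, Matrix.transpose_transpose]
    rw [hs.alt _ _ hc]
    simp [Matrix.mul_assoc]
  change e e' x h h' := by
    have hc := atChart (d := d) (F x)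
    rw [pull2_eq hF hs h hc, pull2_eq hF hs h' hc, jacF_source hF h h' hc]
    simp only [Matrix.transpose_mul, Matrix.mul_assoc]

/-- the volume density of a 2-form -/
def vol2 (s : Fm d X) : Chart d X → Cm d → ℝ := fun e z => ‖(s e z).det‖

lemma det_continuousAt {M : Cm d → Matrix (Fin d) (Fin d) ℂ} {a : Cm d}
    (h : ∀ i j, ContinuousAt (fun z => M z i j) a) : ContinuousAt (fun z => (M z).det) a := by
  have : (fun z => (M z).det) = fun z => ∑ σ : Equiv.Perm (Fin d),
      (Equiv.Perm.sign σ : ℂ) * ∏ i, M z (σ i) i := by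
    funext z; rw [Matrix.det_apply']
  rw [this]
  exact tendsto_finset_sum _ fun σ _ => (tendsto_const_nhds).mul
    (tendsto_finset_prod _ fun i _ => h (σ i) i)

lemma isDensity_vol2 (hs : IsHolTwoForm s) : INT.IsDensity (vol2 s) where
  cont e x h := (det_continuousAt fun i j => (hs.holo e x h i j).continuousAt).norm
  change e e' x h h' := by
    unfold vol2
    rw [hs.change e e' x h h', Matrix.det_mul, Matrix.det_mul, Matrix.det_transpose, norm_mul,
      norm_mul]
    ring

lemma pullD_vol2 (hF : ContMDiff 𝓘(ℂ, Cm d) 𝓘(ℂ, Cm d) ω F) (hs : IsHolTwoForm s)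
    {e : Chart d X} {x : X} (h : At e x) :
    pullD F (vol2 s) e (e x) = vol2 (pull2 F s) e (e x) := by
  have hc := atChart (d := d) (F x)
  rw [pullD_eq hF (isDensity_vol2 hs) h hc]
  unfold vol2
  rw [pull2_eq hF hs h hc, Matrix.det_mul, Matrix.det_mul, Matrix.det_transpose, norm_mul,
      norm_mul]
  ring

end

variable [T2Space X] [CompactSpace X]

/-- the symplectic volume is invariant -/
theorem pullD_vol2_eq [Nonempty X] (F : Auto d X) {w s : Fm d X} (hs : IsSymplectic d X w s)
    {e : Chart d X} {x : X} (h : At e x) : pullD F (vol2 s) e (e x) = vol2 s e (e x) := by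
  have hF := F.contMDiff
  obtain ⟨a, ha⟩ := hs.unique _ (isHolTwoForm_pull2 hF hs.form)
  have hV := isDensity_vol2 hs.form
  have h1 : ∀ e x, At e x → pullD F (vol2 s) e (e x) = ‖a‖ ^ d * vol2 s e (e x) := by
    intro e x h
    rw [pullD_vol2 hF hs.form h]
    unfold vol2
    rw [ha e x h, Matrix.det_smul, norm_mul, norm_pow, Fintype.card_fin]
  have h2 : INT.intX (pullD F (vol2 s)) = ‖a‖ ^ d * INT.intX (vol2 s) := by
    rw [← INT.intX_const_mul]
    exact INT.intX_congr h1
  rw [intX_pullD F hV] at h2
  have h3 : 0 < INT.intX (vol2 s) := INT.intX_pos hV fun e x h => by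
    unfold vol2
    exact norm_pos_iff.2 (hs.nondeg e x h)
  have h4 : ‖a‖ ^ d = 1 := by
    have : (‖a‖ ^ d - 1) * INT.intX (vol2 s) = 0 := by linarith
    rcases mul_eq_zero.1 this with h | h
    · linarith
    · exact absurd h h3.ne'
  rw [h1 e x h, h4, one_mul]

/-- invariance of the integral -/
theorem intX_comp [Nonempty X] (F : Auto d X) {w s : Fm d X} (hs : IsSymplectic d X w s)
    {f : X → ℝ} (hf : Continuous f) :
    INT.intX (fun e z => f (F (e.symm z)) * vol2 s e z) =
      INT.intX (fun e z => f (e.symm z) * vol2 s e z) := by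
  have hF := F.contMDiff
  have hV := isDensity_vol2 hs.form
  rw [← intX_pullD F (hV.smul hf)]
  refine INT.intX_congr fun e x h => ?_
  have hc := atChart (d := d) (F x)
  have h1 := pullD_eq hF (hV.smul hf) h hc
  have h2 := pullD_eq hF hV h hc
  rw [pullD_vol2_eq F hs h] at h2
  rw [h1, h2, h.left_inv, hc.left_inv]
  ring

end Vale.Agent.P301.H599
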