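import Vale.Agent.P301.H599.Main

/-! P301, H599: proof of the main statement. -/

open scoped Manifold ContDiff ComplexOrder Topology
open Filter Metric Set MeasureTheory

set_option linter.all false

noncomputable section

namespace Vale.Agent.P301.H599

open Vale.Agent.P272.K Vale.Agent.P272.K.QN

variable {d : ℕ} {X : Type} [TopologicalSpace X] [ChartedSpace (Cm d) X]
  [IsManifold 𝓘(ℂ, Cm d) ω X] {ι : Type} {F : X → X} {L : LineBundle d X ι} {ρ : ι → X → ℝ}

/-- local smoothness of `ρ j ∘ F` -/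
lemma rhoF_smooth (hF : ContMDiff 𝓘(ℂ, Cm d) 𝓘(ℂ, Cm d) ω F) (hρ : IsMetric L ρ) {j : ι}
    {e : Chart d X} {x : X} (h : At e x) (hj : F x ∈ L.U j) :
    ContDiffAt ℝ ∞ (fun z => ρ j (F (e.symm z))) (e x) := by
  have hc := atChart (d := d) (F x)
  have h1 : (fun z => ρ j (F (e.symm z))) =ᶠ[𝓝 (e x)]
      fun z => ρ j ((chartAt (Cm d) (F x)).symm (chartAt (Cm d) (F x) (F (e.symm z)))) := by
    filter_upwards [map_near hF.continuous h hc] with z hz
    rw [hz.2.2.left_inv]
  refine ContDiffAt.congr_of_eventuallyEq ?_ h1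
  have h2 : ContDiffAt ℝ ∞ (fun z => chartAt (Cm d) (F x) (F (e.symm z))) (e x) :=
    ((map_holo hF h hc).restrict_scalars ℝ).of_le (by exact le_top)
  refine ContDiffAt.comp (e x) (g := fun y => ρ j ((chartAt (Cm d) (F x)).symm y)) ?_ h2
  rw [h.left_inv]
  exact hρ.smooth j _ _ hc hj

lemma rhoF_ddc (hF : ContMDiff 𝓘(ℂ, Cm d) 𝓘(ℂ, Cm d) ω F) (hρ : IsMetric L ρ) {j : ι}
    {e : Chart d X} {x : X} (h : At e x) (hj : F x ∈ L.U j) :
    cHess (fun z => ρ j (F (e.symm z))) (e x) = pull F (curvature L ρ) e (e x) := by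
  have hc := atChart (d := d) (F x)
  rw [pull_eq hF (isForm_curvature hρ) h hc, curvature_eq hρ hc hj]
  have h1 : (fun z => ρ j (F (e.symm z))) =ᶠ[𝓝 (e x)]
      fun z => ρ j ((chartAt (Cm d) (F x)).symm (chartAt (Cm d) (F x) (F (e.symm z)))) := by
    filter_upwards [map_near hF.continuous h hc] with z hz
    rw [hz.2.2.left_inv]
  rw [cHess_congr h1]
  have h2 : chartAt (Cm d) (F x) (F (e.symm (e x))) = chartAt (Cm d) (F x) (F x) := by
    rw [h.left_inv]
  have := cHess_comp (τ := fun z => chartAt (Cm d) (F x) (F (e.symm z)))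
    (f := fun y => ρ j ((chartAt (Cm d) (F x)).symm y)) (z := e x)
    (by rw [h2]; exact (hρ.smooth j _ _ hc hj).of_le (by norm_cast)) (map_holo hF h hc)
  rw [h2] at this
  exact this

/-- the transition function of the weights along `F` is pluriharmonic -/
theorem Dat.pluriharmonic {F : Auto d X} {w : Fm d X} {c : ℝ} {u h : X → ℝ}
    (D : Dat F w L ρ c u h) {i j : ι} {e : Chart d X} {x : X} (hx : At e x) (hi : x ∈ L.U i)
    (hj : F x ∈ L.U j) :
    ContDiffAt ℝ ∞ (fun z => (ρ j (F (e.symm z)) + u (F (e.symm z)) / c) -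
      (ρ i (e.symm z) + u (e.symm z) / c) - h (e.symm z) / c) (e x) ∧
    cHess (fun z => (ρ j (F (e.symm z)) + u (F (e.symm z)) / c) -
      (ρ i (e.symm z) + u (e.symm z) / c) - h (e.symm z) / c) (e x) = 0 := by
  have hF := F.contMDiff
  have hc := D.cpos
  have s1 := rhoF_smooth hF D.metric hx hj
  have s2 := D.metric.smooth i e x hx hi
  have suF : Smooth (d := d) (fun y => u (F y)) := Smooth.comp hF D.su
  have s3 := suF e x hx
  have s4 := D.su e x hx
  have s5 := D.sh e x hx
  refine ⟨((s1.add (s3.div_const c)).sub (s2.add (s4.div_const c))).sub (s5.div_const c), ?_⟩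
  have t1 : ContDiffAt ℝ 2 (fun z => ρ j (F (e.symm z))) (e x) := s1.of_le (by norm_cast)
  have t2 : ContDiffAt ℝ 2 (fun z => ρ i (e.symm z)) (e x) := s2.of_le (by norm_cast)
  have t3 : ContDiffAt ℝ 2 (fun z => u (F (e.symm z))) (e x) := s3.of_le (by norm_cast)
  have t4 : ContDiffAt ℝ 2 (fun z => u (e.symm z)) (e x) := s4.of_le (by norm_cast)
  have t5 : ContDiffAt ℝ 2 (fun z => h (e.symm z)) (e x) := s5.of_le (by norm_cast)
  have e1 : (fun z => (ρ j (F (e.symm z)) + u (F (e.symm z)) / c) -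
      (ρ i (e.symm z) + u (e.symm z) / c) - h (e.symm z) / c) = fun z =>
      (fun z => (fun z => (fun z => ρ j (F (e.symm z))) z +
        (fun z => (1 / c) * u (F (e.symm z))) z) z -
        (fun z => (fun z => ρ i (e.symm z)) z + (fun z => (1 / c) * u (e.symm z)) z) z) z -
        (fun z => (1 / c) * h (e.symm z)) z := by
    funext z; simp only []; ring
  rw [e1, cHess_sub ((t1.add (contDiffAt_const.mul t3)).sub (t2.add (contDiffAt_const.mul t4)))
    (contDiffAt_const.mul t5), cHess_sub (t1.add (contDiffAt_const.mul t3))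
    (t2.add (contDiffAt_const.mul t4)), cHess_add t1 (contDiffAt_const.mul t3),
    cHess_add t2 (contDiffAt_const.mul t4), cHess_const_mul _ t3, cHess_const_mul _ t4,
    cHess_const_mul _ t5, rhoF_ddc hF D.metric hx hj]
  have hcv : cHess (fun z => ρ i (e.symm z)) (e x) = curvature L ρ e (e x) :=
    (curvature_eq D.metric hx hi).symm
  have huF : cHess (fun z => u (F (e.symm z))) (e x) = pull F (ddc u) e (e x) :=
    ddc_comp hF D.su e x hx
  rw [hcv, huF]
  have h1 := D.pdd e x hx
  have h2 := pull_congr F D.dd e x hx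
  rw [pull_add F (fun e z => (c : ℂ) • curvature L ρ e z) (ddc u), pull_smul] at h2
  have h3 := D.dd e x hx
  simp only [] at h1 h2 h3
  rw [h2, h3] at h1
  have hcc : (c : ℂ) ≠ 0 := by exact_mod_cast hc.ne'
  have h4 : pull F (curvature L ρ) e (e x) = ((1 / c : ℝ) : ℂ) • ((c : ℂ) • curvature L ρ e (e x) +
      ddc u e (e x) + ddc h e (e x) - pull F (ddc u) e (e x)) := by
    rw [← h1]
    ext p q
    simp only [Matrix.add_apply, Matrix.sub_apply, Matrix.smul_apply, smul_eq_mul]
    push_cast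
    field_simp
    ring
  rw [h4]
  have e2 : cHess (fun z => u (e.symm z)) (e x) = ddc u e (e x) := rfl
  have e3 : cHess (fun z => h (e.symm z)) (e x) = ddc h e (e x) := rfl
  rw [e2, e3]
  ext p q
  simp only [Matrix.add_apply, Matrix.sub_apply, Matrix.smul_apply, smul_eq_mul, Matrix.zero_apply]
  push_cast
  field_simp
  ring

theorem mainStatement : MainStatement := by
  intro d X _ _ _ _ _ _ w s hs ι L ρ hρ F c hc hθ hdd
  obtain ⟨v, hv, hve⟩ := hθ
  obtain ⟨u, hu, hue⟩ := hdd
  have hF := F.contMDiff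
  -- the function `h₀`
  have hDD : FEq (DD F w) (fun e z => (c : ℂ) • curvature L ρ e z + ddc u e z) := hue
  have huF : Smooth (d := d) (fun y => u (F y)) := Smooth.comp hF hu
  set h₀ : X → ℝ := fun y => (c * v y + u (F y)) - u y with hh₀
  have hh₀s : Smooth (d := d) h₀ := ((hv.const_mul c).add huF).sub hu
  have hD₀ : FEq (pull F (DD F w)) (fun e z => DD F w e z + ddc h₀ e z) := by
    intro e x hx
    rw [pull_congr F hDD e x hx, pull_add F (fun e z => (c : ℂ) • curvature L ρ e z) (ddc u),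
      pull_smul]
    show (c : ℂ) • pull F (curvature L ρ) e (e x) + pull F (ddc u) e (e x) =
      DD F w e (e x) + ddc h₀ e (e x)
    rw [hve e x hx, hDD e x hx, ← ddc_comp hF hu e x hx, hh₀,
      ddc_sub ((hv.const_mul c).add huF) hu e x hx]
    show _ = _ + (ddc (fun y => c * v y + u (F y)) e (e x) - ddc u e (e x))
    rw [ddc_add (hv.const_mul c) huF e x hx]
    show _ = _ + (ddc (fun y => c * v y) e (e x) + ddc (fun y => u (F y)) e (e x) - ddc u e (e x))
    rw [ddc_const_mul c hv e x hx]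
    simp only [smul_add]
    abel
  obtain ⟨t, hup, hD, horb⟩ := exists_data F hs hh₀s hD₀
  set h : X → ℝ := fun y => h₀ y - t with hh
  have hhs : Smooth (d := d) h := hh₀s.sub (Smooth.const _)
  have D : Dat F w L ρ c u h := ⟨hs.kahler, hρ, hc, hu, hhs, hDD, hD, hup, horb⟩
  refine ⟨psi F ρ c u h, ⟨fun i e he => D.psh i he, fun i j x hi hj => ?_⟩,
    fun i e x hx hi => D.lelong_eq_zero i hx hi, fun K hK hne hFK => ?_, fun i j x hi hj => ?_⟩
  · unfold psi
    rw [add_assoc, ← EReal.coe_add, hρ.change i j x hi hj]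
    congr 2
    ring
  · obtain ⟨x, hx, hx'⟩ := exists_finite (F := F) (h := h) (c := c) hK.isCompact hne hFK hc horb
    obtain ⟨i, hi⟩ := L.cover x
    refine ⟨i, x, ⟨hx, hi⟩, fun hbot => ?_⟩
    unfold psi at hbot
    rw [EReal.add_eq_bot_iff] at hbot
    rcases hbot with hbot | hbot
    · rw [hbot] at hx'
      exact absurd hx' (not_le.2 (EReal.bot_lt_coe _))
    · exact absurd hbot (EReal.coe_ne_bot _)
  · refine ⟨fun y => (ρ j (F y) + u (F y) / c) - (ρ i y + u y / c) - h y / c,
      Eventually.of_forall fun y => ?_, fun e hx => ?_⟩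
    · unfold psi
      rw [D.comp_eq y, add_assoc, add_assoc, ← EReal.coe_add, ← EReal.coe_add]
      congr 2
      ring
    · have h1 : ∀ᶠ z in 𝓝 (e x), z ∈ e.target ∧ e.symm z ∈ L.U i ∧ F (e.symm z) ∈ L.U j := by
        have c1 : Tendsto e.symm (𝓝 (e x)) (𝓝 x) := by
          have := (e.continuousAt_symm hx.mem_target).tendsto
          rwa [hx.left_inv] at this
        have c2 : Tendsto (fun z => F (e.symm z)) (𝓝 (e x)) (𝓝 (F x)) :=
          (F.continuous.tendsto x).comp c1
        filter_upwards [hx.nhds_target, c1.eventually ((L.isOpen i).mem_nhds hi),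
          c2.eventually ((L.isOpen j).mem_nhds hj)] with z h1 h2 h3
        exact ⟨h1, h2, h3⟩
      filter_upwards [h1] with z hz
      have hAt : At e (e.symm z) := At.of_target hx.1 hz.1
      have := D.pluriharmonic hAt hz.2.1 hz.2.2
      rw [e.right_inv hz.1] at this
      exact this

end Vale.Agent.P301.H599
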