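import Vale.Agent.P301.H599.Sup
import Vale.Agent.P272.K.QN.H527.Tools

/-! P301, H599: the upper bound `G_k ≤ C k²`. -/

open scoped Manifold ContDiff ComplexOrder Topology
open Filter Metric Set MeasureTheory

set_option linter.all false

noncomputable section

namespace Vale.Agent.P301.H599

open Vale.Agent.P272.K Vale.Agent.P272.K.QN

variable {d : ℕ} {X : Type} [TopologicalSpace X] [ChartedSpace (Cm d) X]
  [IsManifold 𝓘(ℂ, Cm d) ω X]

/-- smooth coefficients -/
def SmF (b : Fm d X) : Prop :=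
  ∀ e x, At e x → ∀ i j, ContDiffAt ℝ ∞ (fun z => b e z i j) (e x)

/-- Hermitian matrices -/
def HF (b : Fm d X) : Prop := ∀ e x, At e x → (b e (e x)).IsHermitian

section
variable {F : X → X}

lemma smF_pull (hF : ContMDiff 𝓘(ℂ, Cm d) 𝓘(ℂ, Cm d) ω F) {b : Fm d X} (hb : IsForm b)
    (hs : SmF b) : SmF (pull F b) := by
  intro e x h i j
  have hc := atChart (d := d) (F x)
  set e' := chartAt (Cm d) (F x)
  have h1 : (fun z => pull F b e z i j) =ᶠ[𝓝 (e x)] fun z => ((jacF F e e' z).transpose *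
      b e' (e' (F (e.symm z))) * (jacF F e e' z).map (starRingEnd ℂ)) i j := by
    filter_upwards [map_near hF.continuous h hc] with z hz
    have := pull_eq hF hb hz.2.1 hz.2.2
    rw [e.right_inv hz.1] at this
    rw [this]
  refine ContDiffAt.congr_of_eventuallyEq ?_ h1
  have h2 := map_holo hF h hc
  have hJ : ∀ p q, ContDiffAt ℝ ∞ (fun z => jacF F e e' z p q) (e x) := fun p q =>
    ((jmat_holo h2 p q).restrict_scalars ℝ).of_le (by exact le_top)
  have h3 : ContDiffAt ℝ ∞ (fun z => e' (F (e.symm z))) (e x) :=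
    (h2.restrict_scalars ℝ).of_le (by exact le_top)
  have hB : ∀ p q, ContDiffAt ℝ ∞ (fun z => b e' (e' (F (e.symm z))) p q) (e x) := by
    intro p q
    refine ContDiffAt.comp (e x) (g := fun y => b e' y p q) ?_ h3
    rw [h.left_inv]
    exact hs e' (F x) hc p q
  have hcj : ∀ p q, ContDiffAt ℝ ∞ (fun z => (starRingEnd ℂ) (jacF F e e' z p q)) (e x) :=
    fun p q => Complex.conjCLE.contDiff.contDiffAt.comp (e x) (hJ p q)
  simp only [Matrix.mul_apply, Matrix.transpose_apply, Matrix.map_apply]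
  exact ContDiffAt.sum fun q _ => (ContDiffAt.sum fun p _ => (hJ p i).mul (hB p q)).mul (hcj q j)

lemma hF_pull {b : Fm d X} (hb : HF b) : HF (pull F b) := by
  intro e x h
  unfold pull
  simp only []
  set y := F (e.symm (e x))
  set J := jacF F e (chartAt (Cm d) y) (e x)
  have h1 := hb _ _ (atChart (d := d) y)
  have h2 := Matrix.isHermitian_conjTranspose_mul_mul (J.map (starRingEnd ℂ)) h1
  convert h2 using 2
  congr 1
  ext i j
  simp [Matrix.conjTranspose_apply, Matrix.map_apply]

lemma smF_DD (hF : ContMDiff 𝓘(ℂ, Cm d) 𝓘(ℂ, Cm d) ω F) {b : Fm d X} (hb : IsForm b)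
    (hs : SmF b) : SmF (DD F b) := by
  intro e x h i j
  have h1 := smF_pull hF hb hs e x h i j
  have h2 := smF_pull hF (isForm_pull hF hb) (smF_pull hF hb hs) e x h i j
  have h3 : ContDiffAt ℝ ∞ (fun z => (2 : ℂ) * pull F b e z i j) (e x) := contDiffAt_const.mul h1
  have h4 := (h2.sub h3).add (hs e x h i j)
  exact h4

lemma hF_DD {b : Fm d X} (hb : HF b) : HF (DD F b) := by
  intro e x h
  have h1 := hF_pull (F := F) hb e x h
  have h2 := hF_pull (F := F) (hF_pull (F := F) hb) e x h
  have h3 : ((2 : ℂ) • pull F b e (e x)).IsHermitian := by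
    unfold Matrix.IsHermitian
    rw [Matrix.conjTranspose_smul, h1.eq]
    norm_num
  exact (h2.sub h3).add (hb e x h)

end

variable [T2Space X] [CompactSpace X]

/-- uniform lower bound for the Hessians of `G_k / k²` -/
theorem exists_A (F : Auto d X) {w : Fm d X} (hw : IsKahler w) {h : X → ℝ}
    (hh : Smooth (d := d) h)
    (hD : FEq (pull F (DD F w)) (fun e z => DD F w e z + ddc h e z)) :
    ∃ A : ℝ, 0 ≤ A ∧ ∀ k : ℕ, 1 ≤ k → ∀ e x, At e x →
      (cHess (fun z => (fun y => S3 F h k y / (k : ℝ) ^ 2) (e.symm z)) (e x) +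
        (A : ℂ) • w e (e x)).PosSemidef := by
  have hF := F.contMDiff
  have hwF : IsForm w := hw.toIsHermitian.isForm
  have hwS : SmF w := hw.smooth
  have hwH : HF w := fun e x h => (hw.posDef e x h).isHermitian
  obtain ⟨B₁, hB₁, h1⟩ := exists_comparison_form hw.toIsHermitian (smF_pull hF hwF hwS)
    (hF_pull hwH) (isForm_pull hF hwF)
  obtain ⟨B₂, hB₂, h2⟩ := exists_comparison_form hw.toIsHermitian (smF_DD hF hwF hwS)
    (hF_DD hwH) (isForm_DD hF hwF)
  refine ⟨1 + B₁ + B₂, by positivity, fun k hk e x hx => ?_⟩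
  have hk0 : (0 : ℝ) < k := by exact_mod_cast hk
  have hW := Wk_posSemidef (F := F) (w := w) (fun e x h => (hw.posDef e x h).posSemidef) k e x hx
  have hWk := Wk_eq hF hh hD k e x hx
  have hS : Smooth (d := d) (S3 F h k) := smooth_S3 hF hh k
  have hc : cHess (fun z => (fun y => S3 F h k y / (k : ℝ) ^ 2) (e.symm z)) (e x) =
      (((k : ℝ) ^ 2)⁻¹ : ℝ) • ddc (S3 F h k) e (e x) := by
    have h5 := ddc_const_mul (((k : ℝ) ^ 2)⁻¹) hS e x hx
    have h6 : (fun z => (fun y => S3 F h k y / (k : ℝ) ^ 2) (e.symm z)) =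
        fun z => ((k : ℝ) ^ 2)⁻¹ * S3 F h k (e.symm z) := by
      funext z; simp only []; rw [div_eq_inv_mul]
    rw [h6]
    refine Eq.trans h5 ?_
    ext i j; simp
  rw [hc]
  set M := w e (e x) with hM
  set P := pull F w e (e x) with hP
  set Q := DD F w e (e x) with hQ
  set G := ddc (S3 F h k) e (e x) with hG
  have hMp : M.PosSemidef := (hw.posDef e x hx).posSemidef
  have c1 := h1 e x hx
  have c2 := h2 e x hx
  -- the identity
  have hid : (((k : ℝ) ^ 2)⁻¹ : ℝ) • G + ((1 + B₁ + B₂ : ℝ) : ℂ) • M =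
      (((k : ℝ) ^ 2)⁻¹ : ℝ) • Wk F w k e (e x) +
      ((k : ℝ)⁻¹) • ((B₁ : ℂ) • M - P) + ((k - 1) / (2 * k) : ℝ) • ((B₂ : ℂ) • M - Q) +
      (1 + B₁ + B₂ - ((k : ℝ) ^ 2)⁻¹ + (k : ℝ)⁻¹ - B₁ * (k : ℝ)⁻¹ - B₂ * ((k - 1) / (2 * k)) : ℝ) •
        M := by
    rw [hWk]
    simp only []
    rw [← hM, ← hP, ← hQ, ← hG]
    have hk1 : (k : ℂ) ≠ 0 := by exact_mod_cast hk0.ne'
    ext i j
    simp only [Matrix.add_apply, Matrix.sub_apply, Matrix.smul_apply, smul_eq_mul,
      Complex.real_smul]
    push_cast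
    field_simp
    ring
  rw [hid]
  have hkinv : (k : ℝ)⁻¹ ≤ 1 := inv_le_one_of_one_le₀ (by exact_mod_cast hk)
  have hkinv0 : 0 ≤ (k : ℝ)⁻¹ := by positivity
  have hk2 : ((k : ℝ) ^ 2)⁻¹ ≤ 1 := by
    exact inv_le_one_of_one_le₀ (one_le_pow₀ (by exact_mod_cast hk))
  have hq0 : 0 ≤ ((k : ℝ) - 1) / (2 * k) := by
    apply div_nonneg _ (by positivity)
    have : (1 : ℝ) ≤ k := by exact_mod_cast hk
    linarith
  have hq1 : ((k : ℝ) - 1) / (2 * k) ≤ 1 := by
    rw [div_le_one (by positivity)]; linarith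
  refine ((hW.smul (by positivity)).add (c1.smul hkinv0)).add (c2.smul hq0) |>.add (hMp.smul ?_)
  nlinarith

variable [ConnectedSpace X]

/-- **The upper bound.** -/
theorem S3_upper (F : Auto d X) {w : Fm d X} (hw : IsKahler w) {h : X → ℝ}
    (hh : Smooth (d := d) h)
    (hD : FEq (pull F (DD F w)) (fun e z => DD F w e z + ddc h e z))
    {V : Chart d X → Cm d → ℝ} (hV : INT.IsDensity V) (hV0 : ∀ e x, At e x → 0 < V e (e x))
    (hinv : ∀ f : X → ℝ, Continuous f → INT.intX (fun e z => f (F (e.symm z)) * V e z) =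
      INT.intX (fun e z => f (e.symm z) * V e z))
    (hint : INT.intX (fun e z => h (e.symm z) * V e z) = 0) :
    ∃ C : ℝ, ∀ (k : ℕ) (x : X), S3 F h k x ≤ C * (k : ℝ) ^ 2 := by
  classical
  have hF := F.contMDiff
  obtain ⟨A, hA, hAk⟩ := exists_A F hw hh hD
  obtain ⟨M, hM⟩ := exists_intX_lower hw.toIsHermitian hA 0 hV (fun e x hx => (hV0 e x hx).le)
  have hI : 0 < INT.intX V := INT.intX_pos hV hV0
  have hcont : ∀ {u : X → ℝ}, Smooth (d := d) u → Continuous u := fun hu =>
    INT.SmoothFn.continuous hu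
  -- integrals of the iterated sums vanish
  have hadd : ∀ f g : X → ℝ, Continuous f → Continuous g →
      INT.intX (fun e z => (f (e.symm z) + g (e.symm z)) * V e z) =
      INT.intX (fun e z => f (e.symm z) * V e z) + INT.intX (fun e z => g (e.symm z) * V e z) := by
    intro f g hf hg
    rw [← INT.intX_add (hV.smul hf) (hV.smul hg)]
    refine INT.intX_congr fun e x hx => ?_
    ring
  have hz : INT.intX (fun e z => (0 : ℝ) * V e z) = 0 := by
    simp only [zero_mul]; exact INT.intX_zero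
  have hiter : ∀ l, INT.intX (fun e z => h (F^[l] (e.symm z)) * V e z) = 0 := by
    intro l
    induction l with
    | zero => exact hint
    | succ l ih =>
      have := hinv (fun x => h (F^[l] x)) (hcont (smooth_iter hF hh l))
      rw [ih] at this
      rw [← this]
      rfl
  have hS1 : ∀ k, INT.intX (fun e z => S1 F h k (e.symm z) * V e z) = 0 := by
    intro k
    induction k with
    | zero => simp only [S1_zero]; exact hz
    | succ k ih =>
      simp only [S1_succ]
      rw [hadd (S1 F h k) (fun x => h (F^[k] x)) (hcont (smooth_S1 hF hh k))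
        (hcont (smooth_iter hF hh k)), ih, hiter, add_zero]
  have hS2 : ∀ k, INT.intX (fun e z => S2 F h k (e.symm z) * V e z) = 0 := by
    intro k
    induction k with
    | zero => simp only [S2_zero]; exact hz
    | succ k ih =>
      simp only [S2_succ]
      rw [hadd (S2 F h k) (S1 F h k) (hcont (smooth_S2 hF hh k))
        (hcont (smooth_S1 hF hh k)), ih, hS1, add_zero]
  have hS3 : ∀ k, INT.intX (fun e z => S3 F h k (e.symm z) * V e z) = 0 := by
    intro k
    induction k with
    | zero => simp only [S3_zero]; exact hz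
    | succ k ih =>
      simp only [S3_succ]
      rw [hadd (S3 F h k) (S2 F h k) (hcont (smooth_S3 hF hh k))
        (hcont (smooth_S2 hF hh k)), ih, hS2, add_zero]
  refine ⟨M / INT.intX V, fun k x => ?_⟩
  rcases Nat.eq_zero_or_pos k with rfl | hk
  · simp
  have hk0 : (0 : ℝ) < k := by exact_mod_cast hk
  set U : X → ℝ := fun y => S3 F h k y / (k : ℝ) ^ 2 with hU
  have hUs : Smooth (d := d) U := by
    have := (smooth_S3 hF hh k).const_mul (((k : ℝ) ^ 2)⁻¹)
    have h6 : U = fun z => ((k : ℝ) ^ 2)⁻¹ * S3 F h k z := by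
      funext z; simp only [hU]; rw [div_eq_inv_mul]
    rw [h6]; exact this
  have hUc := hcont hUs
  obtain ⟨p, -, hp⟩ := isCompact_univ.exists_isMaxOn (⟨x, trivial⟩ : (univ : Set X).Nonempty)
    hUc.continuousOn
  have hp' : ∀ y, U y ≤ U p := fun y => hp (mem_univ y)
  have hq : QPsh w A (fun y => U y - U p) := by
    refine ⟨hUs.sub (Smooth.const _), fun e y hy => ?_, fun y => sub_nonpos.2 (hp' y)⟩
    have h1 := hAk k hk e y hy
    have h2 : cHess (fun z => U (e.symm z) - U p) (e y) =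
        cHess (fun z => U (e.symm z)) (e y) := by
      have h3 := ddc_sub hUs (Smooth.const (U p)) e y hy
      have h4 := ddc_const (X := X) (U p) e y hy
      simp only [] at h3 h4
      rw [h4, sub_zero] at h3
      exact h3
    rw [h2]
    exact h1
  have h1 := hM _ hq ⟨p, by simp⟩
  have h2 : INT.intX (fun e z => (U (e.symm z) - U p) * V e z) =
      INT.intX (fun e z => U (e.symm z) * V e z) - U p * INT.intX V := by
    rw [← INT.intX_const_mul, ← INT.intX_sub (hV.smul hUc) (hV.const_mul _)]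
    refine INT.intX_congr fun e x hx => ?_
    ring
  have h3 : INT.intX (fun e z => U (e.symm z) * V e z) = 0 := by
    have h4 : INT.intX (fun e z => U (e.symm z) * V e z) =
        ((k : ℝ) ^ 2)⁻¹ * INT.intX (fun e z => S3 F h k (e.symm z) * V e z) := by
      rw [← INT.intX_const_mul]
      refine INT.intX_congr fun e x hx => ?_
      simp only [hU]; rw [div_eq_inv_mul]; ring
    rw [h4, hS3, mul_zero]
  rw [h2, h3, zero_sub, neg_le_neg_iff] at h1
  have h5 : U p ≤ M / INT.intX V := by rwa [le_div_iff₀ hI]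
  have h6 : U x ≤ M / INT.intX V := (hp' x).trans h5
  simp only [hU] at h6
  rwa [div_le_iff₀ (by positivity)] at h6

end Vale.Agent.P301.H599
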