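import Vale.Agent.P301.H599.LS
import Vale.Agent.P301.H599.Dyn

/-! P301, H599: the function `U = LS (UU F h c)` and the map `F`. -/

open Filter Topology Set

set_option linter.all false

noncomputable section

namespace Vale.Agent.P301.H599

variable {X : Type} {F : X → X} {h : X → ℝ} {c : ℝ} {x : X}

/-- the normalised iterated sums -/
def UU (F : X → X) (h : X → ℝ) (c : ℝ) (k : ℕ) (y : X) : ℝ := (2 / c) * (S3 F h k y / (k : ℝ) ^ 2)

lemma UU_comp (hc : 0 < c) {k : ℕ} (hk : 1 ≤ k) (y : X) :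
    UU F h c k (F y) = (((k : ℝ) + 1) / k) ^ 2 * UU F h c (k + 1) y -
      ((1 - 1 / (k : ℝ)) / c) * h y := by
  have hk0 : (k : ℝ) ≠ 0 := by positivity
  have hk1 : (k : ℝ) + 1 ≠ 0 := by positivity
  unfold UU
  rw [S3_comp]
  push_cast
  field_simp

lemma tendsto_lam : Tendsto (fun k : ℕ => (((k : ℝ) + 1) / k) ^ 2) atTop (𝓝 1) := by
  have h1 : Tendsto (fun k : ℕ => 1 + 1 / (k : ℝ)) atTop (𝓝 (1 + 0)) :=
    tendsto_const_nhds.add (tendsto_const_div_atTop_nhds_zero_nat 1)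
  have h2 := h1.pow 2
  rw [add_zero, one_pow] at h2
  refine h2.congr' ?_
  filter_upwards [eventually_ge_atTop 1] with k hk
  have hk0 : (k : ℝ) ≠ 0 := by positivity
  field_simp

lemma tendsto_mu (c : ℝ) : Tendsto (fun k : ℕ => (1 - 1 / (k : ℝ)) / c) atTop (𝓝 (1 / c)) := by
  have h1 : Tendsto (fun k : ℕ => (1 - 1 / (k : ℝ)) / c) atTop (𝓝 ((1 - 0) / c)) :=
    (tendsto_const_nhds.sub (tendsto_const_div_atTop_nhds_zero_nat 1)).div_const c
  simpa using h1

variable [TopologicalSpace X]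

/-- **Invariance**: `U (F x) = U x - h x / c`. -/
theorem LS_comp (hF : map F (𝓝 x) = 𝓝 (F x)) (hc : 0 < c) (hh : ContinuousAt h x) :
    LS (UU F h c) (F x) = LS (UU F h c) x + ((-(h x / c) : ℝ) : EReal) := by
  have hh' : Tendsto (fun p : ℕ × X => h p.2) (atTop ×ˢ 𝓝 x) (𝓝 (h x)) :=
    hh.tendsto.comp tendsto_snd
  have hl : Tendsto (fun p : ℕ × X => (((p.1 : ℝ) + 1) / p.1) ^ 2) (atTop ×ˢ 𝓝 x) (𝓝 1) :=
    tendsto_lam.comp tendsto_fst
  have hm : Tendsto (fun p : ℕ × X => (1 - 1 / (p.1 : ℝ)) / c) (atTop ×ˢ 𝓝 x) (𝓝 (1 / c)) :=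
    (tendsto_mu c).comp tendsto_fst
  have hk : ∀ᶠ p : ℕ × X in atTop ×ˢ 𝓝 x, 1 ≤ p.1 :=
    tendsto_fst.eventually (eventually_ge_atTop 1)
  rw [LS_map hF, ← LS_shift (g := UU F h c)]
  apply le_antisymm
  · refine LS_le_add _ fun s s' hs H => ?_
    have h1 : Tendsto (fun p : ℕ × X => (((p.1 : ℝ) + 1) / p.1) ^ 2 * s -
        ((1 - 1 / (p.1 : ℝ)) / c) * h p.2) (atTop ×ˢ 𝓝 x) (𝓝 (1 * s - 1 / c * h x)) :=
      (hl.mul_const s).sub (hm.mul hh')
    have h2 := h1.eventually_lt_const (show 1 * s - 1 / c * h x < s' + -(h x / c) by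
      have : 1 / c * h x = h x / c := by ring
      rw [this]; linarith)
    filter_upwards [H, h2, hk] with p hp hp' hpk
    rw [UU_comp hc hpk]
    have hpos : (0 : ℝ) < (((p.1 : ℝ) + 1) / p.1) ^ 2 := by
      have : (0 : ℝ) < p.1 := by exact_mod_cast hpk
      positivity
    have := mul_lt_mul_of_pos_left hp hpos
    linarith
  · have key : LS (fun k y => UU F h c (k + 1) y) x ≤
        LS (fun k y => UU F h c k (F y)) x + ((h x / c : ℝ) : EReal) := by
      refine LS_le_add _ fun s s' hs H => ?_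
      have h1 : Tendsto (fun p : ℕ × X => ((((p.1 : ℝ) + 1) / p.1) ^ 2)⁻¹ * (s +
          ((1 - 1 / (p.1 : ℝ)) / c) * h p.2)) (atTop ×ˢ 𝓝 x)
          (𝓝 ((1 : ℝ)⁻¹ * (s + 1 / c * h x))) :=
        (hl.inv₀ one_ne_zero).mul (tendsto_const_nhds.add (hm.mul hh'))
      have h2 := h1.eventually_lt_const (show (1 : ℝ)⁻¹ * (s + 1 / c * h x) < s' + h x / c by
        have : 1 / c * h x = h x / c := by ring
        rw [this]; linarith)
      filter_upwards [H, h2, hk] with p hp hp' hpk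
      rw [UU_comp hc hpk] at hp
      have hpos : (0 : ℝ) < (((p.1 : ℝ) + 1) / p.1) ^ 2 := by
        have : (0 : ℝ) < p.1 := by exact_mod_cast hpk
        positivity
      have h3 : UU F h c (p.1 + 1) p.2 < ((((p.1 : ℝ) + 1) / p.1) ^ 2)⁻¹ * (s +
          ((1 - 1 / (p.1 : ℝ)) / c) * h p.2) := by
        rw [inv_mul_eq_div, lt_div_iff₀ hpos]
        linarith
      linarith
    have h3 := add_le_add_left key ((-(h x / c) : ℝ) : EReal)
    rw [add_assoc, ← EReal.coe_add, add_neg_cancel, EReal.coe_zero, add_zero] at h3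
    exact h3

/-- a point of `K` where `U` is finite -/
theorem exists_finite {K : Set X} (hK : IsCompact K) (hne : K.Nonempty) (hFK : ∀ x ∈ K, F x ∈ K)
    (hc : 0 < c) (ho : ∀ (k : ℕ) (x : X), ∃ i : ℕ, -1 ≤ S3 F h k (F^[i] x)) :
    ∃ x ∈ K, ((-(2 / c) : ℝ) : EReal) ≤ LS (UU F h c) x := by
  obtain ⟨x₀, hx₀⟩ := hne
  have hit : ∀ i, F^[i] x₀ ∈ K := by
    intro i
    induction i with
    | zero => exact hx₀
    | succ i ih => rw [Function.iterate_succ_apply']; exact hFK _ ih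
  choose i hi using fun k => ho k x₀
  obtain ⟨x, hxK, hx⟩ := hK.exists_mapClusterPt (f := (atTop : Filter ℕ))
    (u := fun k => F^[i k] x₀) (by
      rw [le_principal_iff]
      exact Filter.mem_map.2 (univ_mem' fun k => hit (i k)))
  refine ⟨x, hxK, le_LS' ?_⟩
  rw [mapClusterPt_iff_frequently] at hx
  intro hcon
  rw [eventually_prod_iff] at hcon
  obtain ⟨P, hP, Q, hQ, hPQ⟩ := hcon
  obtain ⟨k, hk1, hk2, hk3⟩ := ((hx {y | Q y} hQ).and_eventually
    (hP.and (eventually_ge_atTop 1))).exists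
  refine hPQ hk2 hk1 ?_
  have hk0 : (1 : ℝ) ≤ k := by exact_mod_cast hk3
  simp only [UU]
  have h1 : (-1 : ℝ) ≤ S3 F h k (F^[i k] x₀) / (k : ℝ) ^ 2 := by
    rw [le_div_iff₀ (by positivity)]
    have := hi k
    nlinarith
  have h2 : (0 : ℝ) < 2 / c := by positivity
  nlinarith

end Vale.Agent.P301.H599
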