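import Vale.Agent.P301.H599.Pole

/-! P301, H599: Lelong numbers and logarithmic poles. -/

open scoped Topology
open Filter Metric Set

set_option linter.all false

noncomputable section

namespace Vale.Agent.P301.H599

open Vale.Agent.P272.K

variable {d : ℕ}

lemma div_neg_le {S : EReal} {t C : ℝ} (ht : t < 0) (hS : S ≤ (C : EReal)) :
    ((C / t : ℝ) : EReal) ≤ S / (t : EReal) := by
  rw [EReal.coe_div]
  induction S using EReal.rec with
  | bot => rw [EReal.bot_div_of_neg_ne_bot (by exact_mod_cast ht) (EReal.coe_ne_bot t)]; exact le_top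
  | coe s =>
    rw [← EReal.coe_div, ← EReal.coe_div, EReal.coe_le_coe_iff]
    have : s ≤ C := by exact_mod_cast hS
    exact div_le_div_of_nonpos_of_le ht.le this
  | top => exact absurd hS (not_le.2 (EReal.coe_lt_top C))

lemma le_mul_of_lt_div {S : EReal} {t κ : ℝ} (ht : t < 0) (h : (κ : EReal) < S / (t : EReal)) :
    S ≤ ((κ * t : ℝ) : EReal) := by
  induction S using EReal.rec with
  | bot => exact bot_le
  | coe s =>
    rw [← EReal.coe_div, EReal.coe_lt_coe_iff] at h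
    rw [EReal.coe_le_coe_iff]
    rw [lt_div_iff_of_neg ht] at h
    exact h.le
  | top =>
    rw [EReal.top_div_of_neg_ne_bot (by exact_mod_cast ht) (EReal.coe_ne_bot t)] at h
    exact absurd h not_lt_bot

theorem lelong_nonneg {a : Cm d} {R : ℝ} (hR : 0 < R) {u : Cm d → EReal} {C : ℝ}
    (hC : ∀ z ∈ ball a R, u z ≤ (C : EReal)) : 0 ≤ lelong u a := by
  have key : ∀ ε : ℝ, 0 < ε → ((-ε : ℝ) : EReal) ≤ lelong u a := by
    intro ε hε
    refine le_limsup_of_frequently_le' (Eventually.frequently ?_)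
    have h1 : Tendsto (fun r : ℝ => C / Real.log r) (𝓝[>] 0) (𝓝 0) :=
      tendsto_const_nhds.div_atBot Real.tendsto_log_nhdsGT_zero
    have h2 : ∀ᶠ r in 𝓝[>] (0:ℝ), -ε < C / Real.log r := h1.eventually_const_lt (by linarith)
    have h3 : ∀ᶠ r in 𝓝[>] (0:ℝ), Real.log r < 0 :=
      Real.tendsto_log_nhdsGT_zero.eventually_lt_atBot _
    have h4 : ∀ᶠ r in 𝓝[>] (0:ℝ), r < R := by
      have : ∀ᶠ r in 𝓝 (0:ℝ), r < R := eventually_lt_nhds hR
      exact this.filter_mono nhdsWithin_le_nhds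
    filter_upwards [h2, h3, h4] with r h2 h3 h4
    have h5 : (⨆ z ∈ ball a r, u z) ≤ (C : EReal) :=
      iSup₂_le fun z hz => hC z (ball_subset_ball h4.le hz)
    have h6 := div_neg_le h3 h5
    exact le_trans (by exact_mod_cast h2.le) h6
  by_contra hcon
  rw [not_le] at hcon
  obtain ⟨t, ht1, ht2⟩ := EReal.lt_iff_exists_real_btwn.1 hcon
  have ht0 : t < 0 := by exact_mod_cast ht2
  have := key (-t) (by linarith)
  rw [neg_neg] at this
  exact absurd (lt_of_le_of_lt this ht1) (lt_irrefl _)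

theorem exists_pole_of_lelong {a : Cm d} {R : ℝ} (hR : 0 < R) {u : Cm d → EReal}
    (hu : IsPSH (ball a R) u) {C : ℝ} (hC : ∀ z ∈ ball a R, u z ≤ (C : EReal))
    (h : 0 < lelong u a) : ∃ κ : ℝ, 0 < κ ∧ PoleAt κ u a := by
  obtain ⟨κ, hκ0, hκ⟩ := EReal.lt_iff_exists_real_btwn.1 h
  have hκ0' : 0 < κ := by exact_mod_cast hκ0
  have h1 := frequently_lt_of_lt_limsup (h := hκ)
  have h3 : ∀ᶠ r in 𝓝[>] (0:ℝ), Real.log r < 0 :=
    Real.tendsto_log_nhdsGT_zero.eventually_lt_atBot _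
  have h2 : ∃ᶠ r in 𝓝[>] (0:ℝ), ∀ z ∈ ball a r, u z ≤ ((κ * Real.log r : ℝ) : EReal) := by
    refine (h1.and_eventually h3).mono fun r hr z hz => ?_
    exact (le_iSup₂ (f := fun z (_ : z ∈ ball a r) => u z) z hz).trans (le_mul_of_lt_div hr.2 hr.1)
  refine ⟨κ, hκ0', C - κ * Real.log R, ?_⟩
  have h4 : ∀ᶠ r in 𝓝[>] (0:ℝ), r < R := by
    have : ∀ᶠ r in 𝓝 (0:ℝ), r < R := eventually_lt_nhds hR
    exact this.filter_mono nhdsWithin_le_nhds
  filter_upwards [h4, self_mem_nhdsWithin] with r hrR hr0 z hz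
  have hr0' : (0:ℝ) < r := hr0
  by_cases hza : z = a
  · rw [hza, H474.eq_bot_of_frequently hκ0' h2]; exact bot_le
  have h5 := H474.bound_of_frequently hR hu hκ0' hC h2 z (ball_subset_ball hrR.le hz) hza
  refine h5.trans ?_
  rw [EReal.coe_le_coe_iff]
  have h6 : 0 < ‖z - a‖ := norm_pos_iff.2 (sub_ne_zero.2 hza)
  have h7 : ‖z - a‖ < r := by rwa [mem_ball, dist_eq_norm] at hz
  rw [Real.log_div h6.ne' hR.ne']
  have h8 := Real.log_le_log h6 h7.le
  nlinarith

end Vale.Agent.P301.H599
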