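import Vale.Agent.P301.H599.Weights
import Vale.Agent.P301.H599.Fun
import Vale.Agent.P301.H599.Lelong

/-! P301, H599: the metric with vanishing Lelong numbers. -/

open scoped Manifold ContDiff ComplexOrder Topology
open Filter Metric Set MeasureTheory

set_option linter.all false

noncomputable section

namespace Vale.Agent.P301.H599

open Vale.Agent.P272.K Vale.Agent.P272.K.QN

variable {d : ℕ}

lemma IsPSH.congr {Ω : Set (Cm d)} {u u' : Cm d → EReal} (h : ∀ z ∈ Ω, u z = u' z)
    (hu : IsPSH Ω u) : IsPSH Ω u' := by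
  refine ⟨?_, fun z hz => (h z hz) ▸ hu.2.1 z hz, ?_⟩
  · intro z hz y hy
    have hy' : u z < y := by rw [h z hz]; exact hy
    have h1 := hu.1 z hz y hy'
    filter_upwards [h1, self_mem_nhdsWithin] with w hw hw'
    rw [← h w hw']; exact hw
  · intro a b hab f hf hm
    have ha : a ∈ Ω := by simpa using hab 0 (by simp)
    rw [← h a ha]
    exact hu.2.2 a b hab f hf fun ζ hζ => by rw [h _ (hab ζ hζ.le)]; exact hm ζ hζ

lemma IsPSH.mono {Ω Ω' : Set (Cm d)} (h : Ω' ⊆ Ω) {u : Cm d → EReal}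
    (hu : IsPSH Ω u) : IsPSH Ω' u :=
  ⟨hu.1.mono h, fun z hz => hu.2.1 z (h hz), fun p q hpq =>
      hu.2.2 p q fun ζ hζ => h (hpq ζ hζ)⟩

variable {X : Type} [TopologicalSpace X] [ChartedSpace (Cm d) X]
  [IsManifold 𝓘(ℂ, Cm d) ω X] {ι : Type}

/-- the data produced by the first part of the proof -/
structure Dat (F : Auto d X) (w : Fm d X) (L : LineBundle d X ι) (ρ : ι → X → ℝ) (c : ℝ)
    (u h : X → ℝ) : Prop where
  kahler : IsKahler w
  metric : IsMetric L ρ
  cpos : 0 < c
  su : Smooth (d := d) u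
  sh : Smooth (d := d) h
  dd : FEq (DD F w) (fun e z => (c : ℂ) • curvature L ρ e z + ddc u e z)
  pdd : FEq (pull F (DD F w)) (fun e z => DD F w e z + ddc h e z)
  upper : ∃ C : ℝ, ∀ (k : ℕ) (x : X), S3 F h k x ≤ C * (k : ℝ) ^ 2
  orbit : ∀ (k : ℕ) (x : X), ∃ i : ℕ, -1 ≤ S3 F h k (F^[i] x)

/-- the weights -/
def psi (F : X → X) (ρ : ι → X → ℝ) (c : ℝ) (u h : X → ℝ) (i : ι) (x : X) : EReal :=
  LS (UU F h c) x + ((ρ i x + u x / c : ℝ) : EReal)

variable {F : Auto d X} {w : Fm d X} {L : LineBundle d X ι} {ρ : ι → X → ℝ} {c : ℝ} {u h : X → ℝ}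

lemma Smooth.cont {u : X → ℝ} (hu : Smooth (d := d) u) : Continuous u :=
  INT.SmoothFn.continuous hu

lemma Dat.UU_le (D : Dat F w L ρ c u h) : ∃ C : ℝ, ∀ k x, UU F h c k x ≤ C := by
  obtain ⟨C, hC⟩ := D.upper
  refine ⟨(2 / c) * |C|, fun k x => ?_⟩
  have hc := D.cpos
  unfold UU
  have h1 : S3 F h k x / (k : ℝ) ^ 2 ≤ |C| := by
    rcases Nat.eq_zero_or_pos k with rfl | hk
    · simp
    · have hk0 : (0 : ℝ) < (k : ℝ) ^ 2 := by positivity
      rw [div_le_iff₀ hk0]
      exact (hC k x).trans (mul_le_mul_of_nonneg_right (le_abs_self C) hk0.le)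
  exact mul_le_mul_of_nonneg_left h1 (by positivity)

lemma isOpen_dom (L : LineBundle d X ι) (i : ι) (e : Chart d X) :
    IsOpen (e.target ∩ e.symm ⁻¹' L.U i) := e.isOpen_inter_preimage_symm (L.isOpen i)

lemma rho_contAt (hρ : IsMetric L ρ) {i : ι} {e : Chart d X} {x : X} (hx : At e x)
    (hi : x ∈ L.U i) : ContinuousAt (ρ i) x := by
  have h1 := (hρ.smooth i e x hx hi).continuousAt
  have h2 : ContinuousAt (fun y => (fun z => ρ i (e.symm z)) (e y)) x :=
    ContinuousAt.comp (f := e) h1 (e.continuousAt hx.2)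
  refine h2.congr ?_
  filter_upwards [e.open_source.mem_nhds hx.2] with y hy
  show ρ i (e.symm (e y)) = ρ i y
  rw [e.left_inv hy]

lemma LS_chart (g : ℕ → X → ℝ) {e : Chart d X} {z : Cm d} (hz : z ∈ e.target) :
    LS g (e.symm z) = LS (fun k z => g k (e.symm z)) z :=
  LS_map (e.symm.map_nhds_eq (by simpa using hz))

variable [CompactSpace X]

/-- **The weights are plurisubharmonic.** -/
theorem Dat.psh (D : Dat F w L ρ c u h) (i : ι) {e : Chart d X} (he : e ∈ atlas (Cm d) X) :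
    IsPSH (e.target ∩ e.symm ⁻¹' L.U i) fun z => psi F ρ c u h i (e.symm z) := by
  have hF := F.contMDiff
  have hc := D.cpos
  set Ω := e.target ∩ e.symm ⁻¹' L.U i with hΩ
  set b : Cm d → ℝ := fun z => ρ i (e.symm z) + u (e.symm z) / c with hb
  set g : ℕ → Cm d → ℝ := fun k z => UU F h c k (e.symm z) + b z with hg
  have hAt : ∀ z ∈ Ω, At e (e.symm z) := fun z hz => At.of_target he hz.1
  have hbs : ∀ z ∈ Ω, ContDiffAt ℝ ∞ b z := by
    intro z hz
    have h1 := D.metric.smooth i e _ (hAt z hz) hz.2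
    have h2 := D.su e _ (hAt z hz)
    rw [e.right_inv hz.1] at h1 h2
    exact h1.add (h2.div_const c)
  have hUs : ∀ k, ∀ z ∈ Ω, ContDiffAt ℝ ∞ (fun z => UU F h c k (e.symm z)) z := by
    intro k z hz
    have h2 := smooth_S3 hF D.sh k e _ (hAt z hz)
    rw [e.right_inv hz.1] at h2
    exact contDiffAt_const.mul (h2.div_const _)
  have key : IsPSH Ω (LS g) := by
    refine isPSH_LS (isOpen_dom L i e) (fun k _ z hz => (hUs k z hz).add (hbs z hz)) ?_ ?_
    · intro z hz
      obtain ⟨C, hC⟩ := D.UU_le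
      refine ⟨C + (b z + 1), ?_⟩
      have h1 : ∀ᶠ y in 𝓝 z, b y < b z + 1 :=
        (hbs z hz).continuousAt.tendsto.eventually_lt_const (by linarith)
      filter_upwards [tendsto_snd.eventually h1] with p hp
      exact add_le_add (hC _ _) hp.le
    · intro K hKΩ hK
      obtain ⟨B, hB0, hB⟩ := exists_B F D.kahler D.metric hc D.su D.dd D.sh D.pdd
      obtain ⟨T, hT⟩ := exists_upper_one D.kahler he hK (hKΩ.trans inter_subset_left)
      refine ⟨B * T, fun k hk z hz => ?_⟩
      have hk0 : (0 : ℝ) < k := by exact_mod_cast hk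
      have h1 := hB k hk i e _ (hAt z (hKΩ hz)) (hKΩ hz).2
      rw [e.right_inv (hKΩ hz).1] at h1
      have h2 := (hT z hz).smul (show (0 : ℝ) ≤ B / k by positivity)
      have h3 := h1.add h2
      have h4 : cHess (g k) z + ((B * T / k : ℝ) : ℂ) • (1 : Matrix (Fin d) (Fin d) ℂ) =
          cHess (fun z => (2 / c) * (S3 F h k (e.symm z) / (k : ℝ) ^ 2) +
          (ρ i (e.symm z) + u (e.symm z) / c)) z + ((B / k : ℝ) : ℂ) • w e z +
          (B / k : ℝ) • (((T : ℝ) : ℂ) • (1 : Matrix (Fin d) (Fin d) ℂ) - w e z) := by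
        have : g k = fun z => (2 / c) * (S3 F h k (e.symm z) / (k : ℝ) ^ 2) +
          (ρ i (e.symm z) + u (e.symm z) / c) := by
          funext z; rfl
        rw [this]
        ext p q
        simp only [Matrix.add_apply, Matrix.sub_apply, Matrix.smul_apply, smul_eq_mul,
          Complex.real_smul]
        push_cast
        ring
      rw [h4]
      exact h3
  refine key.congr fun z hz => ?_
  have h1 : LS g z = LS (fun k z => UU F h c k (e.symm z)) z + ((b z : ℝ) : EReal) :=
    LS_add (hbs z hz).continuousAt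
  rw [h1, ← LS_chart _ hz.1]
  rfl

/-- local upper bounds -/
lemma IsPSH.exists_ball {Ω : Set (Cm d)} (hΩ : IsOpen Ω) {v : Cm d → EReal} (hv : IsPSH Ω v)
    {a : Cm d} (ha : a ∈ Ω) : ∃ R : ℝ, 0 < R ∧ ball a R ⊆ Ω ∧ ∃ C : ℝ, ∀ z ∈ ball a R,
      v z ≤ (C : EReal) := by
  obtain ⟨C, hC1, hC2⟩ := EReal.lt_iff_exists_real_btwn.1 (lt_top_iff_ne_top.2 (hv.2.1 a ha))
  have h1 := hv.1 a ha C hC1
  rw [hΩ.nhdsWithin_eq ha] at h1
  obtain ⟨R, hR, h⟩ := Metric.mem_nhds_iff.1 (h1.and (hΩ.mem_nhds ha))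
  exact ⟨R, hR, fun z hz => (h hz).2, C, fun z hz => (h hz).1.le⟩

/-- the points with a pole of weight `κ` -/
def PoleSet (F : X → X) (c : ℝ) (h : X → ℝ) (κ : ℝ) : Set X :=
  {x | ∃ e : Chart d X, At e x ∧ PoleAt κ (fun z => LS (UU F h c) (e.symm z)) (e x)}

omit [CompactSpace X] in
/-- transport of poles by holomorphic maps -/
lemma pole_transport {V : X → EReal} {κ : ℝ} (hκ : 0 < κ) {G : X → X}
    (hG : ContMDiff 𝓘(ℂ, Cm d) 𝓘(ℂ, Cm d) ω G) {x' : X} {B : ℝ}
    (hV : ∀ᶠ y in 𝓝 x', V y ≤ V (G y) + (B : EReal)) {e e' : Chart d X} (h : At e (G x'))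
    (h' : At e' x') (hp : PoleAt κ (fun z => V (e.symm z)) (e (G x'))) :
    PoleAt κ (fun z => V (e'.symm z)) (e' x') := by
  set T : Cm d → Cm d := fun z => e (G (e'.symm z)) with hT
  have h1 := map_holo hG h' h
  have h2 : DifferentiableAt ℂ T (e' x') := h1.differentiableAt (by simp)
  have h3 : T (e' x') = e (G x') := by simp only [hT]; rw [h'.left_inv]
  obtain ⟨M, hM⟩ := h2.isBigO_sub.bound
  rw [h3] at hM
  refine PoleAt.comp (T := T) (M := |M| + 1) (B := B) hκ (by positivity) ?_ ?_ hp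
  · filter_upwards [hM] with z hz
    refine hz.trans (mul_le_mul_of_nonneg_right ?_ (norm_nonneg _))
    have := le_abs_self M
    linarith
  · have h4 : ∀ᶠ z in 𝓝 (e' x'), V (e'.symm z) ≤ V (G (e'.symm z)) + (B : EReal) := by
      have h5 : Tendsto e'.symm (𝓝 (e' x')) (𝓝 x') := by
        have := (e'.continuousAt_symm h'.mem_target).tendsto
        rwa [h'.left_inv] at this
      exact h5.eventually hV
    filter_upwards [h4, map_near hG.continuous h' h] with z hz hz'
    have h6 : e.symm (T z) = G (e'.symm z) := hz'.2.2.left_inv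
    show V (e'.symm z) ≤ V (e.symm (T z)) + _
    rw [h6]; exact hz

omit [CompactSpace X] in
lemma poleSet_chart {κ : ℝ} (hκ : 0 < κ) {x : X} (hx : x ∈ PoleSet (d := d) F c h κ)
    {e' : Chart d X} (h' : At e' x) : PoleAt κ (fun z => LS (UU F h c) (e'.symm z)) (e' x) := by
  obtain ⟨e, he, hp⟩ := hx
  refine pole_transport (V := LS (UU F h c)) (G := fun y => y) (B := 0) hκ contMDiff_id ?_ he h' hp
  exact Eventually.of_forall fun y => by simp

omit [CompactSpace X] in
lemma Dat.comp_eq (D : Dat F w L ρ c u h) (x : X) :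
    LS (UU F h c) (F x) = LS (UU F h c) x + ((-(h x / c) : ℝ) : EReal) :=
  LS_comp (F.toHomeomorph.map_nhds_eq x) D.cpos D.sh.cont.continuousAt

omit [CompactSpace X] in
lemma Dat.poleSet_inv (D : Dat F w L ρ c u h) {κ : ℝ} (hκ : 0 < κ) {x : X}
    (hx : x ∈ PoleSet (d := d) F c h κ) : F x ∈ PoleSet (d := d) F c h κ := by
  obtain ⟨e, he, hp⟩ := hx
  have hc' := atChart (d := d) (F x)
  refine ⟨_, hc', ?_⟩
  have h1 : F.symm (F x) = x := F.symm_apply_apply x
  refine pole_transport (V := LS (UU F h c)) (G := F.symm) (B := -(h x / c) + 1)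
    hκ F.symm.contMDiff ?_ (by rw [h1]; exact he) hc' (by rw [h1]; exact hp)
  have h2 : ContinuousAt (fun y => -(h (F.symm y) / c)) (F x) := by
    have := D.sh.cont.comp F.symm.continuous
    exact ((this.div_const c).neg).continuousAt
  have h3 : ∀ᶠ y in 𝓝 (F x), -(h (F.symm y) / c) < -(h x / c) + 1 := by
    refine h2.tendsto.eventually_lt_const ?_
    rw [h1]; linarith
  filter_upwards [h3] with y hy
  have h4 := D.comp_eq (F.symm y)
  have h5 : F (F.symm y) = y := F.apply_symm_apply y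
  rw [h5] at h4
  rw [h4]
  gcongr

/-- `U = -∞` on the closure of the set of poles -/
theorem Dat.bot_of_closure (D : Dat F w L ρ c u h) {κ : ℝ} (hκ : 0 < κ) {x : X}
    (hx : x ∈ closure (PoleSet (d := d) F c h κ)) : LS (UU F h c) x = ⊥ := by
  obtain ⟨i, hi⟩ := L.cover x
  set e : Chart d X := chartAt (Cm d) x with he
  have hat : At e x := atChart x
  set Ω := e.target ∩ e.symm ⁻¹' L.U i with hΩ
  have hΩo : IsOpen Ω := isOpen_dom L i e
  have hpsh := D.psh i hat.1
  have hxΩ : e x ∈ Ω := ⟨hat.mem_target, by show e.symm (e x) ∈ L.U i; rw [hat.left_inv]; exact hi⟩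
  obtain ⟨R, hR, hRΩ, C, hC⟩ := hpsh.exists_ball hΩo hxΩ
  have hfr : ∃ᶠ b in 𝓝 (e x), PoleAt κ (fun z => psi F ρ c u h i (e.symm z)) b := by
    rw [frequently_iff]
    intro N hN
    have hN' : N ∩ Ω ∈ 𝓝 (e x) := inter_mem hN (hΩo.mem_nhds hxΩ)
    have h1 : ∀ᶠ y in 𝓝 x, y ∈ e.source ∧ e y ∈ N ∩ Ω :=
      Filter.Eventually.and (e.open_source.mem_nhds hat.2) ((e.continuousAt hat.2).eventually hN')
    obtain ⟨y, hy1, hy2⟩ := (mem_closure_iff_frequently.1 hx).and_eventually h1 |>.exists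
    have hay : At e y := ⟨hat.1, hy2.1⟩
    refine ⟨e y, hy2.2.1, ?_⟩
    have hp := poleSet_chart (d := d) hκ hy1 hay
    -- the weight differs by a bounded function
    have hyi : y ∈ L.U i := by
      have := hy2.2.2.2
      have h9 : e.symm (e y) ∈ L.U i := this
      rwa [hay.left_inv] at h9
    have hb : ContinuousAt (fun z => ρ i (e.symm z) + u (e.symm z) / c) (e y) := by
      have h1 := D.metric.smooth i e _ hay hyi
      have h2 := D.su e _ hay
      exact (h1.add (h2.div_const c)).continuousAt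
    refine PoleAt.comp (T := fun z => z) (M := 1)
      (B := ρ i (e.symm (e y)) + u (e.symm (e y)) / c + 1) hκ one_pos
      (Eventually.of_forall fun z => by rw [one_mul]) ?_ hp
    have h3 : ∀ᶠ z in 𝓝 (e y), ρ i (e.symm z) + u (e.symm z) / c <
        ρ i (e.symm (e y)) + u (e.symm (e y)) / c + 1 :=
      hb.tendsto.eventually_lt_const (by linarith)
    filter_upwards [h3] with z hz
    unfold psi
    gcongr
  have key := eq_bot_of_frequently_pole hR (hpsh.mono hRΩ) hκ hC hfr
  unfold psi at key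
  simp only [hat.left_inv] at key
  rw [EReal.add_eq_bot_iff] at key
  rcases key with key | key
  · exact key
  · exact absurd key (EReal.coe_ne_bot _)

/-- **There are no poles.** -/
theorem Dat.poleSet_empty (D : Dat F w L ρ c u h) {κ : ℝ} (hκ : 0 < κ) :
    PoleSet (d := d) F c h κ = ∅ := by
  by_contra hne
  have hne' : (PoleSet (d := d) F c h κ).Nonempty := nonempty_iff_ne_empty.2 hne
  set K := closure (PoleSet (d := d) F c h κ) with hK
  have hFK : ∀ x ∈ K, F x ∈ K := by
    intro x hx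
    have : MapsTo F (PoleSet (d := d) F c h κ) (PoleSet (d := d) F c h κ) :=
      fun y hy => D.poleSet_inv hκ hy
    exact this.closure F.continuous hx
  obtain ⟨x, hx, hx'⟩ := exists_finite (F := F) (h := h) (c := c) isClosed_closure.isCompact
    hne'.closure hFK D.cpos D.orbit
  rw [D.bot_of_closure hκ hx] at hx'
  exact absurd hx' (not_le.2 (EReal.bot_lt_coe _))

/-- **The Lelong numbers vanish.** -/
theorem Dat.lelong_eq_zero (D : Dat F w L ρ c u h) (i : ι) {e : Chart d X} {x : X} (hx : At e x)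
    (hi : x ∈ L.U i) : lelong (fun z => psi F ρ c u h i (e.symm z)) (e x) = 0 := by
  have hpsh := D.psh i hx.1
  have hxΩ : e x ∈ e.target ∩ e.symm ⁻¹' L.U i :=
    ⟨hx.mem_target, by show e.symm (e x) ∈ L.U i; rw [hx.left_inv]; exact hi⟩
  obtain ⟨R, hR, hRΩ, C, hC⟩ := hpsh.exists_ball (isOpen_dom L i e) hxΩ
  refine le_antisymm ?_ (lelong_nonneg hR hC)
  by_contra hcon
  rw [not_le] at hcon
  obtain ⟨κ, hκ, hp⟩ := exists_pole_of_lelong hR (hpsh.mono hRΩ) hC hcon
  have hmem : x ∈ PoleSet (d := d) F c h κ := by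
    refine ⟨e, hx, ?_⟩
    have hb : ContinuousAt (fun z => ρ i (e.symm z) + u (e.symm z) / c) (e x) := by
      have h1 := D.metric.smooth i e _ hx hi
      have h2 := D.su e _ hx
      exact (h1.add (h2.div_const c)).continuousAt
    refine PoleAt.comp (T := fun z => z) (M := 1)
      (B := -(ρ i (e.symm (e x)) + u (e.symm (e x)) / c) + 1) hκ one_pos
      (Eventually.of_forall fun z => by rw [one_mul]) ?_ hp
    have h3 : ∀ᶠ z in 𝓝 (e x), ρ i (e.symm (e x)) + u (e.symm (e x)) / c - 1 <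
        ρ i (e.symm z) + u (e.symm z) / c :=
      hb.tendsto.eventually_const_lt (by linarith)
    filter_upwards [h3] with z hz
    unfold psi
    rw [add_assoc, ← EReal.coe_add]
    have h4 : (0 : ℝ) ≤ ρ i (e.symm z) + u (e.symm z) / c +
        (-(ρ i (e.symm (e x)) + u (e.symm (e x)) / c) + 1) := by linarith
    calc LS (UU F h c) (e.symm z) = LS (UU F h c) (e.symm z) + 0 := by rw [add_zero]
      _ ≤ _ := by
        gcongr
        exact_mod_cast h4
  rw [D.poleSet_empty hκ] at hmem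
  exact hmem

end Vale.Agent.P301.H599
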