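import Vale.Agent.P301.H599.Weights
import Vale.Agent.P301.H599.Main
import Vale.Agent.P301.H794.Fam
import Vale.Agent.P299.H835.Yau
import Vale.Agent.P272.K.AMP.Green
import Vale.Agent.P272.K.Asm.Twisted

/-! P301, H599: Calabi-Yau metrics in the classes `[θ + ε w]`, `θ` the curvature of `L`, and the
metrics on `L` with curvature at least `δ τ - ε w` (package CY-MAIN). -/

open scoped Manifold ContDiff ComplexOrder Topology
open Filter Metric Set MeasureTheory

set_option linter.all false

noncomputable section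

namespace Vale.Agent.P301.H599

open Vale.Agent.P272.K Vale.Agent.P272.K.QN

variable {d : ℕ} {X : Type} [TopologicalSpace X] [ChartedSpace (Cm d) X]
  [IsManifold 𝓘(ℂ, Cm d) ω X] {ι : Type} {L : LineBundle d X ι} {ρ : ι → X → ℝ} {w : Fm d X}

/-- the form `θ + ε w + i∂∂̄v`, `θ` the curvature of `L` -/
def tw (L : LineBundle d X ι) (ρ : ι → X → ℝ) (w : Fm d X) (ε : ℝ) (v : X → ℝ) : Fm d X :=
  fun e z => curvature L ρ e z + (ε : ℂ) • w e z + ddc v e z

lemma isClosedForm_curvature (hρ : IsMetric L ρ) : INT.IsClosedForm (curvature L ρ) where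
  smooth e x hx i j := by
    obtain ⟨k, hk⟩ := L.cover x
    have h1 := curvature_ev hρ hx hk
    have h2 : ContDiffAt ℝ ∞ (fun z => cHess (fun z => ρ k (e.symm z)) z i j) (e x) :=
      INT.smooth_cHess (hρ.smooth k e x hx hk) i j
    refine h2.congr_of_eventuallyEq ?_
    filter_upwards [h1] with z hz
    rw [hz]
    rfl
  form := isForm_curvature hρ
  closed e x hx i k l := by
    obtain ⟨m, hm⟩ := L.cover x
    have h1 := curvature_ev hρ hx hm
    have e1 : ∀ p q, (fun z => curvature L ρ e z p q) =ᶠ[𝓝 (e x)]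
        fun z => cHess (fun z => ρ m (e.symm z)) z p q := by
      intro p q
      filter_upwards [h1] with z hz
      rw [hz]; rfl
    rw [INT.dz_congr (e1 k l), INT.dz_congr (e1 i l)]
    exact INT.cHess_closed (hρ.smooth m e x hx hm) i k l

lemma isClosedForm_ddc {u : X → ℝ} (hu : Smooth (d := d) u) : INT.IsClosedForm (ddc (d := d) u) :=
  INT.isClosedForm_cHess hu

lemma isClosedForm_tw (hρ : IsMetric L ρ) (hw : IsKahler w) (ε : ℝ) {v : X → ℝ}
    (hv : Smooth (d := d) v) : INT.IsClosedForm (tw L ρ w ε v) :=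
  ((isClosedForm_curvature hρ).add (INT.IsClosedForm.smul ε (INT.IsKahler.isClosedForm hw))).add
    (isClosedForm_ddc hv)

lemma isKahler_of_closed {b : Fm d X} (hb : INT.IsClosedForm b)
    (hp : ∀ e x, At e x → (b e (e x)).PosDef) : IsKahler b where
  smooth := hb.smooth
  posDef := hp
  change := hb.form
  closed e x h i j k := hb.closed e x h k i j

/-- `log det w` is a metric on the canonical bundle -/
lemma isCanonical_ldet (hw : IsHermitian w) :
    IsCanonicalMetric fun e z => Real.log (w e z).det.re where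
  smooth e x hx := (contDiffAt_re (Vale.Agent.P272.K.contDiffAt_det (hw.smooth e x hx))).log
    (INT.posDef_det_re (hw.posDef e x hx)).1.ne'
  change e e' x hx hx' := log_det_change hw hx hx'

/-- the sum of two forms at the points of a chart -/
lemma tw_congr (ε : ℝ) {v v' : X → ℝ} (h : ∀ x, v x = v' x) : tw L ρ w ε v = tw L ρ w ε v' := by
  rw [funext h]

section pulls

variable {F : Auto d X} {c : ℝ} {u h : X → ℝ}

lemma contMDiff_iter (F : Auto d X) (j : ℕ) : ContMDiff 𝓘(ℂ, Cm d) 𝓘(ℂ, Cm d) ω (F^[j] : X → X) := by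
  induction j with
  | zero => exact contMDiff_id
  | succ j ih => exact ih.comp F.contMDiff

/-- `F^* θ = θ + i∂∂̄g` -/
lemma Dat.pull_theta (D : Dat F w L ρ c u h) : ∃ g : X → ℝ, Smooth (d := d) g ∧
    FEq (pull F (curvature L ρ)) (fun e z => curvature L ρ e z + ddc g e z) := by
  have hc := D.cpos
  have hF := F.contMDiff
  have suF : Smooth (d := d) (fun x => u (F x)) := Smooth.comp hF D.su
  have s1 : Smooth (d := d) (fun x => u x + h x) := D.su.add D.sh
  have s2 : Smooth (d := d) (fun x => (u x + h x) - u (F x)) := s1.sub suF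
  refine ⟨fun x => (1 / c) * ((u x + h x) - u (F x)), s2.const_mul (1 / c), fun e x hx => ?_⟩
  have h1 : pull F (DD F w) e (e x) = (c : ℂ) • pull F (curvature L ρ) e (e x) +
      pull F (ddc u) e (e x) := by
    have := pull_congr F D.dd e x hx
    rw [this, pull_add, pull_smul]
  have h2 := D.pdd e x hx
  have h3 := D.dd e x hx
  have h4 := ddc_comp hF D.su e x hx
  have h5 := ddc_const_mul (1 / c) s2 e x hx
  have h6 := ddc_sub s1 suF e x hx
  have h7 := ddc_add D.su D.sh e x hx
  simp only [] at h2 h3 h4 h5 h6 h7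
  show pull F (curvature L ρ) e (e x) = curvature L ρ e (e x) +
    ddc (fun x => 1 / c * (u x + h x - u (F x))) e (e x)
  rw [h5, h6, h7, h4]
  have hck : (c : ℂ) ≠ 0 := by exact_mod_cast hc.ne'
  have h8 : (c : ℂ) • pull F (curvature L ρ) e (e x) = (c : ℂ) • curvature L ρ e (e x) +
      (ddc u e (e x) + ddc h e (e x) - pull F (ddc u) e (e x)) := by
    have h9 : (c : ℂ) • pull F (curvature L ρ) e (e x) = pull F (DD F w) e (e x) -
        pull F (ddc u) e (e x) := by rw [h1]; abel
    rw [h9, h2, h3]; abel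
  have h10 : pull F (curvature L ρ) e (e x) = ((1 / c : ℝ) : ℂ) •
      ((c : ℂ) • pull F (curvature L ρ) e (e x)) := by
    rw [smul_smul]
    have : ((1 / c : ℝ) : ℂ) * (c : ℂ) = 1 := by push_cast; field_simp
    rw [this, one_smul]
  rw [h10, h8, smul_add, smul_smul]
  have : ((1 / c : ℝ) : ℂ) * (c : ℂ) = 1 := by push_cast; field_simp
  rw [this, one_smul]

/-- `(F^j)^* θ = θ + i∂∂̄g_j` -/
lemma Dat.pull_iter (D : Dat F w L ρ c u h) (j : ℕ) : ∃ g : X → ℝ, Smooth (d := d) g ∧
    FEq (pull (F^[j]) (curvature L ρ)) (fun e z => curvature L ρ e z + ddc g e z) := by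
  have hform : IsForm (curvature L ρ) := isForm_curvature D.metric
  induction j with
  | zero =>
    refine ⟨fun _ => 0, Smooth.const 0, fun e x hx => ?_⟩
    have h1 := pull_id hform e x hx
    have h2 := ddc_const (d := d) (X := X) 0 e x hx
    simp only [] at h2
    show pull (F^[0]) (curvature L ρ) e (e x) = curvature L ρ e (e x) + ddc (fun _ => 0) e (e x)
    rw [h2, add_zero]
    exact h1
  | succ j ih =>
    obtain ⟨g, hg, hgj⟩ := ih
    obtain ⟨g1, hg1, hg1'⟩ := D.pull_theta
    refine ⟨fun x => g1 x + g (F x), hg1.add (Smooth.comp F.contMDiff hg), fun e x hx => ?_⟩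
    have h1 := pull_pull F.contMDiff (contMDiff_iter F j) hform e x hx
    have h2 := pull_congr F hgj e x hx
    rw [pull_add] at h2
    have h3 := hg1' e x hx
    have h4 := ddc_comp F.contMDiff hg e x hx
    have h5 := ddc_add hg1 (Smooth.comp F.contMDiff hg) e x hx
    simp only [] at h3 h4 h5 h2
    show pull (F^[j + 1]) (curvature L ρ) e (e x) = curvature L ρ e (e x) +
      ddc (fun x => g1 x + g (F x)) e (e x)
    rw [h5, h4]
    have h6 : pull (F^[j + 1]) (curvature L ρ) e (e x) =
        pull (fun y => F^[j] (F y)) (curvature L ρ) e (e x) := rfl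
    rw [h6, ← h1, h2, h3, add_assoc]

end pulls

end Vale.Agent.P301.H599
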