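import Vale.Agent.P301.H599.Pull
import Vale.Agent.P272.K.INT.Global

/-! P301, H599: invariance of the integral of densities under automorphisms. -/

open scoped Manifold ContDiff ComplexOrder Topology
open Filter Metric Set MeasureTheory

set_option linter.all false

noncomputable section

namespace Vale.Agent.P301.H599

open Vale.Agent.P272.K

variable {d : ℕ} {X : Type} [TopologicalSpace X] [ChartedSpace (Cm d) X]

/-- pullback of a density -/
def pullD (F : X → X) (D : Chart d X → Cm d → ℝ) : Chart d X → Cm d → ℝ :=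
  fun e z =>
    let y := F (e.symm z)
    let e' : Chart d X := chartAt (Cm d) y
    D e' (e' y) * ‖(jacF F e e' z).det‖ ^ 2

variable [IsManifold 𝓘(ℂ, Cm d) ω X]

section
variable {F : X → X} {D : Chart d X → Cm d → ℝ}

lemma pullD_eq (hF : ContMDiff 𝓘(ℂ, Cm d) 𝓘(ℂ, Cm d) ω F) (hD : INT.IsDensity D)
    {e e' : Chart d X} {x : X} (h : At e x) (h' : At e' (F x)) :
    pullD F D e (e x) = D e' (e' (F x)) * ‖(jacF F e e' (e x)).det‖ ^ 2 := by
  have h0 : e.symm (e x) = x := h.left_inv
  unfold pullD
  simp only [h0]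
  have hc := atChart (d := d) (F x)
  rw [jacF_change hF h h' hc, hD.change e' _ (F x) h' hc, Matrix.det_mul, norm_mul, mul_pow]
  ring

lemma isDensity_pullD (hF : ContMDiff 𝓘(ℂ, Cm d) 𝓘(ℂ, Cm d) ω F) (hD : INT.IsDensity D) :
    INT.IsDensity (pullD F D) where
  change e e' x h h' := by
    have hc := atChart (d := d) (F x)
    rw [pullD_eq hF hD h hc, pullD_eq hF hD h' hc, jacF_source hF h h' hc, Matrix.det_mul,
      norm_mul, mul_pow]
    ring
  cont e x h := by
    have hc := atChart (d := d) (F x)
    set e' := chartAt (Cm d) (F x)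
    have h1 : pullD F D e =ᶠ[𝓝 (e x)] fun z => D e' (e' (F (e.symm z))) *
        ‖(jacF F e e' z).det‖ ^ 2 := by
      filter_upwards [map_near hF.continuous h hc] with z hz
      have := pullD_eq hF hD hz.2.1 hz.2.2
      rwa [e.right_inv hz.1] at this
    refine ContinuousAt.congr ?_ h1.symm
    have h2 := map_holo hF h hc
    have h3 : ContinuousAt (fun z => D e' (e' (F (e.symm z)))) (e x) := by
      refine ContinuousAt.comp (g := D e') (f := fun z => e' (F (e.symm z))) ?_ h2.continuousAt
      show ContinuousAt (D e') (e' (F (e.symm (e x))))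
      rw [h.left_inv]
      exact hD.cont e' (F x) hc
    have h4 : ContinuousAt (fun z => (jacF F e e' z).det) (e x) := by
      have : (fun z => (jacF F e e' z).det) = fun z => ∑ σ : Equiv.Perm (Fin d),
          (Equiv.Perm.sign σ : ℂ) * ∏ i, jacF F e e' z (σ i) i := by
        funext z; rw [Matrix.det_apply']
      rw [this]
      refine tendsto_finset_sum _ fun σ _ => (tendsto_const_nhds).mul
        (tendsto_finset_prod _ fun i _ => ?_)
      exact (jmat_holo h2 (σ i) i).continuousAt
    exact h3.mul (h4.norm.pow 2)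

end

/-- change of variables by an automorphism, in charts -/
theorem integral_changeF (F : Auto d X) {D : Chart d X → Cm d → ℝ} (hD : INT.IsDensity D)
    {e e' : Chart d X} (he : e ∈ atlas (Cm d) X) (he' : e' ∈ atlas (Cm d) X) {f : X → ℝ}
    (h1 : ∀ y ∈ e'.source, F.symm y ∉ e.source → f (F.symm y) * D e' (e' y) = 0)
    (h2 : ∀ x ∈ e.source, F x ∉ e'.source → f x * pullD F D e (e x) = 0) :
    ∫ z in e.target, f (e.symm z) * pullD F D e z =
      ∫ z in e'.target, f (F.symm (e'.symm z)) * D e' z := by
  set Φ := F.toHomeomorph.toOpenPartialHomeomorph with hΦ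
  set S := (e.symm ≫ₕ Φ) ≫ₕ e' with hS
  have hSv : ∀ z, S z = e' (F (e.symm z)) := fun z => rfl
  have hsrc : S.source = e.target ∩ {z | F (e.symm z) ∈ e'.source} := by
    ext z
    simp only [hS, OpenPartialHomeomorph.trans_source, mem_inter_iff, mem_preimage, mem_ofPred_eq]
    constructor
    · rintro ⟨⟨a, b⟩, c⟩; exact ⟨a, c⟩
    · rintro ⟨a, c⟩; exact ⟨⟨a, trivial⟩, c⟩
  have htgt : S.target = e'.target ∩ {z | F.symm (e'.symm z) ∈ e.source} := by
    ext z
    simp only [hS, OpenPartialHomeomorph.trans_target, mem_inter_iff, mem_preimage, mem_ofPred_eq]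
    constructor
    · rintro ⟨a, ⟨b, c⟩⟩; exact ⟨a, c⟩
    · rintro ⟨a, c⟩; exact ⟨a, ⟨trivial, c⟩⟩
  have hF := F.contMDiff
  have e1 : ∫ z in e.target, f (e.symm z) * pullD F D e z =
      ∫ z in S.source, f (e.symm z) * pullD F D e z := by
    apply setIntegral_eq_of_subset_of_forall_sdiff_eq_zero e.open_target.measurableSet
    · rw [hsrc]; exact inter_subset_left
    · intro z hz
      have : F (e.symm z) ∉ e'.source := fun h => hz.2 (by rw [hsrc]; exact ⟨hz.1, h⟩)
      have h := h2 _ (e.map_target hz.1) this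
      rwa [e.right_inv hz.1] at h
  have e2 : ∫ z in e'.target, f (F.symm (e'.symm z)) * D e' z
      = ∫ z in S.target, f (F.symm (e'.symm z)) * D e' z := by
    apply setIntegral_eq_of_subset_of_forall_sdiff_eq_zero e'.open_target.measurableSet
    · rw [htgt]; exact inter_subset_left
    · intro z hz
      have : F.symm (e'.symm z) ∉ e.source := fun h => hz.2 (by rw [htgt]; exact ⟨hz.1, h⟩)
      have h := h1 _ (e'.map_target hz.1) this
      rwa [e'.right_inv hz.1] at h
  have e3 : (S : Cm d → Cm d) '' S.source = S.target := S.image_source_eq_target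
  have hdiff : ∀ z ∈ S.source, DifferentiableAt ℂ (fun z => e' (F (e.symm z))) z := by
    intro z hz
    rw [hsrc] at hz
    have hx : At e (e.symm z) := ⟨he, e.map_target hz.1⟩
    have hx' : At e' (F (e.symm z)) := ⟨he', hz.2⟩
    have h := map_holo hF hx hx'
    rw [e.right_inv hz.1] at h
    exact h.differentiableAt (by simp)
  have hd : ∀ z ∈ S.source, HasFDerivWithinAt S (fderiv ℝ S z) S.source z := by
    intro z hz
    have h' : DifferentiableAt ℝ (fun z => e' (F (e.symm z))) z := (hdiff z hz).restrictScalars ℝ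
    exact h'.hasFDerivAt.hasFDerivWithinAt
  rw [e1, e2, ← e3, integral_image_eq_integral_abs_det_fderiv_smul volume
    S.open_source.measurableSet hd S.injOn]
  apply setIntegral_congr_fun S.open_source.measurableSet
  intro z hz
  have hz0 := hz
  rw [hsrc] at hz
  have hx : At e (e.symm z) := ⟨he, e.map_target hz.1⟩
  have hx' : At e' (F (e.symm z)) := ⟨he', hz.2⟩
  have hdet : (fderiv ℝ S z).det = ‖(jacF F e e' z).det‖ ^ 2 :=
    INT.det_fderiv_real (hdiff z hz0)
  have hch := pullD_eq hF hD hx hx'
  rw [e.right_inv hz.1] at hch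
  simp only [smul_eq_mul]
  rw [hdet, hSv, e'.left_inv hz.2, hch, abs_of_nonneg (by positivity)]
  have h9 : F.symm (F (e.symm z)) = e.symm z := F.symm_apply_apply _
  rw [h9]
  ring

variable [T2Space X] [CompactSpace X]

/-- **Invariance of the integral under automorphisms.** -/
theorem intX_pullD (F : Auto d X) {D : Chart d X → Cm d → ℝ} (hD : INT.IsDensity D) :
    INT.intX (pullD F D) = INT.intX D := by
  set P := INT.part d X with hP
  have hF := F.contMDiff
  have hFc : Continuous F := F.continuous
  have hFs : Continuous F.symm := F.symm.continuous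
  have hpD := isDensity_pullD hF hD
  have key : ∀ j, ∫ z in (P.e j).target, P.ρ j ((P.e j).symm z) * pullD F D (P.e j) z =
      ∑ i, ∫ z in (P.e j).target, (P.ρ j ((P.e j).symm z) * P.ρ i (F ((P.e j).symm z))) *
        pullD F D (P.e j) z := by
    intro j
    rw [← integral_finsetSum]
    · congr 1
      ext z
      rw [← Finset.sum_mul, ← Finset.mul_sum, P.sum, mul_one]
    · intro i _
      exact INT.integrableOn_dens hpD (P.mem j) (f := fun x => P.ρ j x * P.ρ i (F x))
        ((P.cont j).mul ((P.cont i).comp hFc))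
        (INT.tsupport_mul_subset_left'.trans (P.supp j))
  have key' : ∀ i, ∫ z in (P.e i).target, P.ρ i ((P.e i).symm z) * D (P.e i) z =
      ∑ j, ∫ z in (P.e i).target, (P.ρ j (F.symm ((P.e i).symm z)) * P.ρ i ((P.e i).symm z)) *
        D (P.e i) z := by
    intro i
    rw [← integral_finsetSum]
    · congr 1
      ext z
      rw [← Finset.sum_mul, ← Finset.sum_mul, P.sum, one_mul]
    · intro j _
      exact INT.integrableOn_dens hD (P.mem i) (f := fun x => P.ρ j (F.symm x) * P.ρ i x)
        (((P.cont j).comp hFs).mul (P.cont i))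
        (INT.tsupport_mul_subset_right'.trans (P.supp i))
  unfold INT.intX
  rw [← hP, Finset.sum_congr rfl fun j _ => key j, Finset.sum_congr rfl fun i _ => key' i,
    Finset.sum_comm]
  refine Finset.sum_congr rfl fun i _ => Finset.sum_congr rfl fun j _ => ?_
  have := integral_changeF F hD (P.mem j) (P.mem i) (f := fun x => P.ρ j x * P.ρ i (F x)) ?_ ?_
  · rw [this]
    congr 1
    ext z
    have h9 : F (F.symm ((P.e i).symm z)) = (P.e i).symm z := F.apply_symm_apply _
    simp only [h9]
  · intro y _ hy
    rw [image_eq_zero_of_notMem_tsupport (fun h => hy (P.supp j h)), zero_mul, zero_mul]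
  · intro x _ hx
    rw [image_eq_zero_of_notMem_tsupport (fun h => hx (P.supp i h)), mul_zero, zero_mul]

end Vale.Agent.P301.H599
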