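import Vale.Agent.P301.H599.Dyn

/-! P301, H599: orbit averages. If `S3 F⁻¹ h⁻ ≤ C' k²` with `h⁻ = - h ∘ F⁻¹ ∘ F⁻¹ ∘ F⁻¹`, then
every orbit contains, for every `k` and `ε > 0`, a point with `S3 F h k ≥ -ε`. -/

open Filter Topology Finset

set_option linter.all false

noncomputable section

namespace Vale.Agent.P301.H599

variable {X : Type}

/-- bounded functions -/
def Bdd (f : X → ℝ) : Prop := ∃ B : ℝ, ∀ x, |f x| ≤ B

/-- `Σ_{i<n} f (F^i x) = c Σ_{i<n} h (F^i x) + O(1)` -/
def Rel (F : X → X) (h : X → ℝ) (c : ℝ) (f : X → ℝ) : Prop :=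
  ∃ B : ℝ, ∀ n x, |S1 F f n x - c * S1 F h n x| ≤ B

variable {F G : X → X} {h f g : X → ℝ} {c c' : ℝ}

lemma Bdd.comp (hf : Bdd f) (G : X → X) : Bdd (fun x => f (G x)) := by
  obtain ⟨B, hB⟩ := hf
  exact ⟨B, fun x => hB _⟩

lemma Bdd.neg (hf : Bdd f) : Bdd (fun x => -f x) := by
  obtain ⟨B, hB⟩ := hf
  exact ⟨B, fun x => by rw [abs_neg]; exact hB _⟩

lemma Bdd.sum {ι : Type} (s : Finset ι) {f : ι → X → ℝ} (hf : ∀ i ∈ s, Bdd (f i)) :
    Bdd (fun x => ∑ i ∈ s, f i x) := by
  classical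
  induction s using Finset.induction_on with
  | empty => exact ⟨0, fun x => by simp⟩
  | insert a s ha ih =>
    obtain ⟨B, hB⟩ := ih fun i hi => hf i (mem_insert_of_mem hi)
    obtain ⟨B', hB'⟩ := hf a (mem_insert_self a s)
    refine ⟨B' + B, fun x => ?_⟩
    show |∑ i ∈ insert a s, f i x| ≤ B' + B
    rw [Finset.sum_insert ha]
    exact (abs_add_le _ _).trans (add_le_add (hB' x) (hB x))

lemma S1_add' (F : X → X) (f g : X → ℝ) (n : ℕ) (x : X) :
    S1 F (fun y => f y + g y) n x = S1 F f n x + S1 F g n x := by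
  simp [S1, Finset.sum_add_distrib]

lemma S1_neg' (F : X → X) (f : X → ℝ) (n : ℕ) (x : X) :
    S1 F (fun y => -f y) n x = -S1 F f n x := by
  simp [S1]

lemma Rel.refl (F : X → X) (h : X → ℝ) : Rel F h 1 h := ⟨0, fun n x => by simp⟩

lemma Rel.neg (hf : Rel F h c f) : Rel F h (-c) (fun x => -f x) := by
  obtain ⟨B, hB⟩ := hf
  refine ⟨B, fun n x => ?_⟩
  rw [S1_neg', show -S1 F f n x - -c * S1 F h n x = -(S1 F f n x - c * S1 F h n x) by ring,
    abs_neg]
  exact hB n x

lemma Rel.add (hf : Rel F h c f) (hg : Rel F h c' g) : Rel F h (c + c') (fun x => f x + g x) := by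
  obtain ⟨B, hB⟩ := hf
  obtain ⟨B', hB'⟩ := hg
  refine ⟨B + B', fun n x => ?_⟩
  rw [S1_add', show S1 F f n x + S1 F g n x - (c + c') * S1 F h n x =
    (S1 F f n x - c * S1 F h n x) + (S1 F g n x - c' * S1 F h n x) by ring]
  exact (abs_add_le _ _).trans (add_le_add (hB n x) (hB' n x))

lemma Rel.zero : Rel F h 0 (fun _ => 0) := ⟨0, fun n x => by simp [S1]⟩

lemma Rel.comp (hb : Bdd f) (hf : Rel F h c f) : Rel F h c (fun x => f (F x)) := by
  obtain ⟨B, hB⟩ := hf
  obtain ⟨B', hB'⟩ := hb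
  refine ⟨B + (B' + B'), fun n x => ?_⟩
  have h1 : S1 F (fun x => f (F x)) n x = S1 F f n x + (f (F^[n] x) - f x) := by
    have h2 : S1 F (fun x => f (F x)) n x = S1 F f (n + 1) x - f x := by
      rw [← S1_comp]
      simp only [S1]
      refine Finset.sum_congr rfl fun l _ => ?_
      show f (F (F^[l] x)) = f (F^[l] (F x))
      rw [← Function.iterate_succ_apply' F, ← Function.iterate_succ_apply F]
    rw [h2, S1_succ]; ring
  rw [h1, show S1 F f n x + (f (F^[n] x) - f x) - c * S1 F h n x =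
    (S1 F f n x - c * S1 F h n x) + (f (F^[n] x) - f x) by ring]
  refine (abs_add_le _ _).trans (add_le_add (hB n x) ?_)
  exact (abs_sub _ _).trans (add_le_add (hB' _) (hB' _))

lemma Rel.comp_inv (hG : ∀ x, G (F x) = x) (hG' : ∀ x, F (G x) = x) (hb : Bdd f)
    (hf : Rel F h c f) : Rel F h c (fun x => f (G x)) := by
  obtain ⟨B, hB⟩ := hf
  obtain ⟨B', hB'⟩ := hb
  refine ⟨B + (B' + B'), fun n x => ?_⟩
  have h1 : S1 F f n x = S1 F (fun x => f (G x)) n x + (f (F^[n] (G x)) - f (G x)) := by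
    have h2 : S1 F (fun x => f (G x)) n x = S1 F f n (G x) := by
      simp only [S1]
      refine Finset.sum_congr rfl fun l _ => ?_
      congr 1
      have : ∀ l y, G (F^[l] (F y)) = F^[l] y := by
        intro l
        intro y
        rw [← Function.iterate_succ_apply, Function.iterate_succ_apply', hG]
      have := this l (G x)
      rwa [hG'] at this
    have h3 := S1_succ (F := F) (h := f) (k := n) (x := G x)
    have h4 := S1_succ' (F := F) (h := f) (k := n) (x := G x)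
    rw [hG'] at h4
    rw [h2]; linarith
  have h5 : S1 F (fun x => f (G x)) n x - c * S1 F h n x =
      (S1 F f n x - c * S1 F h n x) + (f (G x) - f (F^[n] (G x))) := by rw [h1]; ring
  rw [h5]
  refine (abs_add_le _ _).trans (add_le_add (hB n x) ?_)
  exact (abs_sub _ _).trans (add_le_add (hB' _) (hB' _))

lemma Bdd.iter (hf : Bdd f) (l : ℕ) : Bdd (fun x => f (F^[l] x)) := hf.comp _

lemma Rel.sum {k : ℕ} {f : ℕ → X → ℝ} {c : ℕ → ℝ} (hf : ∀ i, Rel F h (c i) (f i)) :
    Rel F h (∑ i ∈ range k, c i) (fun x => ∑ i ∈ range k, f i x) := by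
  induction k with
  | zero => simpa using Rel.zero
  | succ k ih =>
    have := ih.add (hf k)
    simpa [Finset.sum_range_succ] using this

/-- The relation for the iterated sums of a map `T` (either `F` or its inverse). -/
lemma Rel.S3 {T : X → X} (hT : ∀ f, Bdd f → ∀ c, Rel F h c f → Rel F h c (fun x => f (T x)))
    (hb : Bdd f) (hf : Rel F h c f) (k : ℕ) :
    Rel F h (c * (k * (k - 1) * (k - 2) / 6)) (S3 T f k) := by
  have h0 : ∀ l, Rel F h c (fun x => f (T^[l] x)) := by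
    intro l
    induction l with
    | zero => exact hf
    | succ l ih =>
      have := hT _ (hb.iter (F := T) l) c ih
      simpa only [← Function.iterate_succ_apply] using this
  have h1 : ∀ k : ℕ, Rel F h (c * k) (S1 T f k) := by
    intro k
    have := Rel.sum (k := k) h0
    have e : ∑ i ∈ range k, c = c * k := by simp [mul_comm]
    rw [e] at this
    exact this
  have e2 : ∀ k : ℕ, ∑ i ∈ range k, c * (i : ℝ) = c * (k * (k - 1) / 2) := by
    intro k
    induction k with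
    | zero => simp
    | succ k ih => rw [Finset.sum_range_succ, ih]; push_cast; ring
  have h2 : ∀ k : ℕ, Rel F h (c * (k * (k - 1) / 2)) (S2 T f k) := by
    intro k
    have := Rel.sum (k := k) h1
    rw [e2] at this
    exact this
  have e3 : ∀ k : ℕ, ∑ i ∈ range k, c * ((i : ℝ) * (i - 1) / 2) =
      c * (k * (k - 1) * (k - 2) / 6) := by
    intro k
    induction k with
    | zero => simp
    | succ k ih => rw [Finset.sum_range_succ, ih]; push_cast; ring
  have := Rel.sum (k := k) h2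
  rw [e3] at this
  exact this

/-- **Points with a lower bound in every orbit.** -/
theorem exists_orbit_point (hG : ∀ x, G (F x) = x) (hG' : ∀ x, F (G x) = x) (hb : Bdd h) {C' : ℝ}
    (hdown : ∀ k x, S3 G (fun y => -h (G (G (G y)))) k x ≤ C' * (k : ℝ) ^ 2) (k : ℕ) (x : X)
    {ε : ℝ} (hε : 0 < ε) : ∃ i : ℕ, -ε ≤ S3 F h k (F^[i] x) := by
  by_contra hcon
  push Not at hcon
  have r1 : Rel F h (1 * (k * (k - 1) * (k - 2) / 6)) (S3 F h k) :=
    Rel.S3 (fun f hf c hr => Rel.comp hf hr) hb (Rel.refl F h) k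
  have hTG : ∀ f, Bdd f → ∀ c, Rel F h c f → Rel F h c (fun x => f (G x)) :=
    fun f hf c hr => Rel.comp_inv hG hG' hf hr
  have r2 : ∀ K : ℕ, Rel F h ((-1) * (K * (K - 1) * (K - 2) / 6))
      (S3 G (fun y => -h (G (G (G y)))) K) := by
    intro K
    refine Rel.S3 hTG ?_ ?_ K
    · exact (((hb.comp G).comp G).comp G).neg
    · exact (hTG _ ((hb.comp G).comp G) _ (hTG _ (hb.comp G) _ (hTG _ hb _ (Rel.refl F h)))).neg
  obtain ⟨B, hB⟩ := r1
  set q : ℝ := (k * (k - 1) * (k - 2) / 6) with hq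
  have hq0 : 0 ≤ q := by
    have : ∀ k : ℕ, 0 ≤ ((k : ℝ) * (k - 1) * (k - 2) / 6) := by
      intro k
      match k with
      | 0 => simp
      | 1 => simp
      | 2 => norm_num
      | (k + 3) => push_cast; ring_nf; positivity
    exact this k
  have hS : ∀ n, S1 F (S3 F h k) n x ≤ -ε * n := by
    intro n
    have : S1 F (S3 F h k) n x ≤ ∑ l ∈ range n, (-ε) :=
      Finset.sum_le_sum fun l _ => (hcon l).le
    simpa [mul_comm] using this
  -- the comparison for every `K`
  have key : ∀ K : ℕ, ((K : ℝ) * (K - 1) * (K - 2) / 6) * ε ≤ q * (C' * (K : ℝ) ^ 2) := by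
    intro K
    set Q : ℝ := ((K : ℝ) * (K - 1) * (K - 2) / 6) with hQ
    have hQ0 : 0 ≤ Q := by
      have : ∀ k : ℕ, 0 ≤ ((k : ℝ) * (k - 1) * (k - 2) / 6) := by
        intro k
        match k with
        | 0 => simp
        | 1 => simp
        | 2 => norm_num
        | (k + 3) => push_cast; ring_nf; positivity
      exact this K
    obtain ⟨B', hB'⟩ := r2 K
    have hS' : ∀ n, S1 F (S3 G (fun y => -h (G (G (G y)))) K) n x ≤ (C' * (K : ℝ) ^ 2) * n := by
      intro n
      have : S1 F (S3 G (fun y => -h (G (G (G y)))) K) n x ≤ ∑ l ∈ range n, (C' * (K : ℝ) ^ 2) :=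
        Finset.sum_le_sum fun l _ => hdown K _
      simpa [mul_comm] using this
    have h3 : ∀ n : ℕ, (Q * ε - q * (C' * (K : ℝ) ^ 2)) * n ≤ Q * B + q * B' := by
      intro n
      have a1 := (abs_le.1 (hB n x)).1
      have a2 := (abs_le.1 (hB' n x)).1
      have a3 := hS n
      have a4 := hS' n
      rw [one_mul] at a1
      have e9 : (-1 * ((K : ℝ) * (K - 1) * (K - 2) / 6)) = -Q := by rw [hQ]; ring
      rw [e9] at a2
      have b1 : q * S1 F h n x ≤ -ε * n + B := by linarith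
      have b2 : -Q * S1 F h n x ≤ (C' * (K : ℝ) ^ 2) * n + B' := by linarith
      have c1 := mul_le_mul_of_nonneg_left b1 hQ0
      have c2 := mul_le_mul_of_nonneg_left b2 hq0
      nlinarith
    by_contra hne
    push Not at hne
    have hpos : 0 < Q * ε - q * (C' * (K : ℝ) ^ 2) := by linarith
    obtain ⟨n, hn⟩ := exists_nat_gt ((Q * B + q * B') / (Q * ε - q * (C' * (K : ℝ) ^ 2)))
    rw [div_lt_iff₀ hpos] at hn
    have := h3 n
    linarith
  -- choose `K` large
  obtain ⟨K, hK⟩ := exists_nat_gt (6 * (|q * C'| + 1) / ε + 3)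
  have hK3 : (3 : ℝ) < K := by
    have : 0 ≤ 6 * (|q * C'| + 1) / ε := by positivity
    linarith
  have h1 := key K
  have h2 : 6 * (|q * C'| + 1) < (K - 3) * ε := by
    have : 6 * (|q * C'| + 1) / ε < K - 3 := by linarith
    rwa [div_lt_iff₀ hε] at this
  have h3 : q * (C' * (K : ℝ) ^ 2) ≤ |q * C'| * (K : ℝ) ^ 2 := by
    rw [← mul_assoc]
    exact mul_le_mul_of_nonneg_right (le_abs_self _) (by positivity)
  have hK2 : (0 : ℝ) < (K : ℝ) ^ 2 := by positivity
  have h4 : ((K : ℝ) - 3) * (K : ℝ) ^ 2 / 6 ≤ (K : ℝ) * (K - 1) * (K - 2) / 6 := by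
    nlinarith
  have h5 : ((K : ℝ) - 3) * (K : ℝ) ^ 2 / 6 * ε ≤ |q * C'| * (K : ℝ) ^ 2 := by
    have := mul_le_mul_of_nonneg_right h4 hε.le
    linarith
  have h6 : (6 * (|q * C'| + 1)) * (K : ℝ) ^ 2 ≤ ((K - 3) * ε) * (K : ℝ) ^ 2 :=
    mul_le_mul_of_nonneg_right h2.le hK2.le
  nlinarith

end Vale.Agent.P301.H599
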