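import Vale.Agent.P301.H599.CY1
import Vale.Agent.P301.H794.Mix

/-! P301, H599: Calabi-Yau metrics in the classes `[θ + ε w]`, continued. -/

open scoped Manifold ContDiff ComplexOrder Topology ENNReal
open Filter Metric Set MeasureTheory

set_option linter.all false

noncomputable section

namespace Vale.Agent.P301.H599

open Vale.Agent.P272.K Vale.Agent.P272.K.QN

variable {d : ℕ} {X : Type} [TopologicalSpace X] [ChartedSpace (Cm d) X]
  [IsManifold 𝓘(ℂ, Cm d) ω X] {ι : Type} {L : LineBundle d X ι} {ρ : ι → X → ℝ} {w : Fm d X}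

/-- **Calabi-Yau metrics** in the class of `θ + ε w`, if this class contains a positive form. -/
theorem exists_cyMetric [T2Space X] [CompactSpace X] [PreconnectedSpace X] [Nonempty X]
    (hρ : IsMetric L ρ) (hw : IsKahler w) {ε : ℝ} {U : X → ℝ} (hU : Smooth (d := d) U)
    (hpos : ∀ e x, At e x → (tw L ρ w ε U e (e x)).PosDef) :
    ∃ (v : X → ℝ) (C : ℝ), Smooth (d := d) v ∧ (∀ x, v x ≤ 0) ∧ (∃ x, v x = 0) ∧ 0 < C ∧
      IsKahler (tw L ρ w ε v) ∧
      ∀ e x, At e x → (tw L ρ w ε v e (e x)).det.re = C * (w e (e x)).det.re := by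
  have hK : IsKahler (tw L ρ w ε U) := isKahler_of_closed (isClosedForm_tw hρ hw ε hU) hpos
  obtain ⟨u', c', hu', hK', hdet, -⟩ := Vale.Agent.P299.H835.yauMetric hK
    (isCanonical_ldet hw.toIsHermitian)
  have hu'' : Smooth (d := d) u' := hu'
  set v0 : X → ℝ := fun x => U x + u' x with hv0
  have hv0s : Smooth (d := d) v0 := hU.add hu''
  obtain ⟨x0, -, hx0⟩ := isCompact_univ.exists_isMaxOn (s := (univ : Set X)) ⟨Classical.arbitrary X,
    mem_univ _⟩ (f := v0) hv0s.cont.continuousOn
  set v : X → ℝ := fun x => v0 x - v0 x0 with hv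
  have hvs : Smooth (d := d) v := hv0s.sub (Smooth.const (v0 x0))
  have hFEq : ∀ e x, At e x → tw L ρ w ε v e (e x) = addH (tw L ρ w ε U) u' e (e x) := by
    intro e x hx
    have h1 := ddc_sub hv0s (Smooth.const (d := d) (X := X) (v0 x0)) e x hx
    have h2 := ddc_const (d := d) (X := X) (v0 x0) e x hx
    have h3 := ddc_add hU hu'' e x hx
    simp only [] at h1 h2 h3
    rw [h2, sub_zero, h3] at h1
    have h4 : ddc v e (e x) = ddc U e (e x) + ddc u' e (e x) := h1
    show curvature L ρ e (e x) + (ε : ℂ) • w e (e x) + ddc v e (e x) =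
      curvature L ρ e (e x) + (ε : ℂ) • w e (e x) + ddc U e (e x) + ddc u' e (e x)
    rw [h4, add_assoc, add_assoc, add_assoc]
  refine ⟨v, Real.exp c', hvs, fun x => ?_, ⟨x0, sub_self _⟩, Real.exp_pos _, ?_, ?_⟩
  · have := hx0 (mem_univ x)
    simp only [mem_setOf_eq] at this
    show v0 x - v0 x0 ≤ 0
    linarith
  · refine isKahler_of_closed (isClosedForm_tw hρ hw ε hvs) fun e x hx => ?_
    rw [hFEq e x hx]
    exact hK'.posDef e x hx
  · intro e x hx
    rw [hFEq e x hx]
    have h1 := hdet e hx.1 (e x) hx.mem_target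
    have h2 : 0 < (addH (tw L ρ w ε U) u' e (e x)).det.re :=
      (INT.posDef_det_re (hK'.posDef e x hx)).1
    have h3 : 0 < (w e (e x)).det.re := (INT.posDef_det_re (hw.posDef e x hx)).1
    rw [← Real.exp_log h2, h1, Real.exp_add, Real.exp_log h3]
    ring

/-- the integral of the trace depends only on the class -/
theorem intX_trace_tw [T2Space X] [CompactSpace X] (hρ : IsMetric L ρ) (hw : IsKahler w) {ε : ℝ}
    {v : X → ℝ} (hv : Smooth (d := d) v) :
    INT.intX (fun e z => ((w e z)⁻¹ * tw L ρ w ε v e z).trace.re * (w e z).det.re) =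
      INT.intX (fun e z => ((w e z)⁻¹ * curvature L ρ e z).trace.re * (w e z).det.re) +
        ε * d * INT.intX (fun e z => (w e z).det.re) := by
  have hwH := hw.toIsHermitian
  have hform := hwH.isForm
  have hc := isClosedForm_curvature hρ
  have hdw : INT.IsDensity fun (e : Chart d X) z => (w e z).det.re := INT.isDensity_det hform hw.smooth
  have hd1 : INT.IsDensity fun (e : Chart d X) z =>
      ((w e z)⁻¹ * curvature L ρ e z).trace.re * (w e z).det.re :=
    { cont := fun e x hx => by
        have hgi : ∀ i j, ContDiffAt ℝ ∞ (fun y => (w e y)⁻¹ i j) (e x) :=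
          fun i j => contDiffAt_inv (hwH.smooth e x hx) (hwH.det_ne_zero hx) i j
        have h2 := contDiffAt_trace_mul hgi (fun i j => hc.smooth e x hx i j)
        have h4 := contDiffAt_det (hwH.smooth e x hx)
        exact ((contDiffAt_re h2).mul (contDiffAt_re h4)).continuousAt
      change := fun e e' x hx hx' => by
        have h2 := trace_inv hform hc.form hx hx'
        rw [h2, det_form_re hform hx hx']
        ring }
  have hd2 : INT.IsDensity (AMP.Ld w v) := AMP.isDensity_Ld hwH hv
  have hd3 : INT.IsDensity fun (e : Chart d X) z => ε * d * (w e z).det.re := hdw.const_mul _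
  have h1 : INT.intX (fun e z => ((w e z)⁻¹ * tw L ρ w ε v e z).trace.re * (w e z).det.re) =
      INT.intX (fun (e : Chart d X) z => (((w e z)⁻¹ * curvature L ρ e z).trace.re * (w e z).det.re +
        ε * d * (w e z).det.re) + AMP.Ld w v e z) := by
    refine INT.intX_congr fun e x hx => ?_
    have hu : IsUnit (w e (e x)).det := (hwH.det_ne_zero hx).isUnit
    have h2 : (w e (e x))⁻¹ * tw L ρ w ε v e (e x) = (w e (e x))⁻¹ * curvature L ρ e (e x) +
        (ε : ℂ) • (1 : Matrix (Fin d) (Fin d) ℂ) + (w e (e x))⁻¹ * ddc v e (e x) := by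
      unfold tw
      rw [Matrix.mul_add, Matrix.mul_add, Matrix.mul_smul, Matrix.nonsing_inv_mul _ hu]
    rw [h2, Matrix.trace_add, Matrix.trace_add, Matrix.trace_smul, Matrix.trace_one]
    show _ = _ + ((w e (e x))⁻¹ * cHess (fun y => v (e.symm y)) (e x)).trace.re *
      (w e (e x)).det.re
    simp only [Complex.add_re, smul_eq_mul, Fintype.card_fin]
    have h3 : ((ε : ℂ) * (d : ℂ)).re = ε * d := by
      rw [← Complex.ofReal_natCast, ← Complex.ofReal_mul, Complex.ofReal_re]
    rw [h3]
    show (_ + ε * d + ((w e (e x))⁻¹ * cHess (fun y => v (e.symm y)) (e x)).trace.re) * _ = _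
    ring
  rw [h1, INT.intX_add (hd1.add hd3) hd2, INT.intX_add hd1 hd3, AMP.intX_Ld hw hv, add_zero,
    INT.intX_const_mul]

end Vale.Agent.P301.H599
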