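import Vale.Agent.P301.H599.CY2
import Vale.Agent.P272.K.QN.H327.Frame

/-! P301, H599: metrics on `L` with curvature at least `δ τ - C ε w` (package CY-MAIN). -/

open scoped Manifold ContDiff ComplexOrder Topology ENNReal
open Filter Metric Set MeasureTheory

set_option linter.all false

noncomputable section

namespace Vale.Agent.P301.H599

open Vale.Agent.P272.K Vale.Agent.P272.K.QN

variable {d : ℕ} {X : Type} [TopologicalSpace X] [ChartedSpace (Cm d) X]
  [IsManifold 𝓘(ℂ, Cm d) ω X] [T2Space X] [CompactSpace X] {ι : Type}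

/-- lower bound for the volumes of the classes of `θ + ε w`, by the constants of the
Calabi-Yau metrics -/
def VolLow (L : LineBundle d X ι) (ρ : ι → X → ℝ) (w : Fm d X) (n : ℕ) : Prop :=
  ∃ c₀ : ℝ, 0 < c₀ ∧ ∀ ε : ℝ, 0 < ε → ε ≤ 1 → ∀ (v : X → ℝ) (C : ℝ), Smooth (d := d) v →
    IsKahler (tw L ρ w ε v) →
    (∀ e x, At e x → (tw L ρ w ε v e (e x)).det.re = C * (w e (e x)).det.re) → c₀ * ε ^ n ≤ C

/-- Approximation by Calabi-Yau metrics: `φ` gives the metric `ρ + φ` of `L`, with curvature at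
least `(δ/m) ∑_{j<m} (F^j)^* τ - C ε w`, and `τ` is a Kähler form in the class of `θ + ε w` with
determinant at least `c₀ ε^n det w`. -/
structure CYApprox (F : X → X) (L : LineBundle d X ι) (ρ : ι → X → ℝ) (w : Fm d X) (n m : ℕ)
    (δ C C₁ c₀ K ε : ℝ) (φ : X → ℝ) (τ : Fm d X) : Prop where
  smooth : Smooth (d := d) φ
  kahler : IsKahler τ
  curv : ∀ (i : ι) (e : Chart d X) (x : X), At e x → x ∈ L.U i →
    (cHess (fun z => ρ i (e.symm z) + φ (e.symm z)) (e x) + ((C * ε : ℝ) : ℂ) • w e (e x) -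
      ((δ / m : ℝ) : ℂ) • ∑ j ∈ Finset.range m, pull (F^[j]) τ e (e x)).PosSemidef
  upper : ∀ x, φ x ≤ C₁
  det : ∀ e x, At e x → c₀ * ε ^ n * (w e (e x)).det.re ≤ (τ e (e x)).det.re
  det_add : INT.intX (fun e z => (w e z + τ e z).det.re) ≤ K
  tr : INT.intX (fun e z => ((w e z)⁻¹ * τ e z).trace.re * (w e z).det.re) ≤ K

/-- The output of CY-MAIN. -/
def CYStatement (F : X → X) (L : LineBundle d X ι) (ρ : ι → X → ℝ) (w : Fm d X) (n m : ℕ)
    (p : ℝ) : Prop :=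
  ∃ δ C C₁ c₀ K : ℝ, 0 < δ ∧ δ ≤ 1 ∧ 0 ≤ C ∧ 0 < c₀ ∧ ∃ (φ : ℝ → X → ℝ) (τ : ℝ → Fm d X),
    (∀ ε : ℝ, 0 < ε → ε ≤ 1 → CYApprox F L ρ w n m δ C C₁ c₀ K ε (φ ε) (τ ε)) ∧
    ∀ e ∈ atlas (Cm d) X, ∀ S : Set (Cm d), IsCompact S → S ⊆ e.target → ∃ B : ℝ≥0∞, B ≠ ⊤ ∧
      ∀ ε : ℝ, 0 < ε → ε ≤ 1 →
        ∫⁻ z in S, ENNReal.ofReal (Real.exp (-(p * φ ε (e.symm z)))) ≤ B

lemma det_le_add {A B : Matrix (Fin d) (Fin d) ℂ} (hA : A.PosDef) (hB : B.PosSemidef) :
    A.det.re ≤ (A + B).det.re := by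
  obtain ⟨T, U, η, hη, hUT, hTU, hwT, hτT⟩ := Vale.Agent.P272.K.QN.H327.exists_frame hA hB
  have h1 : A + B = T * Matrix.diagonal (fun k => 1 + ((η k : ℝ) : ℂ)) * T.conjTranspose := by
    have h10 : Matrix.diagonal (fun k => 1 + ((η k : ℝ) : ℂ)) =
        1 + Matrix.diagonal (fun k => ((η k : ℝ) : ℂ)) := by
      rw [← Matrix.diagonal_one, Matrix.diagonal_add]
    rw [h10, Matrix.mul_add, Matrix.add_mul, Matrix.mul_one, ← hwT, ← hτT]
  have h2 : A.det = T.det * T.conjTranspose.det := by rw [hwT, Matrix.det_mul]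
  have h3 : (A + B).det = A.det * ((∏ k, (1 + η k) : ℝ) : ℂ) := by
    rw [h1, Matrix.det_mul, Matrix.det_mul, Matrix.det_diagonal, h2]
    push_cast
    ring
  have h4 : 0 < A.det.re := (Complex.lt_def.1 hA.det_pos).1
  have h5 : (1 : ℝ) ≤ ∏ k, (1 + η k) := by
    calc (1 : ℝ) = ∏ k : Fin d, (1 : ℝ) := by simp
      _ ≤ _ := Finset.prod_le_prod (fun _ _ => zero_le_one) fun i _ => by linarith [hη i]
  rw [h3, Complex.re_mul_ofReal]
  exact le_mul_of_one_le_right h4.le h5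

variable {L : LineBundle d X ι} {ρ : ι → X → ℝ} {w : Fm d X} {F : Auto d X} {c : ℝ} {u h : X → ℝ}

/-- `(F^j)^* (θ + ε w + i∂∂̄v)` -/
lemma pull_tw (hρ : IsMetric L ρ) (hw : IsKahler w) {v : X → ℝ} (hv : Smooth (d := d) v) (ε : ℝ)
    {j : ℕ} {g : X → ℝ}
    (hg : FEq (pull (F^[j]) (curvature L ρ)) (fun e z => curvature L ρ e z + ddc g e z))
    {e : Chart d X} {x : X} (hx : At e x) :
    pull (F^[j]) (tw L ρ w ε v) e (e x) = curvature L ρ e (e x) + ddc g e (e x) +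
      (ε : ℂ) • pull (F^[j]) w e (e x) + ddc (fun y => v (F^[j] y)) e (e x) := by
  have h1 := hg e x hx
  have h2 := ddc_comp (contMDiff_iter F j) hv e x hx
  simp only [] at h1 h2
  have h3 : pull (F^[j]) (tw L ρ w ε v) = fun e z => pull (F^[j]) (curvature L ρ) e z +
      (ε : ℂ) • pull (F^[j]) w e z + pull (F^[j]) (ddc v) e z := by
    unfold tw
    rw [pull_add, pull_add, pull_smul]
  rw [h3]
  show pull (F^[j]) (curvature L ρ) e (e x) + (ε : ℂ) • pull (F^[j]) w e (e x) +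
    pull (F^[j]) (ddc v) e (e x) = _
  rw [h1, h2]

/-- the integral of `det (w + τ)` for `τ = θ + ε w + i∂∂̄v` is bounded -/
lemma intX_det_add_le (hρ : IsMetric L ρ) (hw : IsKahler w) {ε : ℝ} (hε1 : ε ≤ 1)
    {v : X → ℝ} (hv : Smooth (d := d) v) (hK : IsKahler (tw L ρ w ε v)) :
    INT.intX (fun e z => (w e z + tw L ρ w ε v e z).det.re) ≤
      INT.intX (fun e z => (tw L ρ w 2 (fun _ => 0) e z).det.re) := by
  have h0 : Smooth (d := d) (fun _ : X => (0 : ℝ)) := Smooth.const 0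
  have hc2 := isClosedForm_tw (L := L) hρ hw 2 h0
  have h1 := INT.intX_det_add_cHess hc2 hv
  rw [← h1]
  have hcw := INT.IsKahler.isClosedForm hw
  have hd1 : INT.IsDensity (fun (e : Chart d X) z => (w e z + tw L ρ w ε v e z).det.re) :=
    INT.IsClosedForm.isDensity (hcw.add (INT.IsKahler.isClosedForm hK))
  have hd2 : INT.IsDensity (fun (e : Chart d X) z =>
      (tw L ρ w 2 (fun _ => 0) e z + cHess (fun y => v (e.symm y)) z).det.re) :=
    INT.IsClosedForm.isDensity (hc2.add (isClosedForm_ddc hv))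
  refine INT.intX_mono hd1 hd2 fun e x hx => ?_
  have h2 : tw L ρ w 2 (fun _ => 0) e (e x) + cHess (fun y => v (e.symm y)) (e x) =
      (w e (e x) + tw L ρ w ε v e (e x)) + (1 - ε) • w e (e x) := by
    have h3 := ddc_const (d := d) (X := X) 0 e x hx
    simp only [] at h3
    show curvature L ρ e (e x) + ((2 : ℝ) : ℂ) • w e (e x) + ddc (fun _ => 0) e (e x) +
      ddc v e (e x) = (w e (e x) + (curvature L ρ e (e x) + (ε : ℂ) • w e (e x) +
        ddc v e (e x))) + (1 - ε) • w e (e x)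
    rw [h3]
    ext a b
    simp only [Matrix.add_apply, Matrix.smul_apply, smul_eq_mul, Complex.real_smul,
      Matrix.zero_apply]
    push_cast
    ring
  rw [h2]
  exact det_le_add ((hw.posDef e x hx).add (hK.posDef e x hx))
    ((hw.posDef e x hx).posSemidef.smul (by linarith))

end Vale.Agent.P301.H599
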