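import Vale.Agent.P301.H599.CY3

/-! P301, H599: metrics on `L` with curvature at least `δ τ - C ε w` (package CY-MAIN). -/

open scoped Manifold ContDiff ComplexOrder Topology ENNReal
open Filter Metric Set MeasureTheory

set_option linter.all false

noncomputable section

namespace Vale.Agent.P301.H599

open Vale.Agent.P272.K Vale.Agent.P272.K.QN

variable {d : ℕ} {X : Type} [TopologicalSpace X] [ChartedSpace (Cm d) X]
  [IsManifold 𝓘(ℂ, Cm d) ω X] [T2Space X] [CompactSpace X] {ι : Type}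
variable {L : LineBundle d X ι} {ρ : ι → X → ℝ} {w : Fm d X} {F : Auto d X} {c : ℝ} {u h : X → ℝ}

lemma exp_avg {m : ℕ} (hm : 1 ≤ m) (a : ℕ → ℝ) {p t : ℝ} (hp : 0 ≤ p)
    (ht : (∑ j ∈ Finset.range m, a j) / m ≤ t) :
    Real.exp (-(p * t)) ≤ ∑ j ∈ Finset.range m, Real.exp (-(p * a j)) := by
  have hm0 : (0 : ℝ) < m := by exact_mod_cast hm
  obtain ⟨j, hj, hle⟩ : ∃ j ∈ Finset.range m, a j ≤ (∑ j ∈ Finset.range m, a j) / m := by
    refine Finset.exists_le_of_sum_le ⟨0, Finset.mem_range.2 hm⟩ (le_of_eq ?_)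
    rw [Finset.sum_const, Finset.card_range, nsmul_eq_mul]
    field_simp
  have h1 : Real.exp (-(p * t)) ≤ Real.exp (-(p * a j)) := by
    apply Real.exp_le_exp.2
    have := mul_le_mul_of_nonneg_left (hle.trans ht) hp
    linarith
  exact h1.trans (Finset.single_le_sum (f := fun j => Real.exp (-(p * a j)))
    (fun i _ => (Real.exp_pos _).le) hj)

/-- the curvature estimate, pure linear algebra -/
lemma curv_psd {Th W DU : Matrix (Fin d) (Fin d) ℂ} {m : ℕ} (hm : 1 ≤ m)
    (P V G : ℕ → Matrix (Fin d) (Fin d) ℂ) {ε δ : ℝ} (hε : 0 < ε) (hδ0 : 0 < δ) (hδ1 : δ ≤ 1)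
    (Cj : ℕ → ℝ) (hCj : ∀ j, 0 < Cj j) (hW : W.PosSemidef)
    (h1 : (Th + DU + ((ε / 2 : ℝ) : ℂ) • W).PosSemidef)
    (h2 : ∀ j, ((Cj j : ℂ) • W - P j).PosSemidef) :
    ((Th + (((1 - δ : ℝ) : ℂ) • DU + ((δ / m : ℝ) : ℂ) • ∑ j ∈ Finset.range m, (V j + G j))) +
      (((1 + ∑ j ∈ Finset.range m, Cj j) * ε : ℝ) : ℂ) • W -
      ((δ / m : ℝ) : ℂ) • ∑ j ∈ Finset.range m,
        (Th + G j + (ε : ℂ) • P j + V j)).PosSemidef := by
  have hm0 : (0 : ℝ) < m := by exact_mod_cast hm
  have hm1 : (1 : ℝ) ≤ m := by exact_mod_cast hm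
  have hSC : 0 ≤ ∑ j ∈ Finset.range m, Cj j := Finset.sum_nonneg fun j _ => (hCj j).le
  have key : ((Th + (((1 - δ : ℝ) : ℂ) • DU + ((δ / m : ℝ) : ℂ) •
      ∑ j ∈ Finset.range m, (V j + G j))) +
      (((1 + ∑ j ∈ Finset.range m, Cj j) * ε : ℝ) : ℂ) • W -
      ((δ / m : ℝ) : ℂ) • ∑ j ∈ Finset.range m, (Th + G j + (ε : ℂ) • P j + V j)) =
      (1 - δ) • (Th + DU + ((ε / 2 : ℝ) : ℂ) • W) +
      (δ / m * ε) • (∑ j ∈ Finset.range m, ((Cj j : ℂ) • W - P j)) +
      ((1 + ∑ j ∈ Finset.range m, Cj j) * ε - (1 - δ) * (ε / 2) -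
        δ / m * ε * ∑ j ∈ Finset.range m, Cj j) • W := by
    have e1 : ∑ j ∈ Finset.range m, (Th + G j + (ε : ℂ) • P j + V j) =
        (m : ℂ) • Th + ∑ j ∈ Finset.range m, G j + (ε : ℂ) • ∑ j ∈ Finset.range m, P j +
          ∑ j ∈ Finset.range m, V j := by
      rw [Finset.sum_add_distrib, Finset.sum_add_distrib, Finset.sum_add_distrib,
        Finset.sum_const, Finset.card_range, ← Finset.smul_sum, Nat.cast_smul_eq_nsmul]
    have e2 : ∑ j ∈ Finset.range m, ((Cj j : ℂ) • W - P j) =
        ((∑ j ∈ Finset.range m, Cj j : ℝ) : ℂ) • W - ∑ j ∈ Finset.range m, P j := by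
      rw [Finset.sum_sub_distrib, ← Finset.sum_smul]
      push_cast
      rfl
    rw [e1, e2, Finset.sum_add_distrib]
    set SC := ∑ j ∈ Finset.range m, Cj j
    set SP := ∑ j ∈ Finset.range m, P j
    set SV := ∑ j ∈ Finset.range m, V j
    set SG := ∑ j ∈ Finset.range m, G j
    ext a b
    simp only [Matrix.add_apply, Matrix.sub_apply, Matrix.smul_apply, smul_eq_mul,
      Complex.real_smul]
    have hmc : (m : ℂ) ≠ 0 := by exact_mod_cast hm0.ne'
    push_cast
    field_simp
    ring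
  rw [key]
  have h3 : (∑ j ∈ Finset.range m, ((Cj j : ℂ) • W - P j)).PosSemidef := by
    refine Finset.sum_induction _ (fun M : Matrix (Fin d) (Fin d) ℂ => M.PosSemidef)
      (fun a b ha hb => ha.add hb) Matrix.PosSemidef.zero fun j _ => h2 j
  have h4 : 0 ≤ (1 + ∑ j ∈ Finset.range m, Cj j) * ε - (1 - δ) * (ε / 2) -
      δ / m * ε * ∑ j ∈ Finset.range m, Cj j := by
    have h5 : δ / m ≤ 1 := by
      rw [div_le_one hm0]; linarith
    have h6 : δ / m * (ε * ∑ j ∈ Finset.range m, Cj j) ≤ 1 * (ε * ∑ j ∈ Finset.range m, Cj j) :=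
      mul_le_mul_of_nonneg_right h5 (mul_nonneg hε.le hSC)
    nlinarith
  exact ((h1.smul (by linarith)).add (h3.smul (by positivity))).add (hW.smul h4)

/-- the weights `(1-δ) U + (δ/m) ∑_j (v ∘ F^j + g_j)` -/
def phiCY (F : X → X) (g : ℕ → X → ℝ) (m : ℕ) (δ : ℝ) (U v : X → ℝ) (x : X) : ℝ :=
  (1 - δ) * U x + (δ / m) * ∑ j ∈ Finset.range m, (v (F^[j] x) + g j x)

lemma smooth_phiCY {g : ℕ → X → ℝ} (hg : ∀ j, Smooth (d := d) (g j)) (m : ℕ) (δ : ℝ)
    {U v : X → ℝ} (hU : Smooth (d := d) U) (hv : Smooth (d := d) v) :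
    Smooth (d := d) (phiCY F g m δ U v) := by
  have h1 : Smooth (d := d) (fun x => ∑ j ∈ Finset.range m, (v (F^[j] x) + g j x)) :=
    Smooth.sum _ fun j _ => (smooth_iter F.contMDiff hv j).add (hg j)
  exact (hU.const_mul (1 - δ)).add (h1.const_mul (δ / m))

lemma ddc_phiCY {g : ℕ → X → ℝ} (hg : ∀ j, Smooth (d := d) (g j)) (m : ℕ) (δ : ℝ)
    {U v : X → ℝ} (hU : Smooth (d := d) U) (hv : Smooth (d := d) v) {e : Chart d X} {x : X}
    (hx : At e x) :
    ddc (phiCY F g m δ U v) e (e x) = ((1 - δ : ℝ) : ℂ) • ddc U e (e x) +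
      ((δ / m : ℝ) : ℂ) • ∑ j ∈ Finset.range m, (ddc (fun y => v (F^[j] y)) e (e x) +
        ddc (g j) e (e x)) := by
  have hs : ∀ j, Smooth (d := d) (fun x => v (F^[j] x) + g j x) := fun j =>
    (smooth_iter F.contMDiff hv j).add (hg j)
  have h1 : Smooth (d := d) (fun x => ∑ j ∈ Finset.range m, (v (F^[j] x) + g j x)) :=
    Smooth.sum _ fun j _ => hs j
  have h2 := ddc_add (hU.const_mul (1 - δ)) (h1.const_mul (δ / m)) e x hx
  have h3 := ddc_const_mul (1 - δ) hU e x hx
  have h4 := ddc_const_mul (δ / m) h1 e x hx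
  have h5 : ddc (fun x => ∑ j ∈ Finset.range m, (v (F^[j] x) + g j x)) e (e x) =
      ∑ j ∈ Finset.range m, ddc (fun x => v (F^[j] x) + g j x) e (e x) :=
    cHess_sum _ fun j _ => (hs j).two e x hx
  simp only [] at h2 h3 h4
  have h6 : ddc (phiCY F g m δ U v) e (e x) = ddc (fun x => (1 - δ) * U x) e (e x) +
      ddc (fun x => (δ / m) * ∑ j ∈ Finset.range m, (v (F^[j] x) + g j x)) e (e x) := h2
  rw [h6, h3, h4, h5]
  congr 2
  refine Finset.sum_congr rfl fun j _ => ?_
  exact ddc_add (smooth_iter F.contMDiff hv j) (hg j) e x hx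

/-- **CY-MAIN.** -/
theorem exists_cy [PreconnectedSpace X] [Nonempty X] (D : Dat F w L ρ c u h) {n : ℕ}
    (hV : VolLow L ρ w n) {m : ℕ} (hm : 1 ≤ m) {p : ℝ} (hp : 0 ≤ p) :
    CYStatement F L ρ w n m p := by
  classical
  have hw := D.kahler
  have hρ := D.metric
  have hcpos := D.cpos
  have hm0 : (0 : ℝ) < m := by exact_mod_cast hm
  have hm1 : (1 : ℝ) ≤ m := by exact_mod_cast hm
  have hwF : IsForm w := hw.toIsHermitian.isForm
  have hwS : SmF w := hw.smooth
  have hwH : HF w := fun e x h => (hw.posDef e x h).isHermitian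
  -- the functions `U`
  have hf : Smooth (d := d) (fun x => u x / c) := by
    have h1 : (fun x => u x / c) = fun x => (1 / c) * u x := by funext x; ring
    rw [h1]; exact D.su.const_mul (1 / c)
  obtain ⟨A, C₀, C₁, C₂, hA, hfam⟩ := H794.exists_fam D hf
  obtain ⟨B, hB0, hB⟩ := exists_B F D.kahler D.metric D.cpos D.su D.dd D.sh D.pdd
  -- the functions `g j`
  choose g hg hgj using D.pull_iter
  choose M hM0 hM using fun j => H794.exists_abs_le (hg j)
  -- the comparison constants
  have hC' : ∀ j : ℕ, ∃ C : ℝ, 0 < C ∧ ∀ e x, At e x →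
      ((C : ℂ) • w e (e x) - pull (F^[j]) w e (e x)).PosSemidef := fun j =>
    exists_comparison_form hw.toIsHermitian (smF_pull (contMDiff_iter F j) hwF hwS)
      (hF_pull hwH) (isForm_pull (contMDiff_iter F j) hwF)
  choose Cj hCj0 hCj using hC'
  have hcurv := isClosedForm_curvature hρ
  have hcurvH : ∀ e x, At e x → (curvature L ρ e (e x)).IsHermitian := by
    intro e x hx
    obtain ⟨i, hi⟩ := L.cover x
    rw [curvature_eq hρ hx hi]
    exact cHess_isHermitian ((hρ.smooth i e x hx hi).of_le (by norm_cast))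
  obtain ⟨A₀, hA₀, hA₀'⟩ := exists_comparison_form hw.toIsHermitian hcurv.smooth hcurvH hcurv.form
  set SC : ℝ := ∑ j ∈ Finset.range m, Cj j with hSC
  set SM : ℝ := ∑ j ∈ Finset.range m, M j with hSM
  have hSC0 : 0 ≤ SC := Finset.sum_nonneg fun j _ => (hCj0 j).le
  have hSM0 : 0 ≤ SM := Finset.sum_nonneg fun j _ => hM0 j
  have hCjle : ∀ j ∈ Finset.range m, Cj j ≤ SC := fun j hj =>
    Finset.single_le_sum (fun i _ => (hCj0 i).le) hj
  have hMle : ∀ j ∈ Finset.range m, M j ≤ SM := fun j hj =>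
    Finset.single_le_sum (fun i _ => hM0 i) hj
  obtain ⟨δ, hδ0, hδ1, hmix⟩ := H794.exists_mix (F := F) (w := w) (A := A) (A' := A₀ + SC)
    (C₀ := C₀) (C₁ := C₁) (C₂ := C₂) hw hA (by positivity) (2 * SM) hp
  obtain ⟨c₀, hc₀, hvol⟩ := hV
  set vol : ℝ := INT.intX (fun (e : Chart d X) z => (w e z).det.re) with hvol'
  have hvol0 : 0 ≤ vol := INT.intX_nonneg fun e x hx => (INT.posDef_det_re (hw.posDef e x hx)).1.le
  set K₁ : ℝ := INT.intX (fun e z => (tw L ρ w 2 (fun _ => 0) e z).det.re) with hK₁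
  set K₂ : ℝ := INT.intX (fun e z => ((w e z)⁻¹ * curvature L ρ e z).trace.re * (w e z).det.re) +
    d * vol with hK₂
  have key : ∀ ε : ℝ, ∃ (φ : X → ℝ) (τ : Fm d X), 0 < ε → ε ≤ 1 →
      CYApprox F L ρ w n m δ (1 + SC) (|C₀| + SM) c₀ (max K₁ K₂) ε φ τ ∧
      ∃ (U : X → ℝ) (V : ℕ → X → ℝ), H794.Fam F w A C₀ C₁ C₂ U ∧
        (∀ j ∈ Finset.range m, QPsh w (A₀ + SC) (V j) ∧ ∃ q, -(2 * SM) ≤ V j q) ∧
        ∀ x, Real.exp (-(p * φ x)) ≤
          ∑ j ∈ Finset.range m, Real.exp (-(p * ((1 - δ) * U x + δ * V j x))) := by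
    intro ε
    by_cases hε : 0 < ε ∧ ε ≤ 1
    swap
    · exact ⟨fun _ => 0, fun _ _ => 0, fun h1 h2 => (hε ⟨h1, h2⟩).elim⟩
    obtain ⟨hε0, hε1⟩ := hε
    -- choice of `N`
    obtain ⟨N, hN⟩ := exists_nat_gt (2 * B / ε)
    have hN0 : (0 : ℝ) < N := lt_of_le_of_lt (by positivity) hN
    have hN1 : 1 ≤ N := by
      have : 0 < N := by exact_mod_cast hN0
      omega
    have hBN : B / N ≤ ε / 2 := by
      rw [div_lt_iff₀ hε0] at hN
      rw [div_le_iff₀ hN0]
      linarith
    set U : X → ℝ := fun x => UU F h c N x + u x / c with hU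
    have hUfam := hfam N hN1
    have hUs : Smooth (d := d) U := hUfam.smooth
    have hpsd : ∀ e x, At e x → (curvature L ρ e (e x) + ddc U e (e x) +
        ((ε / 2 : ℝ) : ℂ) • w e (e x)).PosSemidef := by
      intro e x hx
      obtain ⟨i, hi⟩ := L.cover x
      have h1 := hB N hN1 i e x hx hi
      have s2 : ContDiffAt ℝ 2 (fun z => ρ i (e.symm z)) (e x) :=
        (hρ.smooth i e x hx hi).of_le (by norm_cast)
      have h2 : cHess (fun z => (2 / c) * (S3 F h N (e.symm z) / (N : ℝ) ^ 2) +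
          (ρ i (e.symm z) + u (e.symm z) / c)) (e x) =
          curvature L ρ e (e x) + ddc U e (e x) := by
        have e1 : (fun z => (2 / c) * (S3 F h N (e.symm z) / (N : ℝ) ^ 2) +
            (ρ i (e.symm z) + u (e.symm z) / c)) = fun z =>
            (fun z => ρ i (e.symm z)) z + (fun z => U (e.symm z)) z := by
          funext z
          simp only [hU, UU]
          ring
        rw [e1, cHess_add s2 (hUs.two e x hx), curvature_eq hρ hx hi]
        rfl
      rw [h2] at h1
      have h3 : curvature L ρ e (e x) + ddc U e (e x) + ((ε / 2 : ℝ) : ℂ) • w e (e x) =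
          (curvature L ρ e (e x) + ddc U e (e x) + ((B / N : ℝ) : ℂ) • w e (e x)) +
            (ε / 2 - B / N) • w e (e x) := by
        ext a b
        simp only [Matrix.add_apply, Matrix.smul_apply, smul_eq_mul, Complex.real_smul]
        push_cast
        ring
      rw [h3]
      exact h1.add ((hw.posDef e x hx).posSemidef.smul (by linarith))
    have hpos : ∀ e x, At e x → (tw L ρ w ε U e (e x)).PosDef := by
      intro e x hx
      have h1 : tw L ρ w ε U e (e x) = (ε / 2) • w e (e x) + (curvature L ρ e (e x) +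
          ddc U e (e x) + ((ε / 2 : ℝ) : ℂ) • w e (e x)) := by
        unfold tw
        ext a b
        simp only [Matrix.add_apply, Matrix.smul_apply, smul_eq_mul, Complex.real_smul]
        push_cast
        ring
      rw [h1]
      exact ((hw.posDef e x hx).smul (by positivity)).add_posSemidef (hpsd e x hx)
    obtain ⟨v, Cv, hvs, hv0, ⟨x₀, hx₀⟩, hCv, hτ, hdet⟩ := exists_cyMetric hρ hw hUs hpos
    set τ : Fm d X := tw L ρ w ε v with hτdef
    set φ : X → ℝ := phiCY F g m δ U v with hφ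
    have hφs : Smooth (d := d) φ := smooth_phiCY hg m δ hUs hvs
    refine ⟨φ, τ, fun _ _ => ⟨?_, ?_⟩⟩
    · refine ⟨hφs, hτ, ?_, ?_, ?_, ?_, ?_⟩
      · intro i e x hx hi
        have s2 : ContDiffAt ℝ 2 (fun z => ρ i (e.symm z)) (e x) :=
          (hρ.smooth i e x hx hi).of_le (by norm_cast)
        have h1 : cHess (fun z => ρ i (e.symm z) + φ (e.symm z)) (e x) =
            curvature L ρ e (e x) + ddc φ e (e x) := by
          have := cHess_add s2 (hφs.two e x hx)
          rw [curvature_eq hρ hx hi]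
          exact this
        rw [h1, hφ, ddc_phiCY hg m δ hUs hvs hx]
        have h2 : ∑ j ∈ Finset.range m, pull (F^[j]) τ e (e x) =
            ∑ j ∈ Finset.range m, (curvature L ρ e (e x) + ddc (g j) e (e x) +
              (ε : ℂ) • pull (F^[j]) w e (e x) + ddc (fun y => v (F^[j] y)) e (e x)) :=
          Finset.sum_congr rfl fun j _ => pull_tw hρ hw hvs ε (hgj j) hx
        rw [h2]
        exact curv_psd hm _ _ _ hε0 hδ0 hδ1 Cj hCj0 (hw.posDef e x hx).posSemidef
          (hpsd e x hx) fun j => hCj j e x hx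
      · intro x
        have h1 : U x ≤ |C₀| := (hUfam.upper x).trans (le_abs_self _)
        have h2 : (1 - δ) * U x ≤ |C₀| := by
          have h3 : (1 - δ) * U x ≤ (1 - δ) * |C₀| := mul_le_mul_of_nonneg_left h1 (by linarith)
          have h4 : (1 - δ) * |C₀| ≤ 1 * |C₀| :=
            mul_le_mul_of_nonneg_right (by linarith) (abs_nonneg _)
          linarith
        have h5 : ∑ j ∈ Finset.range m, (v (F^[j] x) + g j x) ≤ SM :=
          Finset.sum_le_sum fun j _ => by
            have := hv0 (F^[j] x)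
            have := (le_abs_self _).trans (hM j x)
            linarith
        have h6 : δ / m ≤ 1 := by rw [div_le_one hm0]; linarith
        have h7 : (δ / m) * ∑ j ∈ Finset.range m, (v (F^[j] x) + g j x) ≤ SM := by
          have h8 : 0 ≤ δ / m := by positivity
          calc _ ≤ (δ / m) * SM := mul_le_mul_of_nonneg_left h5 h8
            _ ≤ 1 * SM := mul_le_mul_of_nonneg_right h6 hSM0
            _ = SM := one_mul _
        exact add_le_add h2 h7
      · intro e x hx
        rw [hdet e x hx]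
        exact mul_le_mul_of_nonneg_right (hvol ε hε0 hε1 v Cv hvs hτ hdet)
          (INT.posDef_det_re (hw.posDef e x hx)).1.le
      · exact (intX_det_add_le hρ hw hε1 hvs hτ).trans (le_max_left _ _)
      · rw [hτdef, intX_trace_tw hρ hw hvs]
        refine le_trans ?_ (le_max_right _ _)
        rw [hK₂]
        have h1 : ε * d * vol ≤ d * vol := by
          have : ε * (d * vol) ≤ 1 * (d * vol) :=
            mul_le_mul_of_nonneg_right hε1 (mul_nonneg (Nat.cast_nonneg d) hvol0)
          linarith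
        linarith
    · refine ⟨U, fun j x => v (F^[j] x) + g j x - M j, hUfam, fun j hj => ⟨⟨?_, ?_, ?_⟩, ?_⟩,
        fun x => ?_⟩
      · exact ((smooth_iter F.contMDiff hvs j).add (hg j)).sub (Smooth.const (M j))
      · intro e x hx
        have s1 : Smooth (d := d) (fun x => v (F^[j] x) + g j x) :=
          (smooth_iter F.contMDiff hvs j).add (hg j)
        have h1 := ddc_sub s1 (Smooth.const (d := d) (X := X) (M j)) e x hx
        have h2 := ddc_const (d := d) (X := X) (M j) e x hx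
        have h3 := ddc_add (smooth_iter F.contMDiff hvs j) (hg j) e x hx
        simp only [] at h1 h2 h3
        rw [h2, sub_zero, h3] at h1
        have h4 : cHess (fun z => v (F^[j] (e.symm z)) + g j (e.symm z) - M j) (e x) =
            ddc (fun y => v (F^[j] y)) e (e x) + ddc (g j) e (e x) := h1
        have h5 := pull_tw hρ hw hvs ε (hgj j) hx
        have h6 : (pull (F^[j]) τ e (e x)).PosSemidef :=
          pull_posSemidef _ fun e x hx => (hτ.posDef e x hx).posSemidef
        have h7 := hCj j e x hx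
        have h8 := hA₀' e x hx
        have h9 := (hw.posDef e x hx).posSemidef
        rw [h4]
        have h10 : ddc (fun y => v (F^[j] y)) e (e x) + ddc (g j) e (e x) +
            ((A₀ + SC : ℝ) : ℂ) • w e (e x) = pull (F^[j]) τ e (e x) +
            (((A₀ : ℂ) • w e (e x) - curvature L ρ e (e x)) +
            ε • ((Cj j : ℂ) • w e (e x) - pull (F^[j]) w e (e x))) +
            (SC - ε * Cj j) • w e (e x) := by
          rw [hτdef, h5]
          ext a b
          simp only [Matrix.add_apply, Matrix.sub_apply, Matrix.smul_apply, smul_eq_mul,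
            Complex.real_smul]
          push_cast
          ring
        rw [h10]
        have h11 : 0 ≤ SC - ε * Cj j := by
          have h12 : ε * Cj j ≤ 1 * Cj j := mul_le_mul_of_nonneg_right hε1 (hCj0 j).le
          linarith [hCjle j hj]
        exact (h6.add (h8.add (h7.smul hε0.le))).add (h9.smul h11)
      · intro x
        have h1 := hv0 (F^[j] x)
        have h2 := (le_abs_self _).trans (hM j x)
        simp only []
        linarith
      · obtain ⟨q, hq⟩ : ∃ q, F^[j] q = x₀ := F.surjective.iterate j x₀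
        refine ⟨q, ?_⟩
        have h2 := (abs_le.1 (hM j q)).1
        have h3 := hMle j hj
        simp only [hq, hx₀]
        linarith
      · refine exp_avg hm (fun j => (1 - δ) * U x + δ * (v (F^[j] x) + g j x - M j)) hp ?_
        have h1 : φ x = (1 - δ) * U x + (δ / m) * ∑ j ∈ Finset.range m, (v (F^[j] x) + g j x) :=
          rfl
        rw [h1, Finset.sum_add_distrib, Finset.sum_const, Finset.card_range, nsmul_eq_mul,
          ← Finset.mul_sum, Finset.sum_sub_distrib, ← hSM]
        rw [add_div, mul_div_cancel_left₀ _ hm0.ne']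
        have h2 : 0 ≤ δ / m * SM := by positivity
        have h3 : δ * (∑ j ∈ Finset.range m, (v (F^[j] x) + g j x) - SM) / m =
            δ / m * ∑ j ∈ Finset.range m, (v (F^[j] x) + g j x) - δ / m * SM := by
          field_simp
        rw [h3]
        linarith
  choose φ τ hφτ using key
  refine ⟨δ, 1 + SC, |C₀| + SM, c₀, max K₁ K₂, hδ0, hδ1, by positivity, hc₀, φ, τ,
    fun ε h0 h1 => (hφτ ε h0 h1).1, fun e he S hS hSe => ?_⟩
  obtain ⟨B', hB', hmixS⟩ := hmix e he S hS hSe
  refine ⟨m * B', ENNReal.mul_ne_top (ENNReal.natCast_ne_top m) hB', fun ε h0 h1 => ?_⟩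
  obtain ⟨-, U, V, hU, hVj, hexp⟩ := hφτ ε h0 h1
  have hUc : Continuous U := INT.SmoothFn.continuous hU.smooth
  have hmeas : ∀ j ∈ Finset.range m, AEMeasurable (fun z => ENNReal.ofReal
      (Real.exp (-(p * ((1 - δ) * U (e.symm z) + δ * V j (e.symm z)))))) (volume.restrict S) := by
    intro j hj
    have hVc : Continuous (V j) := INT.SmoothFn.continuous (hVj j hj).1.smooth
    have hc : ContinuousOn (fun z => Real.exp
        (-(p * ((1 - δ) * U (e.symm z) + δ * V j (e.symm z))))) S := by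
      refine Real.continuous_exp.comp_continuousOn (ContinuousOn.neg ?_)
      refine continuousOn_const.mul (ContinuousOn.add ?_ ?_)
      · exact continuousOn_const.mul (hUc.comp_continuousOn (e.continuousOn_symm.mono hSe))
      · exact continuousOn_const.mul (hVc.comp_continuousOn (e.continuousOn_symm.mono hSe))
    exact (hc.aemeasurable hS.measurableSet).ennreal_ofReal
  calc ∫⁻ z in S, ENNReal.ofReal (Real.exp (-(p * φ ε (e.symm z))))
      ≤ ∫⁻ z in S, ∑ j ∈ Finset.range m, ENNReal.ofReal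
          (Real.exp (-(p * ((1 - δ) * U (e.symm z) + δ * V j (e.symm z))))) := by
        refine lintegral_mono fun z => ?_
        refine (ENNReal.ofReal_le_ofReal (hexp (e.symm z))).trans ?_
        rw [ENNReal.ofReal_sum_of_nonneg fun _ _ => (Real.exp_pos _).le]
    _ = ∑ j ∈ Finset.range m, ∫⁻ z in S, ENNReal.ofReal
          (Real.exp (-(p * ((1 - δ) * U (e.symm z) + δ * V j (e.symm z))))) :=
        lintegral_finset_sum' _ hmeas
    _ ≤ ∑ j ∈ Finset.range m, B' :=
        Finset.sum_le_sum fun j hj => hmixS U hU (V j) (hVj j hj).1 (hVj j hj).2 δ hδ0.le le_rfl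
    _ = m * B' := by rw [Finset.sum_const, Finset.card_range, nsmul_eq_mul]

end Vale.Agent.P301.H599
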