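import Vale.Agent.P301.H599.F1

/-! # P301, F1 for the limits of `PTEnd` -/

open scoped Manifold ContDiff ComplexOrder Topology Matrix ENNReal ComplexConjugate
open Vale.Agent.P272.K Vale.Agent.P272.K.C2 Vale.Agent.P299.H954 Vale.Agent.P299.IX
open Vale.Agent.P299.IX.Fock Vale.Agent.P301.H862 MeasureTheory Set Filter Metric
open Vale.Agent.P301.H794 (LocEq WLim isMetric_add gradX_nonneg intC_grad_le)
open Vale.Agent.P301.H951 (IsLim curv_pow)

set_option linter.all false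

noncomputable section

namespace Vale.Agent.P301.H599

variable {d : ℕ} {X : Type} [TopologicalSpace X] [ChartedSpace (Cm d) X]
variable {ι : Type} {L : LineBundle d X ι}
variable {w : Fm d X} {ρ : ι → X → ℝ} {l : Filter ℕ} {φ : X → ℝ}
variable [IsManifold 𝓘(ℂ, Cm d) ω X] [T2Space X] [CompactSpace X]

/-- the gradients of the approximants converge to zero -/
theorem grad_lim {F : X → X} {ε : ℕ → ℝ} {φN : ℕ → X → ℝ} {τ : ℕ → Fm d X}
    {n : ℕ} {δ C C₁ c₀ K : ℝ} (hw : IsKahler w) (hρ : IsMetric L ρ)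
    (hε0 : ∀ N, 0 < ε N) (hε : Tendsto ε l (𝓝 0)) (hδ : 0 < δ) (hC : 0 ≤ C)
    (hA : ∀ N, CYApprox F L ρ w n 1 δ C C₁ c₀ K (ε N) (φN N) (τ N)) {q p : ℕ} (hq : 1 ≤ q)
    {g : ℕ → H862.Fam d X ι} {u : H862.Fam d X ι} (h : IsLim l L w ρ φN ε q p g u) :
    Tendsto (fun N => (intC (powL L q)
      (gradX (fun i x => (q : ℝ) * ρ i x + (q : ℝ) * φN N x) w (g N) (g N))).re) l (𝓝 0) := by
  have hq0 : (0 : ℝ) < q := by exact_mod_cast hq
  have hρq := powL_metric hρ q
  have hv : ∀ N, Smooth (d := d) (fun x => (q : ℝ) * φN N x) := fun N =>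
    Smooth.const_mul _ (hA N).smooth
  have hρN : ∀ N, IsMetric (powL L q) (fun i x => (q : ℝ) * ρ i x + (q : ℝ) * φN N x) :=
    fun N => isMetric_add hρq (hv N)
  have hcurv' : ∀ N, ∀ i (e : Chart d X) x, At e x → x ∈ (powL L q).U i →
      (cHess (fun z => (q : ℝ) * ρ i (e.symm z) + (q : ℝ) * φN N (e.symm z)) (e x) +
        ((q * C * ε N : ℝ) : ℂ) • w e (e x)).PosSemidef := by
    intro N i e x hx hi
    have h1 := curv_pow hρ (hA N) hq i e x hx hi
    have h2 : (((q * δ : ℝ) : ℂ) • τ N e (e x)).PosSemidef :=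
      ((hA N).kahler.posDef e x hx).posSemidef.smul (Complex.zero_le_real.2 (by positivity))
    have h3 := h1.add h2
    rwa [sub_add_cancel] at h3
  have h1 : Tendsto (fun N => ε N + q * C * ε N * d * 2) l (𝓝 (0 + q * C * 0 * d * 2)) :=
    hε.add (((hε.const_mul _).mul_const _).mul_const _)
  have h2 : (0 : ℝ) + q * C * 0 * d * 2 = 0 := by ring
  rw [h2] at h1
  refine tendsto_of_tendsto_of_tendsto_of_le_of_le tendsto_const_nhds h1 (fun N => ?_)
    fun N => ?_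
  · exact intC_re_nonneg fun i e x hx _ => gradX_nonneg hw _ _ _ hx
  · have haε : 0 ≤ q * C * ε N := mul_nonneg (by positivity) (hε0 N).le
    have h3 := intC_grad_le hw (hρN N) haε (hcurv' N) (h.sec N)
    have h4 : q * C * ε N * d * (H862.ip (powL L q)
        (fun i x => (q : ℝ) * ρ i x + (q : ℝ) * φN N x) w (g N) (g N)).re ≤
        q * C * ε N * d * 2 := mul_le_mul_of_nonneg_left (h.bound N) (by positivity)
    have h5 := h.ker N
    show (intC (powL L q)
      (gradX (fun i x => (q : ℝ) * ρ i x + (q : ℝ) * φN N x) w (g N) (g N))).re ≤ _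
    linarith

/-- **F1** for the limits of weight one -/
theorem f1_lim [l.NeBot] {F : X → X} {ε : ℕ → ℝ} {φN : ℕ → X → ℝ} {τ : ℕ → Fm d X}
    {n : ℕ} {δ C C₁ c₀ K : ℝ} (hw : IsKahler w) (hρ : IsMetric L ρ)
    (hε0 : ∀ N, 0 < ε N) (hε : Tendsto ε l (𝓝 0)) (hδ : 0 < δ) (hC : 0 ≤ C)
    (hA : ∀ N, CYApprox F L ρ w n 1 δ C C₁ c₀ K (ε N) (φN N) (τ N)) {p : ℕ}
    {g : ℕ → H862.Fam d X ι} {u : H862.Fam d X ι} (h : IsLim l L w ρ φN ε 1 p g u) {lam : ℕ}
    (hW : WLim d l (fun N x => (lam : ℝ) * φN N x) fun x => (lam : ℝ) * φ x)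
    (hW2 : WLim d l (fun N x => ((2 * lam : ℕ) : ℝ) * φN N x)
      fun x => ((2 * lam : ℕ) : ℝ) * φ x) :
    LocEq L (fun i x => (lam : ℝ) * ρ i x) (fun x => (lam : ℝ) * φ x) u
      (fun i e z => (1 - (lam : ℂ)) • dF u i e z) := by
  have hgrad := grad_lim hw hρ hε0 hε hδ hC hA le_rfl h
  have hD : Tendsto (fun N => (H862.ip (powL L 1)
      (fun i x => ((1 : ℕ) : ℝ) * ρ i x + ((1 : ℕ) : ℝ) * φN N x) w
      (DX (fun i x => ((1 : ℕ) : ℝ) * ρ i x + ((1 : ℕ) : ℝ) * φN N x) (g N))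
      (DX (fun i x => ((1 : ℕ) : ℝ) * ρ i x + ((1 : ℕ) : ℝ) * φN N x) (g N))).re) l (𝓝 0) := by
    refine squeeze_zero (fun N => ?_) (fun N => ?_) hε
    · exact intC_re_nonneg fun i e x hx hi => hw_nonneg (kat hw hx) _
    · have h1 := h.ker N
      have h2 : 0 ≤ (H862.ip (powL L 1)
          (fun i x => ((1 : ℕ) : ℝ) * ρ i x + ((1 : ℕ) : ℝ) * φN N x) w
          (dX w (g N)) (dX w (g N))).re :=
        intC_re_nonneg fun i e x hx hi => hw_nonneg (kat hw hx) _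
      linarith
  have hv : ∀ N, Smooth (d := d) (fun x => ((1 : ℕ) : ℝ) * φN N x) := fun N =>
    Smooth.const_mul _ (hA N).smooth
  have e1 : ∀ m : ℕ, (fun N x => (m : ℝ) * (((1 : ℕ) : ℝ) * φN N x)) =
      fun N x => (m : ℝ) * φN N x := by
    intro m; funext N x; simp
  have e2 : (fun i x => (lam : ℝ) * (((1 : ℕ) : ℝ) * ρ i x)) = fun i x => (lam : ℝ) * ρ i x := by
    funext i x; simp
  have main := f1_gen (M := powL L 1) (ρ := fun i x => ((1 : ℕ) : ℝ) * ρ i x)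
    (v := fun N x => ((1 : ℕ) : ℝ) * φN N x) (φ := φ) (l := l) (lam := lam) hw
    (powL_metric hρ 1) hv (C₁ := C₁) (fun N x => by simpa using (hA N).upper x) h.sec h.hol
    (fun e he i S hS hSd I => (h.conv e he i S hS hSd).one hS.measure_ne_top subset_rfl I)
    hD hgrad (by rw [e1]; exact hW) (by rw [e1]; exact hW2)
  unfold LE at main
  rw [e2] at main
  exact main

end Vale.Agent.P301.H599
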