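import Vale.Agent.P301.H599.HorDiv
import Vale.Agent.P301.H599.F1Lim
import Vale.Agent.P301.H395.TensOne
import Vale.Agent.P301.H949.Inj
import Vale.Agent.P301.H949.Const
import Vale.Agent.P301.H450.EffPar

/-! # P301: counting four-forms and five-forms -/

open scoped Manifold ContDiff ComplexOrder Topology Matrix ENNReal ComplexConjugate
open Vale.Agent.P272.K Vale.Agent.P272.K.C2 Vale.Agent.P299.H954 Vale.Agent.P299.IX
open Vale.Agent.P299.IX.Fock Vale.Agent.P301.H862 MeasureTheory Set Filter Metric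
open Vale.Agent.P301.H103 Vale.Agent.P301.H949
open Vale.Agent.P301.H794 (LocEq WLim)
open Vale.Agent.P301.H951 (IsLim)
open Vale.Agent.P301.H897 (LamF)
open Vale.Agent.P301.H724 (Homog LinInd Nz)
open Vale.Agent.P301.H450 (Mb)

set_option linter.all false

noncomputable section

namespace Vale.Agent.P301.H599

variable {d : ℕ} {X : Type} [TopologicalSpace X] [ChartedSpace (Cm d) X]
variable {ι : Type} {L : LineBundle d X ι} {α : Type*}
variable {w : Fm d X} {ρ : ι → X → ℝ} {l : Filter α} {v : α → X → ℝ} {φ : X → ℝ}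

/-- limits of weights after subtraction of a smooth function -/
theorem wLim_shift (hW : WLim d l v φ) {c : X → ℝ} (hc : Smooth (d := d) c) :
    WLim d l (fun N x => v N x - c x) fun x => φ x - c x := by
  have hb : ∀ e ∈ atlas (Cm d) X, ∀ K : Set (Cm d), IsCompact K → K ⊆ e.target →
      ContinuousOn (fun z => Real.exp (c (e.symm z))) K := by
    intro e he K hK hKe z hz
    have h1 : At e (e.symm z) := P272.K.At.of_target he (hKe hz)
    have h2 := (hc e _ h1).continuousAt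
    rw [e.right_inv (hKe hz)] at h2
    exact (Real.continuous_exp.continuousAt.comp h2).continuousWithinAt
  have hs : ∀ a b : ℝ, Real.exp (-(a - b)) = Real.exp (-a) * Real.exp b := by
    intro a b; rw [← Real.exp_add]; congr 1; ring
  constructor
  · intro e he K hK hKe
    obtain ⟨C, hC⟩ := hK.exists_bound_of_continuousOn (hb e he K hK hKe)
    have h1 : IntegrableOn (fun z => Real.exp (-φ (e.symm z)) * Real.exp (c (e.symm z))) K :=
      (hW.int e he K hK hKe).mul_bdd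
        ((hb e he K hK hKe).aestronglyMeasurable hK.measurableSet)
        ((ae_restrict_iff' hK.measurableSet).2 (Eventually.of_forall hC))
    refine h1.congr_fun (fun z _ => ?_) hK.measurableSet
    exact (hs _ _).symm
  · intro e he K hK hKe
    obtain ⟨C, hC⟩ := hK.exists_bound_of_continuousOn (hb e he K hK hKe)
    have h1 : Tendsto (fun N => ENNReal.ofReal C *
        ∫⁻ z in K, ‖Real.exp (-v N (e.symm z)) - Real.exp (-φ (e.symm z))‖ₑ) l (𝓝 0) := by
      have h2 := ENNReal.Tendsto.const_mul (a := ENNReal.ofReal C) (hW.lim e he K hK hKe)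
        (Or.inr ENNReal.ofReal_ne_top)
      rwa [mul_zero] at h2
    refine tendsto_of_tendsto_of_tendsto_of_le_of_le tendsto_const_nhds h1 (fun _ => zero_le)
      fun N => ?_
    rw [← lintegral_const_mul' _ _ ENNReal.ofReal_ne_top]
    refine setLIntegral_mono' hK.measurableSet fun z hz => ?_
    simp only [hs]
    rw [← sub_mul, enorm_mul, mul_comm]
    gcongr
    rw [← ofReal_norm]
    exact ENNReal.ofReal_le_ofReal (hC z hz)

variable [IsManifold 𝓘(ℂ, Cm d) ω X] [T2Space X] [CompactSpace X]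

/-- **J** for the metrics `ρ + φ₁` -/
theorem j_one [l.NeBot] {φ₁ : X → ℝ} (hφ₁ : Smooth (d := d) φ₁)
    (hm : IsMetric L fun i x => ρ i x + φ₁ x) (hw : IsKahler w)
    (hv : ∀ N, Smooth (d := d) (v N))
    (hW : ∀ lam : ℕ, lam ≤ 2 → WLim d l (fun N x => (lam : ℝ) * v N x) fun x => (lam : ℝ) * φ x)
    {p r : ℕ} (hp : p ∈ Finset.range (d + 1))
    [FiniteDimensional ℂ (skd ((cyB L ρ w φ₁ hm hw).pow 1).grading p)]
    {g : Fin r → H862.Fam d X ι} (hg : ∀ a, H724.IsSec L LamF 1 (g a))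
    (hh : ∀ a, Homog L p (g a)) (hli : LinInd L g)
    (hloc : ∀ a, LocEq L (fun i x => ((1 : ℕ) : ℝ) * ρ i x) (fun x => ((1 : ℕ) : ℝ) * φ x)
      (g a) 0) :
    r ≤ Module.finrank ℂ (skd ((cyB L ρ w φ₁ hm hw).pow 1).grading p) := by
  have hol : ∀ a, H897.IsHol (powL L 1) (g a) := fun a =>
    { holo := (hg a).holo
      change := fun i j e e' x hx hx' hi hj => by
        rw [(hg a).chV i e e' x hx hx' hi, (hg a).chL i j e' x hx' hi hj, Matrix.smul_mulVec,
          Matrix.mulVec_smul]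
        rfl }
  have h1 := wLim_shift (hW 1 (by norm_num)) hφ₁
  have h2 := wLim_shift (hW 2 le_rfl) (hφ₁.const_mul 2)
  refine le_finrank_skd (v := fun N x => ((1 : ℕ) : ℝ) * v N x - φ₁ x)
    (φ := fun x => ((1 : ℕ) : ℝ) * φ x - φ₁ x) (l := l) ((cyB L ρ w φ₁ hm hw).pow 1)
    (fun N => (Smooth.const_mul _ (hv N)).sub hφ₁) h1 ?_ hp hol hh (fun a => ?_) hli
  · have e1 : (fun N x => 2 * (((1 : ℕ) : ℝ) * v N x - φ₁ x)) =
        fun N x => ((2 : ℕ) : ℝ) * v N x - 2 * φ₁ x := by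
      funext N x; push_cast; ring
    have e2 : (fun x => 2 * (((1 : ℕ) : ℝ) * φ x - φ₁ x)) =
        fun x => ((2 : ℕ) : ℝ) * φ x - 2 * φ₁ x := by
      funext x; push_cast; ring
    rw [e1, e2]
    exact h2
  · intro i e he I ξ g1 g2 g3
    have h3 := hloc a i e he I ξ g1 g2 g3
    rw [← h3]
    refine setIntegral_congr_fun (H862.isOpen_dom L i e).measurableSet fun z _ => ?_
    have e1 : ((cyB L ρ w φ₁ hm hw).pow 1).ρ i (e.symm z) +
        (((1 : ℕ) : ℝ) * φ (e.symm z) - φ₁ (e.symm z)) =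
        ((1 : ℕ) : ℝ) * ρ i (e.symm z) + ((1 : ℕ) : ℝ) * φ (e.symm z) := by
      show ((1 : ℕ) : ℝ) * (ρ i (e.symm z) + φ₁ (e.symm z)) +
        (((1 : ℕ) : ℝ) * φ (e.symm z) - φ₁ (e.symm z)) = _
      push_cast
      ring
    simp only [e1]

section six

variable {X : Type} [TopologicalSpace X] [ChartedSpace (Cm 6) X] [T2Space X] [CompactSpace X]
  [SimplyConnectedSpace X] [IsManifold 𝓘(ℂ, Cm 6) ω X]
variable {ι κ : Type} {L : LineBundle 6 X ι} {V : LineBundle 6 X κ}
variable {w s : Fm 6 X} {ρ : ι → X → ℝ} {ρV : κ → X → ℝ} {c : ℝ} {l : Filter ℕ} {φ : X → ℝ}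

/-- **COUNT.** The number of independent limit four-forms is at most `1` plus the dimension of the
space of harmonic five-forms. -/
theorem count_four_five [l.NeBot] (hs : IsSymplectic 6 X w s) (hρ : IsMetric L ρ) (F : Auto 6 X)
    (hc : 0 < c) (hθ : SameClass (pull F (curvature L ρ)) (curvature L ρ))
    (hdd : SameClass (fun e z => pull F (pull F w) e z - (2 : ℂ) • pull F w e z + w e z)
      (fun e z => (c : ℂ) • curvature L ρ e z))
    (hex : ¬ H450.IsExact (curvature L ρ)) (hρV : IsMetric V ρV) {a : ℤ} (ha : a ≠ 0)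
    (hF : SameClass (pull F (curvature V ρV))
      (fun e z => curvature V ρV e z + (a : ℂ) • curvature L ρ e z))
    (hNS : H99.NS L ρ V ρV)
    -- the approximating metrics
    {F' : X → X} {ε : ℕ → ℝ} {φN : ℕ → X → ℝ} {τ : ℕ → Fm 6 X} {n : ℕ} {δ C C₁ c₀ K : ℝ}
    (hε0 : ∀ N, 0 < ε N) (hε : Tendsto ε l (𝓝 0)) (hδ : 0 < δ) (hC : 0 ≤ C)
    (hA : ∀ N, CYApprox F' L ρ w n 1 δ C C₁ c₀ K (ε N) (φN N) (τ N))
    {Q : ℕ} (hQ : 4 * (1 + (Mb 6).factorial) ≤ Q)
    (hW : ∀ lam : ℕ, lam ≤ Q → WLim 6 l (fun N x => (lam : ℝ) * φN N x) fun x => (lam : ℝ) * φ x)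
    -- the limit forms
    {r : ℕ} {G : Fin r → ℕ → H862.Fam 6 X ι} {u : Fin r → H862.Fam 6 X ι}
    (hlim : ∀ b, IsLim l L w ρ φN ε 1 4 (G b) (u b)) (hu : ∀ b, H724.IsSec L LamF 1 (u b))
    (hh : ∀ b, Homog L 4 (u b)) (hli : LinInd L u)
    (hann : ∀ i e x, At e x → x ∈ L.U i →
      3 ≤ Module.finrank ℂ (Vale.Agent.P301.H951.ann fun b => u b i e (e x)))
    -- one of the metrics
    {φ₁ : X → ℝ} (hφ₁ : Smooth (d := 6) φ₁) (hm : IsMetric L fun i x => ρ i x + φ₁ x)
    [FiniteDimensional ℂ (skd ((cyB L ρ w φ₁ hm hs.kahler).pow 1).grading 5)] :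
    r ≤ Module.finrank ℂ (skd ((cyB L ρ w φ₁ hm hs.kahler).pow 1).grading 5) + 1 := by
  rcases Nat.eq_zero_or_pos r with hr | hr
  · omega
  obtain ⟨r', rfl⟩ : ∃ r', r = r' + 1 := ⟨r - 1, by omega⟩
  obtain ⟨g, hg, hgh, hgl, hrel⟩ := H395.five_forms hs hρ F hc hθ hdd hex hρV ha hF hNS hu hh hli
    hann
  obtain ⟨f, hf1, hf2, hf0⟩ := H450.eff_nonvanishing hs hρ F hc hθ hdd
  have hf : H450.IsSecPow L (Mb 6).factorial f := ⟨hf1, hf2⟩
  have hv : ∀ N, Smooth (d := 6) (φN N) := fun N => (hA N).smooth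
  have hloc : ∀ b, LocEq L (fun i x => ((1 : ℕ) : ℝ) * ρ i x) (fun x => ((1 : ℕ) : ℝ) * φ x)
      (g b) 0 := by
    intro b
    refine hor' (l := l) (v := φN) (u := u) (k := (Mb 6).factorial) (m := 1)
      (Q := 2 * (1 + (Mb 6).factorial)) hs.kahler hρ hv (fun lam hlam => hW lam (by omega)) hu
      (fun a lam h1 h2 => f1_lim hs.kahler hρ hε0 hε hδ hC hA (hlim a) (hW lam (by omega))
        (hW (2 * lam) (by omega))) (Nat.factorial_pos _) hf hf0 le_rfl le_rfl (hg b) ?_
    refine hz_single b.succ fun i e x hx hi I => ?_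
    obtain ⟨t, D, h1, h2, h3, h4⟩ := hrel i e x hx hi
    refine ⟨t, fun K => D I K, h1, not_eventually.1 h2, fun K => h3 I K, ?_⟩
    filter_upwards [h4] with z hz k
    exact hz b k I
  have h5 := j_one (l := l) (v := φN) (φ := φ) (p := 5) hφ₁ hm hs.kahler hv
    (fun lam hlam => hW lam (by have := Nat.factorial_pos (Mb 6); omega)) (by decide) hg hgh hgl
    hloc
  omega

end six

end Vale.Agent.P301.H599
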