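import Vale.Agent.P301.H599.HorLoc
import Vale.Agent.P301.H794.ZKill

/-! # P301: horizontal forms satisfy the weak equation -/

open scoped Manifold ContDiff ComplexOrder Topology Matrix ENNReal
open Vale.Agent.P272.K Vale.Agent.P272.K.C2 Vale.Agent.P299.H954 Vale.Agent.P299.IX
open Vale.Agent.P299.IX.Fock Vale.Agent.P301.H862 MeasureTheory Set Filter
open Vale.Agent.P301.H794 (integrable_test ext_smooth LocEq WLim glue_Z Z_zero integrableOn_weight
  isSec_unit nz_unit frequently_nz isHol_smul)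

set_option linter.all false

noncomputable section

namespace Vale.Agent.P301.H599

variable {d : ℕ} {X : Type} [TopologicalSpace X] [ChartedSpace (Cm d) X]
variable {ι : Type} {L : LineBundle d X ι} {α : Type*}
variable {w : Fm d X} {ρ : ι → X → ℝ} {l : Filter α} {v : α → X → ℝ} {φ : X → ℝ}

/-- the weak equation at weight `lam` -/
abbrev LE (L : LineBundle d X ι) (ρ : ι → X → ℝ) (φ : X → ℝ) (lam : ℕ)
    (g Z : H862.Fam d X ι) : Prop :=
  LocEq L (fun i x => (lam : ℝ) * ρ i x) (fun x => (lam : ℝ) * φ x) g Z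

/-- the weight -/
def wtf (ρ : ι → X → ℝ) (φ : X → ℝ) (lam : ℕ) (i : ι) (e : Chart d X) (z : Cm d) : ℝ :=
  Real.exp (-((lam : ℝ) * ρ i (e.symm z) + (lam : ℝ) * φ (e.symm z)))

/-- the coefficients of the products with one-forms -/
def cf (g : H862.Fam d X ι) (i : ι) (e : Chart d X) (I : FI d) : Fin d → Cm d → ℂ :=
  fun l z => (eps l *ᵥ g i e z) I

/-- the local expression of a section of a power of `L` -/
def lf (f : ι → X → ℂ) (i : ι) (e : Chart d X) : Cm d → ℂ := fun z => f i (e.symm z)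

lemma LE_iff {lam : ℕ} {g Z : H862.Fam d X ι} : LE L ρ φ lam g Z ↔
    ∀ i, ∀ e ∈ atlas (Cm d) X, ∀ I,
      WkE (dom L i e) (wtf ρ φ lam i e) (cf g i e I) (fun z => Z i e z I) := Iff.rfl

lemma an_eps {V : Cm d → FI d → ℂ} {z : Cm d} (m : Fin d) (J : FI d)
    (h : ∀ I, AnalyticAt ℂ (fun z => V z I) z) : AnalyticAt ℂ (fun z => (eps m *ᵥ V z) J) z := by
  simp only [Matrix.mulVec, dotProduct]
  exact Finset.analyticAt_fun_sum _ fun K _ => analyticAt_const.mul (h K)

section anal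

variable {g : H862.Fam d X ι} {i : ι} {e : Chart d X} {z : Cm d}

lemma an_dom (he : e ∈ atlas (Cm d) X)
    (hg : ∀ i e x, At e x → x ∈ L.U i → ∀ I, AnalyticAt ℂ (fun y => g i e y I) (e x))
    (hz : z ∈ dom L i e) (I : FI d) : AnalyticAt ℂ (fun y => g i e y I) z := by
  have h1 := At.of_dom he hz
  have := hg i e _ h1.1 h1.2.1 I
  rwa [h1.2.2] at this

lemma an_cf (he : e ∈ atlas (Cm d) X)
    (hg : ∀ i e x, At e x → x ∈ L.U i → ∀ I, AnalyticAt ℂ (fun y => g i e y I) (e x))
    (hz : z ∈ dom L i e) (I : FI d) (m : Fin d) : AnalyticAt ℂ (cf g i e I m) z :=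
  an_eps m I fun K => an_dom he hg hz K

lemma an_dv {B : Fin d → Cm d → ℂ} (h : ∀ m, AnalyticAt ℂ (B m) z) : AnalyticAt ℂ (dv B) z := by
  have : dv B = fun y => ∑ m, dz m (B m) y := rfl
  rw [this]
  exact Finset.analyticAt_fun_sum _ fun m _ => hor_adz m (h m)

lemma an_lf {k : ℕ} {f : ι → X → ℂ} (hf : H450.IsSecPow L k f) (he : e ∈ atlas (Cm d) X)
    (hz : z ∈ dom L i e) : AnalyticAt ℂ (lf f i e) z := by
  have h1 := At.of_dom he hz
  have := hf.holo i e _ h1.1 h1.2.1
  rwa [h1.2.2] at this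

end anal

variable [IsManifold 𝓘(ℂ, Cm d) ω X] [T2Space X] [CompactSpace X]

lemma int_wtf (hρ : IsMetric L ρ) {lam : ℕ}
    (hW : WLim d l (fun N x => (lam : ℝ) * v N x) fun x => (lam : ℝ) * φ x) {i : ι}
    {e : Chart d X} (he : e ∈ atlas (Cm d) X) {C : Set (Cm d)} (hCd : C ⊆ dom L i e)
    (hC : IsCompact C) : IntegrableOn (wtf ρ φ lam i e) C :=
  integrableOn_weight (M := powL L lam) (powL_metric hρ lam) hW he hCd hC

lemma int_wtf2 (hρ : IsMetric L ρ) {lam : ℕ}
    (hW : WLim d l (fun N x => ((2 * lam : ℕ) : ℝ) * v N x) fun x => ((2 * lam : ℕ) : ℝ) * φ x)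
    {i : ι} {e : Chart d X} (he : e ∈ atlas (Cm d) X) {C : Set (Cm d)} (hCd : C ⊆ dom L i e)
    (hC : IsCompact C) : IntegrableOn (fun z => wtf ρ φ lam i e z ^ 2) C := by
  refine (int_wtf hρ hW he hCd hC).congr_fun (fun z _ => ?_) hC.measurableSet
  simp only [wtf]
  rw [← Real.exp_nat_mul]
  congr 1
  push_cast
  ring

/-- **Vanishing** of holomorphic right-hand sides -/
theorem zero_of_LE [l.NeBot] (hk : IsKahler w) (hρ : IsMetric L ρ)
    (hv : ∀ N, Smooth (d := d) (v N)) {M : ℕ}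
    (hW : WLim d l (fun N x => (M : ℝ) * v N x) fun x => (M : ℝ) * φ x)
    {g Z : H862.Fam d X ι} (hg : H862.IsSec (powL L M) g)
    (hZ : ∀ i e x, At e x → x ∈ L.U i → ∀ I, AnalyticAt ℂ (fun y => Z i e y I) (e x))
    (hloc : LE L ρ φ M g Z) : ∀ i e x, At e x → x ∈ L.U i → Z i e (e x) = 0 := by
  have hv' : ∀ N, Smooth (d := d) fun x => (M : ℝ) * v N x := fun N => Smooth.const_mul _ (hv N)
  have h1 : H897.IsHol (powL L M) Z :=
    glue_Z (L := powL L M) hk (powL_metric hρ M) hv' hW hg hZ hloc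
  intro i e x hx hi
  exact Z_zero (L := powL L M) hk (powL_metric hρ M) hv' hW hg h1 hloc hx hi

variable {A : Type} [Fintype A] {u : A → H862.Fam d X ι} {g : H862.Fam d X ι}
  {f : ι → X → ℂ} {k m Q : ℕ}

lemma cf_smul (F : Cm d → ℂ) (V : Cm d → FI d → ℂ) (z : Cm d) (l : Fin d) (I : FI d) :
    (eps l *ᵥ (F z • V z)) I = F z * (eps l *ᵥ V z) I := by
  rw [Matrix.mulVec_smul, Pi.smul_apply, smul_eq_mul]

/-- **F2.** `df ∧ u = k f du` -/
theorem df_wedge [l.NeBot] (hk : IsKahler w) (hρ : IsMetric L ρ)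
    (hv : ∀ N, Smooth (d := d) (v N))
    (hW : ∀ lam : ℕ, lam ≤ Q → WLim d l (fun N x => (lam : ℝ) * v N x) fun x => (lam : ℝ) * φ x)
    {u : H862.Fam d X ι} (hu : H724.IsSec L H897.LamF 1 u)
    (hF1 : ∀ lam : ℕ, 1 ≤ lam → lam ≤ Q →
      LE L ρ φ lam u (fun i e z => (1 - (lam : ℂ)) • dF u i e z))
    (hf : H450.IsSecPow L k f) (hQ : k + 1 ≤ Q) {i : ι} {e : Chart d X}
    (he : e ∈ atlas (Cm d) X) {z : Cm d} (hz : z ∈ dom L i e) (I : FI d) :
    ∑ m, cf u i e I m z * dz m (lf f i e) z = k * lf f i e z * dv (cf u i e I) z := by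
  have hg := (isHol_smul (m := k + 1) rfl hf hu).isSec
  have hZ : ∀ i e x, At e x → x ∈ L.U i → ∀ I, AnalyticAt ℂ (fun y =>
      ∑ m, cf u i e I m y * dz m (lf f i e) y +
        lf f i e y * ((1 - ((k + 1 : ℕ) : ℂ)) • dF u i e y) I) (e x) := by
    intro i e x hx hi I
    have hz := mem_dom hx hi
    refine AnalyticAt.add ?_ ((an_lf hf hx.1 hz).mul ?_)
    · exact Finset.analyticAt_fun_sum _ fun m _ => (an_cf hx.1 hu.holo hz I m).mul
        (hor_adz m (an_lf hf hx.1 hz))
    · have : (fun y => ((1 - ((k + 1 : ℕ) : ℂ)) • dF u i e y) I) =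
          fun y => (1 - ((k + 1 : ℕ) : ℂ)) * dv (cf u i e I) y := rfl
      rw [this]
      exact analyticAt_const.mul (an_dv fun m => an_cf hx.1 hu.holo hz I m)
  have hloc : LE L ρ φ (k + 1) (fun i e z => f i (e.symm z) • u i e z) (fun i e y I =>
      ∑ m, cf u i e I m y * dz m (lf f i e) y +
        lf f i e y * ((1 - ((k + 1 : ℕ) : ℂ)) • dF u i e y) I) := by
    rw [LE_iff]
    intro i e he I
    have h1 := LE_iff.1 (hF1 (k + 1) (by omega) hQ) i e he I
    refine (h1.mul (H862.isOpen_dom L i e) (F := lf f i e)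
      (fun z hz => (an_lf hf he hz).contDiffAt)).congr (H862.isOpen_dom L i e)
      (fun z hz l => ?_) (fun z hz => ?_)
    · exact cf_smul (lf f i e) (u i e) z l I
    · rfl
  have h2 := zero_of_LE hk hρ hv (hW (k + 1) hQ) hg hZ hloc
  have h3 := At.of_dom he hz
  have h4 := congrFun (h2 i e _ h3.1 h3.2.1) I
  simp only [h3.2.2, Pi.zero_apply, Pi.smul_apply, smul_eq_mul] at h4
  have h5 : dF u i e z I = dv (cf u i e I) z := rfl
  rw [h5] at h4
  push_cast at h4
  linear_combination h4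

/-- the relation `Hz` near a point, in the form used for division -/
theorem hz_ball (hz' : Hz L u g) {i : ι} {e : Chart d X} (he : e ∈ atlas (Cm d) X) {z : Cm d}
    (hz : z ∈ dom L i e) (I : FI d) : ∃ (Ω : Set (Cm d)) (s : Cm d → ℂ) (c : A → FI d → Cm d → ℂ),
    IsOpen Ω ∧ z ∈ Ω ∧ Ω ⊆ dom L i e ∧ (∀ y ∈ Ω, AnalyticAt ℂ s y) ∧
    (∀ᵐ y ∂(volume.restrict Ω), s y ≠ 0) ∧ (∀ a K, ∀ y ∈ Ω, AnalyticAt ℂ (c a K) y) ∧
    ∀ y ∈ Ω, ∀ l, s y * cf g i e I l y =
      ∑ p : A × FI d, c p.1 p.2 y * cf (u p.1) i e p.2 l y := by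
  have h1 := At.of_dom he hz
  obtain ⟨s, c, hs, hs0, hc, hrel⟩ := hz' i e _ h1.1 h1.2.1 I
  rw [h1.2.2] at hs hs0 hc hrel
  have hev : ∀ᶠ y in 𝓝 z, y ∈ dom L i e ∧ AnalyticAt ℂ s y ∧
      (∀ a K, AnalyticAt ℂ (c a K) y) ∧ ∀ l, s y * (eps l *ᵥ g i e y) I =
        ∑ a, ∑ K, c a K y * (eps l *ᵥ u a i e y) K := by
    filter_upwards [(H862.isOpen_dom L i e).mem_nhds hz, hs.eventually_analyticAt,
      eventually_all.2 fun a => eventually_all.2 fun K => (hc a K).eventually_analyticAt,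
      hrel] with y h1 h2 h3 h4
    exact ⟨h1, h2, h3, h4⟩
  obtain ⟨r, hr, hball⟩ := Metric.eventually_nhds_iff_ball.1 hev
  obtain ⟨y0, hy0, hy0'⟩ := (hs0.and_eventually (Metric.ball_mem_nhds z hr)).exists
  refine ⟨Metric.ball z r, s, c, Metric.isOpen_ball, Metric.mem_ball_self hr,
    fun y hy => (hball y hy).1, fun y hy => (hball y hy).2.1, ?_,
    fun a K y hy => (hball y hy).2.2.1 a K, fun y hy l => ?_⟩
  · have h2 := Vale.Agent.P285.H16.null_zero (W := Metric.ball z r) (f := s) Metric.isOpen_ball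
      (convex_ball _ _) (fun y hy => (hball y hy).2.1) ⟨y0, hy0', hy0⟩
    rw [ae_restrict_iff' Metric.isOpen_ball.measurableSet]
    filter_upwards [measure_eq_zero_iff_ae_notMem.1 h2] with y hy hyb h0
    exact hy ⟨hyb, h0⟩
  · rw [Fintype.sum_prod_type]
    exact (hball y hy).2.2.2 l

/-- **HOR.** Horizontal forms satisfy the weak equation. -/
theorem hor [l.NeBot] [ConnectedSpace X] (hG : DivLoc d (A × FI d)) (hk : IsKahler w)
    (hρ : IsMetric L ρ) (hv : ∀ N, Smooth (d := d) (v N))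
    (hW : ∀ lam : ℕ, lam ≤ Q → WLim d l (fun N x => (lam : ℝ) * v N x) fun x => (lam : ℝ) * φ x)
    (hu : ∀ a, H724.IsSec L H897.LamF 1 (u a))
    (hF1 : ∀ a, ∀ lam : ℕ, 1 ≤ lam → lam ≤ Q →
      LE L ρ φ lam (u a) (fun i e z => (1 - (lam : ℂ)) • dF (u a) i e z))
    (hk1 : 1 ≤ k) (hf : H450.IsSecPow L k f) (hf0 : ∃ i x, x ∈ L.U i ∧ f i x ≠ 0)
    (hm : 1 ≤ m) (hQ : 2 * (m + k) ≤ Q) (hg : H724.IsSec L H897.LamF m g) (hz' : Hz L u g) :
    LE L ρ φ m g 0 := by
  have hkC : (k : ℂ) ≠ 0 := by exact_mod_cast (by omega : k ≠ 0)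
  have hF2 : ∀ a i, ∀ e ∈ atlas (Cm d) X, ∀ z ∈ dom L i e, ∀ I,
      ∑ m, cf (u a) i e I m z * dz m (lf f i e) z = k * lf f i e z * dv (cf (u a) i e I) z :=
    fun a i e he z hz I => df_wedge hk hρ hv hW (hu a) (hF1 a) hf (by omega) he hz I
  have D : ∀ {G : Cm d → ℂ} {z : Cm d}, AnalyticAt ℂ G z → DifferentiableAt ℝ G z := fun h =>
    (hor_toR h.contDiffAt).differentiableAt (by simp)
  -- step 1
  have hZan : ∀ i e x, At e x → x ∈ L.U i → ∀ I, AnalyticAt ℂ (fun y =>
      dv (fun l z => lf f i e z * cf g i e I l z) y -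
        ((m + k : ℕ) / k : ℂ) * ∑ l, cf g i e I l y * dz l (lf f i e) y) (e x) := by
    intro i e x hx hi I
    have hz := mem_dom hx hi
    refine AnalyticAt.sub (an_dv fun l => (an_lf hf hx.1 hz).mul (an_cf hx.1 hg.holo hz I l))
      (analyticAt_const.mul ?_)
    exact Finset.analyticAt_fun_sum _ fun m _ => (an_cf hx.1 hg.holo hz I m).mul
      (hor_adz m (an_lf hf hx.1 hz))
  have step1 : LE L ρ φ (m + k) (fun i e z => f i (e.symm z) • g i e z) (fun i e y I =>
      dv (fun l z => lf f i e z * cf g i e I l z) y -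
        ((m + k : ℕ) / k : ℂ) * ∑ l, cf g i e I l y * dz l (lf f i e) y) := by
    rw [LE_iff]
    intro i e he I
    have hdo := H862.isOpen_dom L i e
    have hF : ∀ z ∈ dom L i e, AnalyticAt ℂ (lf f i e) z := fun z hz => an_lf hf he hz
    have hBa : ∀ l, ∀ z ∈ dom L i e, AnalyticAt ℂ (fun z => lf f i e z * cf g i e I l z) z :=
      fun l z hz => (hF z hz).mul (an_cf he hg.holo hz I l)
    have hha : ∀ z ∈ dom L i e, AnalyticAt ℂ (fun y =>
      dv (fun l z => lf f i e z * cf g i e I l z) y -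
        ((m + k : ℕ) / k : ℂ) * ∑ l, cf g i e I l y * dz l (lf f i e) y) z := by
      intro z hz
      have h1 := At.of_dom he hz
      have := hZan i e _ h1.1 h1.2.1 I
      rwa [h1.2.2] at this
    have hfi : ∀ K ⊆ dom L i e, IsCompact K → IntegrableOn (wtf ρ φ (m + k) i e) K :=
      fun K hK hKc => int_wtf hρ (hW _ (by omega)) he hK hKc
    have hfi2 : ∀ K ⊆ dom L i e, IsCompact K →
        IntegrableOn (fun z => wtf ρ φ (m + k) i e z ^ 2) K :=
      fun K hK hKc => int_wtf2 hρ (hW _ hQ) he hK hKc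
    have main : WkE (dom L i e) (wtf ρ φ (m + k) i e) (fun l z => lf f i e z * cf g i e I l z)
        (fun y => dv (fun l z => lf f i e z * cf g i e I l z) y -
        ((m + k : ℕ) / k : ℂ) * ∑ l, cf g i e I l y * dz l (lf f i e) y) := by
      refine wk_local hdo hfi (fun l z hz => (hBa l z hz).continuousAt.continuousWithinAt)
        (fun z hz => (hha z hz).continuousAt.continuousWithinAt) fun z hz => ?_
      obtain ⟨Ω, s, c, hΩ, hzΩ, hΩd, hs, hs0, hc, hrel⟩ := hz_ball hz' he hz I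
      refine ⟨Ω, hΩ, hzΩ, hΩd, ?_⟩
      have hrel' : ∀ y ∈ Ω, ∀ l, s y * (lf f i e y * cf g i e I l y) =
          ∑ p : A × FI d, (lf f i e y * c p.1 p.2 y) * cf (u p.1) i e p.2 l y := by
        intro y hy l
        have := hrel y hy l
        calc s y * (lf f i e y * cf g i e I l y) = lf f i e y * (s y * cf g i e I l y) := by ring
          _ = _ := by
            rw [this, Finset.mul_sum]
            exact Finset.sum_congr rfl fun p _ => by ring
      have hUa : ∀ (p : A × FI d) l, ∀ y ∈ Ω, AnalyticAt ℂ (cf (u p.1) i e p.2 l) y :=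
        fun p l y hy => an_cf he (hu p.1).holo (hΩd hy) p.2 l
      refine hG Ω (wtf ρ φ (m + k) i e) s (fun p l => cf (u p.1) i e p.2 l)
        (fun p y => lf f i e y * c p.1 p.2 y)
        (fun p y => (1 - ((m + k : ℕ) : ℂ)) * dv (cf (u p.1) i e p.2) y)
        _ _ hΩ (fun K hK => hfi K (hK.trans hΩd)) (fun K hK => hfi2 K (hK.trans hΩd))
        (fun y hy => (hs y hy).contDiffAt) hs0 (fun p l y hy => (hUa p l y hy).contDiffAt)
        (fun p y hy => ((hF y (hΩd hy)).mul (hc p.1 p.2 y hy)).contDiffAt)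
        (fun p y hy => (analyticAt_const.mul (an_dv fun l => hUa p l y hy)).contDiffAt)
        (fun l y hy => (hBa l y (hΩd hy)).contDiffAt) (fun y hy => (hha y (hΩd hy)).contDiffAt)
        hrel' (fun p => ?_) fun y hy => ?_
      · exact (LE_iff.1 (hF1 p.1 (m + k) (by omega) (by omega)) i e he p.2).mono hdo hΩ hΩd
      · have h1 := dv_rel (s := s) (B := fun l z => lf f i e z * cf g i e I l z)
          (U := fun (p : A × FI d) l => cf (u p.1) i e p.2 l)
          (γ := fun (p : A × FI d) y => lf f i e y * c p.1 p.2 y)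
          hΩ (fun y hy => (hs y hy).contDiffAt)
          (fun p l y hy => (hUa p l y hy).contDiffAt)
          (fun (p : A × FI d) y hy => ((hF y (hΩd hy)).mul (hc p.1 p.2 y hy)).contDiffAt)
          (fun l y hy => (hBa l y (hΩd hy)).contDiffAt) hrel' hy
        rw [Finset.sum_add_distrib]
        have h2 : ∑ p : A × FI d, lf f i e y * c p.1 p.2 y *
            ((1 - ((m + k : ℕ) : ℂ)) * dv (cf (u p.1) i e p.2) y) =
            (1 - ((m + k : ℕ) : ℂ)) * ∑ p : A × FI d, lf f i e y * c p.1 p.2 y *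
              dv (cf (u p.1) i e p.2) y := by
          rw [Finset.mul_sum]
          exact Finset.sum_congr rfl fun p _ => by ring
        have h3 : (k : ℂ) * ∑ p : A × FI d, lf f i e y * c p.1 p.2 y *
            dv (cf (u p.1) i e p.2) y =
            s y * ∑ l, cf g i e I l y * dz l (lf f i e) y := by
          have h4 : ∀ p : A × FI d, (k : ℂ) * (lf f i e y * c p.1 p.2 y *
              dv (cf (u p.1) i e p.2) y) =
              ∑ l, c p.1 p.2 y * cf (u p.1) i e p.2 l y * dz l (lf f i e) y := by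
            intro p
            have h5 := hF2 p.1 i e he y (hΩd hy) p.2
            calc (k : ℂ) * (lf f i e y * c p.1 p.2 y * dv (cf (u p.1) i e p.2) y) =
                c p.1 p.2 y * (k * lf f i e y * dv (cf (u p.1) i e p.2) y) := by ring
              _ = _ := by
                rw [← h5, Finset.mul_sum]
                exact Finset.sum_congr rfl fun l _ => by ring
          rw [Finset.mul_sum, Finset.sum_congr rfl fun p _ => h4 p, Finset.sum_comm,
            Finset.mul_sum]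
          refine Finset.sum_congr rfl fun l _ => ?_
          rw [← Finset.sum_mul, ← hrel y hy l]
          ring
        rw [h2, h1]
        have h6 : ∑ p : A × FI d, lf f i e y * c p.1 p.2 y * dv (cf (u p.1) i e p.2) y =
            (s y * ∑ l, cf g i e I l y * dz l (lf f i e) y) / k := by
          rw [← h3, mul_div_cancel_left₀ _ hkC]
        rw [h6]
        field_simp
        ring
    exact main.congr hdo (fun z hz l => cf_smul (lf f i e) (g i e) z l I) fun z hz => rfl
  -- step 2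
  have hsec := (isHol_smul (m := m + k) (add_comm k m) hf hg).isSec
  have hZ0 := zero_of_LE hk hρ hv (hW (m + k) (by omega)) hsec hZan step1
  have step2 : ∀ i, ∀ e ∈ atlas (Cm d) X, ∀ z ∈ dom L i e, ∀ I,
      k * lf f i e z * dv (cf g i e I) z = m * ∑ l, cf g i e I l z * dz l (lf f i e) z := by
    intro i e he z hz I
    have h3 := At.of_dom he hz
    have h4 := congrFun (hZ0 i e _ h3.1 h3.2.1) I
    simp only [h3.2.2, Pi.zero_apply] at h4
    have h5 : dv (fun l z => lf f i e z * cf g i e I l z) z =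
        ∑ l, cf g i e I l z * dz l (lf f i e) z + lf f i e z * dv (cf g i e I) z := by
      unfold dv
      rw [Finset.mul_sum, ← Finset.sum_add_distrib]
      refine Finset.sum_congr rfl fun l _ => ?_
      rw [dz_mul l (D (an_lf hf he hz)) (D (an_cf he hg.holo hz I l))]
      ring
    rw [h5] at h4
    push_cast at h4
    field_simp at h4
    linear_combination h4
  -- step 3
  rw [LE_iff]
  intro i e he I
  have hdo := H862.isOpen_dom L i e
  have hF : ∀ z ∈ dom L i e, AnalyticAt ℂ (lf f i e) z := fun z hz => an_lf hf he hz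
  have hBa : ∀ l, ∀ z ∈ dom L i e, AnalyticAt ℂ (cf g i e I l) z :=
    fun l z hz => an_cf he hg.holo hz I l
  have hfi : ∀ K ⊆ dom L i e, IsCompact K → IntegrableOn (wtf ρ φ m i e) K :=
    fun K hK hKc => int_wtf hρ (hW _ (by omega)) he hK hKc
  have hfi2 : ∀ K ⊆ dom L i e, IsCompact K → IntegrableOn (fun z => wtf ρ φ m i e z ^ 2) K :=
    fun K hK hKc => int_wtf2 hρ (hW _ (by omega)) he hK hKc
  refine wk_local (h := fun _ => 0) hdo hfi
    (fun l z hz => (hBa l z hz).continuousAt.continuousWithinAt) continuousOn_const fun z hz => ?_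
  obtain ⟨Ω, s, c, hΩ, hzΩ, hΩd, hs, hs0, hc, hrel⟩ := hz_ball hz' he hz I
  refine ⟨Ω, hΩ, hzΩ, hΩd, ?_⟩
  have hUa : ∀ (p : A × FI d) l, ∀ y ∈ Ω, AnalyticAt ℂ (cf (u p.1) i e p.2 l) y :=
    fun p l y hy => an_cf he (hu p.1).holo (hΩd hy) p.2 l
  -- the identity on `Ω`
  set E : Cm d → ℂ := fun y => s y * dv (cf g i e I) y -
    m * ∑ p : A × FI d, c p.1 p.2 y * dv (cf (u p.1) i e p.2) y with hE
  have hEc : ∀ y ∈ Ω, ContinuousAt E y := by
    intro y hy
    refine AnalyticAt.continuousAt (((hs y hy).mul (an_dv fun l => hBa l y (hΩd hy))).sub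
      (analyticAt_const.mul ?_))
    exact Finset.analyticAt_fun_sum _ fun p _ => (hc p.1 p.2 y hy).mul
      (an_dv fun l => hUa p l y hy)
  have hEF : ∀ y ∈ Ω, lf f i e y * E y = 0 := by
    intro y hy
    have h1 := step2 i e he y (hΩd hy) I
    have h4 : ∀ p : A × FI d, (k : ℂ) * lf f i e y * (c p.1 p.2 y *
        dv (cf (u p.1) i e p.2) y) =
        ∑ l, c p.1 p.2 y * cf (u p.1) i e p.2 l y * dz l (lf f i e) y := by
      intro p
      have h5 := hF2 p.1 i e he y (hΩd hy) p.2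
      calc (k : ℂ) * lf f i e y * (c p.1 p.2 y * dv (cf (u p.1) i e p.2) y) =
          c p.1 p.2 y * (k * lf f i e y * dv (cf (u p.1) i e p.2) y) := by ring
        _ = _ := by
          rw [← h5, Finset.mul_sum]
          exact Finset.sum_congr rfl fun l _ => by ring
    have h6 : (k : ℂ) * lf f i e y * ∑ p : A × FI d, c p.1 p.2 y *
        dv (cf (u p.1) i e p.2) y = s y * ∑ l, cf g i e I l y * dz l (lf f i e) y := by
      rw [Finset.mul_sum, Finset.sum_congr rfl fun p _ => h4 p, Finset.sum_comm, Finset.mul_sum]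
      refine Finset.sum_congr rfl fun l _ => ?_
      rw [← Finset.sum_mul, ← hrel y hy l]
      ring
    have h7 : (k : ℂ) * (lf f i e y * E y) = 0 := by
      simp only [hE]
      linear_combination s y * h1 - m * h6
    exact (mul_eq_zero.1 h7).resolve_left hkC
  have hE0 : ∀ y ∈ Ω, E y = 0 := by
    intro y hy
    by_contra hne
    have h1 := (hEc y hy).eventually_ne hne
    have h2 := frequently_nz (isSec_unit hf) (nz_unit hf hf0) he (hΩd hy)
    obtain ⟨y', ⟨h3, h4⟩, h5, h6⟩ := (h2.and_eventually (h1.and (hΩ.mem_nhds hy))).exists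
    have h7 := At.of_dom he h3
    refine h4 i e h7.1 h7.2.1 ?_
    funext t
    have h8 := (mul_eq_zero.1 (hEF y' h6)).resolve_right h5
    simp only [h7.2.2, Pi.zero_apply]
    exact h8
  refine hG Ω (wtf ρ φ m i e) s (fun p l => cf (u p.1) i e p.2 l)
    (fun p y => c p.1 p.2 y)
    (fun p y => (1 - (m : ℂ)) * dv (cf (u p.1) i e p.2) y)
    _ _ hΩ (fun K hK => hfi K (hK.trans hΩd)) (fun K hK => hfi2 K (hK.trans hΩd))
    (fun y hy => (hs y hy).contDiffAt) hs0 (fun p l y hy => (hUa p l y hy).contDiffAt)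
    (fun p y hy => (hc p.1 p.2 y hy).contDiffAt)
    (fun p y hy => (analyticAt_const.mul (an_dv fun l => hUa p l y hy)).contDiffAt)
    (fun l y hy => (hBa l y (hΩd hy)).contDiffAt) (fun y hy => contDiffAt_const)
    hrel (fun p => ?_) fun y hy => ?_
  · exact (LE_iff.1 (hF1 p.1 m hm (by omega)) i e he p.2).mono hdo hΩ hΩd
  · have h1 := dv_rel (s := s) (B := cf g i e I)
      (U := fun (p : A × FI d) l => cf (u p.1) i e p.2 l)
      (γ := fun (p : A × FI d) y => c p.1 p.2 y)
      hΩ (fun y hy => (hs y hy).contDiffAt)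
      (fun p l y hy => (hUa p l y hy).contDiffAt)
      (fun (p : A × FI d) y hy => (hc p.1 p.2 y hy).contDiffAt)
      (fun l y hy => (hBa l y (hΩd hy)).contDiffAt) hrel hy
    rw [Finset.sum_add_distrib]
    have h2 : ∑ p : A × FI d, c p.1 p.2 y * ((1 - (m : ℂ)) * dv (cf (u p.1) i e p.2) y) =
        (1 - (m : ℂ)) * ∑ p : A × FI d, c p.1 p.2 y * dv (cf (u p.1) i e p.2) y := by
      rw [Finset.mul_sum]
      exact Finset.sum_congr rfl fun p _ => by ring
    have h3 := hE0 y hy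
    simp only [hE] at h3
    rw [h2, h1]
    linear_combination h3

end Vale.Agent.P301.H599
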