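import Vale.Agent.P301.H599.F1a
import Vale.Agent.P301.H599.Hor1
import Vale.Agent.P301.H794.PhiB

/-! # P301, F1: the weak equations of the limit forms with multiples of the weight -/

open scoped Manifold ContDiff ComplexOrder Topology Matrix ENNReal ComplexConjugate
open Vale.Agent.P272.K Vale.Agent.P272.K.C2 Vale.Agent.P299.H954 Vale.Agent.P299.IX
open Vale.Agent.P299.IX.Fock Vale.Agent.P301.H862 MeasureTheory Set Filter Metric
open Vale.Agent.P301.H794 (integrable_test ext_smooth LocEq WLim tendsto_weight isMetric_add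
  integrableOn_weight)

set_option linter.all false

noncomputable section

namespace Vale.Agent.P301.H599

section loc

variable {d : ℕ} {α : Type*} {l : Filter α}

/-- **Hölder**: weights bounded in `L²` times functions converging to zero in `L²` -/
theorem cs_limit {W f : α → Cm d → ℂ} {K : Set (Cm d)}
    (hWm : ∀ n, AEMeasurable (W n) (volume.restrict K))
    (hfm : ∀ n, AEMeasurable (f n) (volume.restrict K)) {B : ℝ≥0∞} (hB : B ≠ ⊤)
    (hW : ∀ᶠ n in l, ∫⁻ z in K, ‖W n z‖ₑ ^ 2 ≤ B) (hf : L2z l f K) :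
    Tendsto (fun n => ∫⁻ z in K, ‖W n z * f n z‖ₑ) l (𝓝 0) := by
  have hub : Tendsto (fun n => B ^ (1 / (2:ℝ)) *
      (∫⁻ z in K, ‖f n z‖ₑ ^ 2) ^ (1 / (2:ℝ))) l (𝓝 0) := by
    have h1 := (ENNReal.continuous_rpow_const (y := 1 / (2:ℝ))).tendsto 0 |>.comp hf
    have h2 : ((0:ℝ≥0∞)) ^ (1 / (2:ℝ)) = 0 := ENNReal.zero_rpow_of_pos (by norm_num)
    rw [h2] at h1
    have h3 := ENNReal.Tendsto.const_mul (a := B ^ (1 / (2:ℝ))) h1
      (Or.inr (ENNReal.rpow_ne_top_of_nonneg (by norm_num) hB))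
    rw [mul_zero] at h3
    exact h3
  refine tendsto_of_tendsto_of_tendsto_of_le_of_le' tendsto_const_nhds hub
    (Eventually.of_forall fun _ => zero_le) ?_
  filter_upwards [hW] with n hWn
  have h1 := ENNReal.lintegral_mul_le_Lp_mul_Lq (volume.restrict K)
    (p := 2) (q := 2) Real.HolderConjugate.two_two (hWm n).enorm (hfm n).enorm
  have h2 : ∀ F : Cm d → ℂ, ∫⁻ z in K, ‖F z‖ₑ ^ (2:ℝ) = ∫⁻ z in K, ‖F z‖ₑ ^ 2 := fun F =>
    lintegral_congr fun z => ENNReal.rpow_two _
  rw [h2, h2] at h1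
  refine le_trans (le_of_eq ?_) (h1.trans (mul_le_mul' (ENNReal.rpow_le_rpow hWn (by norm_num))
    le_rfl))
  exact lintegral_congr fun z => enorm_mul _ _

/-- integration by parts for a vector field times a weight -/
theorem ibp_weight {Ω : Set (Cm d)} (hΩ : IsOpen Ω) {ψ : Cm d → ℝ}
    (hψ : ∀ z ∈ Ω, ContDiffAt ℝ ∞ ψ z) {B : Fin d → Cm d → ℂ}
    (hB : ∀ l, ∀ z ∈ Ω, ContDiffAt ℝ ∞ (B l) z) {ξ : Cm d → ℂ} (h1 : ContDiff ℝ ∞ ξ)
    (h2 : HasCompactSupport ξ) (h3 : tsupport ξ ⊆ Ω) :
    ∫ z in Ω, (Real.exp (-ψ z) : ℂ) * (∑ l, B l z * dz l ξ z +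
      (dv B z - ∑ l, dz l (cw ψ) z * B l z) * ξ z) = 0 := by
  have hKm := hΩ.measurableSet
  have hes : ∀ z ∈ Ω, ContDiffAt ℝ ∞ (fun y => (Real.exp (-ψ y) : ℂ)) z := fun z hz =>
    Complex.ofRealCLM.contDiff.contDiffAt.comp z (hψ z hz).neg.exp
  have hext := fun l => ext_smooth (Ω := Ω) (C := tsupport ξ) h2 h3 hΩ
    (V := fun z => (Real.exp (-ψ z) : ℂ) * B l z * ξ z)
    (fun z hz => ((hes z hz).mul (hB l z hz)).mul h1.contDiffAt)
    (fun z hz hzK => by simp only [image_eq_zero_of_notMem_tsupport hzK, mul_zero])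
  set V : Fin d → Cm d → ℂ := fun l => Ω.indicator fun z => (Real.exp (-ψ z) : ℂ) * B l z * ξ z
    with hV
  have one : (1 : WithTop ℕ∞) ≤ ((⊤ : ℕ∞) : WithTop ℕ∞) := by exact_mod_cast le_top
  have hi : ∀ l, Integrable (dz l (V l)) := by
    intro l
    refine Continuous.integrable_of_hasCompactSupport ?_ ?_
    · rw [continuous_iff_continuousAt]
      intro z
      exact (contDiffAt_dz (m := 0) l ((hext l).1.contDiffAt.of_le (by norm_cast))
        (by norm_num)).continuousAt
    · refine HasCompactSupport.intro (hext l).2.1.isCompact fun z hz => ?_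
      have h4 : V l =ᶠ[𝓝 z] fun _ => 0 := notMem_tsupport_iff_eventuallyEq.1 hz
      rw [C2.dz_congr _ h4, C2.dz_const]
  have h0 : ∫ z, ∑ l, dz l (V l) z = 0 := by
    rw [integral_finsetSum _ fun l _ => hi l]
    exact Finset.sum_eq_zero fun l _ => INT.integral_dz_eq_zero ((hext l).1.of_le one) (hext l).2.1 l
  have e0 : ∫ z in Ω, ∑ l, dz l (V l) z = ∫ z, ∑ l, dz l (V l) z := by
    refine setIntegral_eq_integral_of_forall_compl_eq_zero fun z hz => ?_
    refine Finset.sum_eq_zero fun l _ => ?_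
    have h4 : V l =ᶠ[𝓝 z] fun _ => 0 := notMem_tsupport_iff_eventuallyEq.1 fun h =>
      hz (h3 ((hext l).2.2.1 h))
    rw [C2.dz_congr _ h4, C2.dz_const]
  rw [← h0, ← e0]
  · refine setIntegral_congr_fun hKm fun z hz => ?_
    have hdif : ∀ l, DifferentiableAt ℝ (B l) z := fun l =>
      (hB l z hz).differentiableAt (by simp)
    have hdξ : DifferentiableAt ℝ ξ z := h1.contDiffAt.differentiableAt (by simp)
    have hde : DifferentiableAt ℝ (fun y => (Real.exp (-ψ y) : ℂ)) z :=
      (hes z hz).differentiableAt (by simp)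
    have h4 : ∀ l, dz l (V l) z = (Real.exp (-ψ z) : ℂ) * (B l z * dz l ξ z +
        (dz l (B l) z - dz l (cw ψ) z * B l z) * ξ z) := by
      intro l
      have h5 : dz l (fun y => (Real.exp (-ψ y) : ℂ) * B l y * ξ y) z =
          dz l (fun y => (Real.exp (-ψ y) : ℂ) * B l y) z * ξ z +
            (Real.exp (-ψ z) : ℂ) * B l z * dz l ξ z := dz_mul l (hde.mul (hdif l)) hdξ
      have h6 : dz l (fun y => (Real.exp (-ψ y) : ℂ) * B l y) z =
          dz l (fun y => (Real.exp (-ψ y) : ℂ)) z * B l z +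
            (Real.exp (-ψ z) : ℂ) * dz l (B l) z := dz_mul l hde (hdif l)
      rw [C2.dz_congr l ((hext l).2.2.2 z hz), h5, h6, dz_expw ((hψ z hz).of_le one) l]
      ring
    simp only [h4]
    rw [← Finset.mul_sum, Finset.sum_add_distrib, ← Finset.sum_mul, Finset.sum_sub_distrib]
    rfl

lemma eps_DV {n : ℕ} {a : Cm n → FI n → ℂ} {z : Cm n} (ha : VC ∞ a z) (m : Fin n) (I : FI n) :
    (eps m *ᵥ DV m a z) I = dz m (fun y => (eps m *ᵥ a y) I) z := by
  simp only [Matrix.mulVec, dotProduct, DV]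
  have hd : ∀ J, DifferentiableAt ℝ (fun y => a y J) z := fun J =>
    (ha J).differentiableAt (by simp)
  rw [C2.dz_sum m Finset.univ (F := fun J y => eps m I J * a y J) fun J _ =>
    (hd J).const_mul _]
  exact Finset.sum_congr rfl fun J _ => (C2.dz_const_mul m (eps m I J) (hd J)).symm

/-- `D'` in terms of the divergence -/
lemma Dw_apply {n : ℕ} {ψ : Cm n → ℝ} {a : Cm n → FI n → ℂ} {z : Cm n} (ha : VC ∞ a z)
    (I : FI n) : Dw ψ a z I = dv (fun m y => (eps m *ᵥ a y) I) z -
      ∑ m, dz m (cw ψ) z * (eps m *ᵥ a z) I := by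
  unfold Dw dv
  rw [Finset.sum_apply, ← Finset.sum_sub_distrib]
  refine Finset.sum_congr rfl fun m _ => ?_
  rw [Matrix.mulVec_sub, Pi.sub_apply, eps_DV ha m I, Matrix.mulVec_smul, Pi.smul_apply,
    smul_eq_mul]

end loc

variable {d : ℕ} {X : Type} [TopologicalSpace X] [ChartedSpace (Cm d) X]
variable {ι : Type} {M : LineBundle d X ι} {α : Type*}
variable {w : Fm d X} {ρ : ι → X → ℝ} {l : Filter α} {v : α → X → ℝ} {φ : X → ℝ}
variable [IsManifold 𝓘(ℂ, Cm d) ω X] [T2Space X] [CompactSpace X]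

/-- local `L²` convergence from convergence of the integrals of densities -/
theorem l2_of_dens (hk : IsKahler w) (hρ : IsMetric M ρ) (hv : ∀ N, Smooth (d := d) (v N))
    {D : α → ι → Chart d X → Cm d → ℂ} (hD : ∀ N, IsDens M (D N))
    (hD0 : ∀ N i e x, At e x → x ∈ M.U i → 0 ≤ (D N i e (e x)).re)
    (ht : Tendsto (fun N => (intC M (D N)).re) l (𝓝 0)) {i : ι} {e : Chart d X}
    (he : e ∈ atlas (Cm d) X) {K : Set (Cm d)} (hK : IsCompact K) (hKd : K ⊆ dom M i e)
    {f : α → Cm d → ℂ} {κ : Set (Cm d) → ℝ}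
    (hb : ∀ S : Set (Cm d), IsCompact S → S ⊆ dom M i e → ∃ κ : ℝ, 0 ≤ κ ∧ ∀ N, ∀ z ∈ S,
      ‖f N z‖ ^ 2 ≤ κ * (D N i e z).re) : L2z l f K := by
  refine l2_of_local hK fun z0 hz0 => ?_
  obtain ⟨r, hr, hrd⟩ := Metric.nhds_basis_closedBall.mem_iff.1
    ((H862.isOpen_dom M i e).mem_nhds (hKd hz0))
  obtain ⟨κ, hκ0, hκ⟩ := hb (closedBall z0 r) (isCompact_closedBall _ _) hrd
  have hss : closedBall z0 (r / 2) ⊆ closedBall z0 r :=
    closedBall_subset_closedBall (by linarith)
  refine ⟨r / 2, by positivity, ?_⟩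
  have h1 : Tendsto (fun N => ENNReal.ofReal κ * ENNReal.ofReal (intC M (D N)).re) l (𝓝 0) := by
    have h2 := (ENNReal.continuous_ofReal.tendsto 0).comp ht
    rw [ENNReal.ofReal_zero] at h2
    have h3 := ENNReal.Tendsto.const_mul (a := ENNReal.ofReal κ) h2
      (Or.inr ENNReal.ofReal_ne_top)
    rw [mul_zero] at h3
    exact h3
  refine tendsto_of_tendsto_of_tendsto_of_le_of_le tendsto_const_nhds h1 (fun _ => zero_le)
    fun N => ?_
  calc ∫⁻ z in closedBall z0 (r / 2), ‖f N z‖ₑ ^ 2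
      ≤ ∫⁻ z in closedBall z0 (r / 2), ENNReal.ofReal κ * ENNReal.ofReal (D N i e z).re := by
        refine setLIntegral_mono_ae' measurableSet_closedBall (ae_of_all _ fun z hz => ?_)
        rw [← ENNReal.ofReal_mul hκ0, ← ofReal_norm, ← ENNReal.ofReal_pow (norm_nonneg _)]
        exact ENNReal.ofReal_le_ofReal (hκ N z (hss hz))
    _ = ENNReal.ofReal κ * ∫⁻ z in closedBall z0 (r / 2), ENNReal.ofReal (D N i e z).re :=
        lintegral_const_mul' _ _ ENNReal.ofReal_ne_top
    _ ≤ _ := by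
        gcongr
        exact H897.ball_le (hD N) (hD0 N) he hr hrd

/-- **F1.** The weak equations of the limits for all multiples of the weight. -/
theorem f1_gen [l.NeBot] (hk : IsKahler w) (hρ : IsMetric M ρ)
    (hv : ∀ N, Smooth (d := d) (v N)) {C₁ : ℝ} (hC : ∀ N x, v N x ≤ C₁)
    {g : α → H862.Fam d X ι} {u : H862.Fam d X ι} (hg : ∀ N, H862.IsSec M (g N))
    (hu : H897.IsHol M u)
    (hconv : ∀ e ∈ atlas (Cm d) X, ∀ i, ∀ S : Set (Cm d), IsCompact S → S ⊆ dom M i e →
      ∀ I, L2z l (fun N z => g N i e z I - u i e z I) S)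
    (hD : Tendsto (fun N => (H862.ip M (fun i x => ρ i x + v N x) w
      (DX (fun i x => ρ i x + v N x) (g N)) (DX (fun i x => ρ i x + v N x) (g N))).re) l (𝓝 0))
    (hgrad : Tendsto (fun N => (intC M (gradX (fun i x => ρ i x + v N x) w (g N) (g N))).re) l
      (𝓝 0))
    {lam : ℕ}
    (hW : WLim d l (fun N x => (lam : ℝ) * v N x) fun x => (lam : ℝ) * φ x)
    (hW2 : WLim d l (fun N x => ((2 * lam : ℕ) : ℝ) * v N x) fun x => ((2 * lam : ℕ) : ℝ) * φ x) :
    LE M ρ φ lam u (fun i e z => (1 - (lam : ℂ)) • dF u i e z) := by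
  rw [LE_iff]
  intro i e he I ξ h1 h2 h3
  have hdo := H862.isOpen_dom M i e
  have hρN : ∀ N, IsMetric M (fun i x => ρ i x + v N x) := fun N => isMetric_add hρ (hv N)
  have hgs : ∀ N, ∀ z ∈ dom M i e, VC ∞ (g N i e) z := fun N z hz => by
    have h4 := At.of_dom he hz
    have := (hg N).smooth i e _ h4.1 h4.2.1
    rwa [h4.2.2] at this
  have hus : ∀ z ∈ dom M i e, VC ∞ (u i e) z := fun z hz => by
    have h4 := At.of_dom he hz
    have := hu.isSec.smooth i e _ h4.1 h4.2.1
    rwa [h4.2.2] at this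
  have hψs : ∀ N, ∀ z ∈ dom M i e, ContDiffAt ℝ ∞ (wt (fun i x => ρ i x + v N x) i e) z :=
    fun N z hz => by
      have h4 := At.of_dom he hz
      have := (hρN N).smooth i e _ h4.1 h4.2.1
      rwa [h4.2.2] at this
  set K : Set (Cm d) := tsupport ξ with hKdef
  have hK : IsCompact K := h2.isCompact
  have hKm : MeasurableSet K := hK.measurableSet
  -- lower bounds of the weights
  have hlow : ∀ S : Set (Cm d), IsCompact S → S ⊆ dom M i e → ∃ κ : ℝ, 0 < κ ∧ ∀ N, ∀ z ∈ S,
      (∀ a : FI d → ℂ, ∀ J, ‖a J‖ ^ 2 ≤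
        κ * (hw (wt (fun i x => ρ i x + v N x) i e) (w e) z a a).re) ∧
      ∀ V : Fin d → FI d → ℂ, ∀ j J, ‖V j J‖ ^ 2 ≤ κ * (∑ l, ∑ b, (w e z)⁻¹ b l *
          hw (wt (fun i x => ρ i x + v N x) i e) (w e) z (V b) (V l)).re := by
    intro S hS hSd
    obtain ⟨c, C, hc, -, hcC⟩ := H897.exists_norm_bounds hk hρ he hS hSd
    refine ⟨(c * Real.exp (-C₁))⁻¹, by positivity, fun N z hz => ⟨fun a J => ?_, fun V j J => ?_⟩⟩
    · have h4 := ((hcC z hz (v N)).1 a).1
      have h5 : ‖a J‖ ^ 2 ≤ ∑ I, ‖a I‖ ^ 2 :=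
        Finset.single_le_sum (f := fun I => ‖a I‖ ^ 2) (fun _ _ => by positivity)
          (Finset.mem_univ J)
      rw [inv_mul_eq_div, le_div_iff₀ (by positivity)]
      calc ‖a J‖ ^ 2 * (c * Real.exp (-C₁))
          ≤ (∑ I, ‖a I‖ ^ 2) * (c * Real.exp (-v N (e.symm z))) := by
            gcongr; exact hC N _
        _ = c * (Real.exp (-v N (e.symm z)) * ∑ I, ‖a I‖ ^ 2) := by ring
        _ ≤ _ := h4
    · have h4 := (hcC z hz (v N)).2 V
      have h5 : ‖V j J‖ ^ 2 ≤ ∑ l, ∑ I, ‖V l I‖ ^ 2 := by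
        refine (Finset.single_le_sum (f := fun I => ‖V j I‖ ^ 2)
          (fun _ _ => by positivity) (Finset.mem_univ J)).trans ?_
        exact Finset.single_le_sum (f := fun l => ∑ I, ‖V l I‖ ^ 2)
          (fun _ _ => by positivity) (Finset.mem_univ j)
      rw [inv_mul_eq_div, le_div_iff₀ (by positivity)]
      calc ‖V j J‖ ^ 2 * (c * Real.exp (-C₁))
          ≤ (∑ l, ∑ I, ‖V l I‖ ^ 2) * (c * Real.exp (-v N (e.symm z))) := by
            gcongr; exact hC N _
        _ = c * (Real.exp (-v N (e.symm z)) * ∑ l, ∑ I, ‖V l I‖ ^ 2) := by ring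
        _ ≤ _ := h4
  -- `D' g → 0`
  have hDL : ∀ S ⊆ dom M i e, IsCompact S → ∀ J,
      L2z l (fun N z => DX (fun i x => ρ i x + v N x) (g N) i e z J) S := by
    intro S hSd hS J
    have hDs : ∀ N, H862.IsSec M (DX (fun i x => ρ i x + v N x) (g N)) := fun N =>
      (hg N).DX (hρN N)
    refine l2_of_dens (κ := fun _ => 0) hk hρ hv (D := fun N => hX (fun i x => ρ i x + v N x) w
      (DX (fun i x => ρ i x + v N x) (g N)) (DX (fun i x => ρ i x + v N x) (g N)))
      (fun N => (hDs N).isDens_hX (hρN N) hk (hDs N))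
      (fun N i e x hx _ => H897.hX_nonneg hk _ hx) hD he hS hSd fun T hT hTd => ?_
    obtain ⟨κ, hκ, h4⟩ := hlow T hT hTd
    exact ⟨κ, hκ.le, fun N z hz => (h4 N z hz).1 _ J⟩
  -- `∂̄ g → 0`
  have hGL : ∀ S ⊆ dom M i e, IsCompact S → ∀ j J,
      L2z l (fun N z => dzb j (fun y => g N i e y J) z) S := by
    intro S hSd hS j J
    refine l2_of_dens (κ := fun _ => 0) hk hρ hv
      (D := fun N => gradX (fun i x => ρ i x + v N x) w (g N) (g N))
      (fun N => (hg N).isDens_gradX (hρN N) hk (hg N))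
      (fun N i e x hx _ => H897.gradX_nonneg hk (g N) hx) hgrad he hS hSd fun T hT hTd => ?_
    obtain ⟨κ, hκ, h4⟩ := hlow T hT hTd
    exact ⟨κ, hκ.le, fun N z hz => (h4 N z hz).2 (fun l => DVb l (g N i e) z) j J⟩
  -- `∂ (g - u) → 0`
  have hub : ∀ z ∈ dom M i e, ∀ j J, dzb j (fun y => u i e y J) z = 0 := by
    intro z hz j J
    exact dzb_of_holo (an_dom he hu.holo hz J).differentiableAt
  have hdL : ∀ j J, L2z l (fun N z => dz j (fun y => g N i e y J - u i e y J) z) K := by
    intro j J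
    refine l2_dz hdo (h := fun N y => g N i e y J - u i e y J)
      (fun N z hz => (hgs N z hz J).sub (hus z hz J)) (fun S hSd hS => hconv e he i S hS hSd J) j
      (fun S hSd hS => (hGL S hSd hS j J).congr hS.measurableSet fun N z hz => ?_) hK h3
    have e1 : DifferentiableAt ℝ (fun y => g N i e y J) z :=
      (hgs N z (hSd hz) J).differentiableAt (by simp)
    have e2 : DifferentiableAt ℝ (fun y => u i e y J) z :=
      (hus z (hSd hz) J).differentiableAt (by simp)
    show dzb j (fun y => g N i e y J - u i e y J) z = _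
    rw [C2.dzb_sub j e1 e2, hub z (hSd hz), sub_zero]
  -- measurability
  have hmeas : ∀ {G : Cm d → ℂ}, (∀ z ∈ dom M i e, ContinuousAt G z) →
      AEMeasurable G (volume.restrict K) := fun {G} hG =>
    (ContinuousOn.aemeasurable (fun z hz => (hG z (h3 hz)).continuousWithinAt) hKm)
  have cB : ∀ N m, ∀ z ∈ dom M i e, ContDiffAt ℝ ∞ (cf (g N) i e I m) z := fun N m z hz =>
    (VC_constMul (eps m) (hgs N z hz)) I
  have cU : ∀ m, ∀ z ∈ dom M i e, ContDiffAt ℝ ∞ (cf u i e I m) z := fun m z hz =>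
    (VC_constMul (eps m) (hus z hz)) I
  have cdz' : ∀ {F : Cm d → ℂ} {z : Cm d} (m : Fin d), ContDiffAt ℝ ∞ F z →
      ContinuousAt (dz m F) z := fun m h => hor_cdz m h
  -- the products `ε (g - u)` and their divergence
  have hcfL : ∀ m, L2z l (fun N z => cf (g N) i e I m z - cf u i e I m z) K := by
    intro m
    have h4 := L2z.sum (l := l) Finset.univ (f := fun (J : FI d) N z =>
      eps m I J * (g N i e z J - u i e z J)) hKm (fun J N => hmeas fun z hz =>
        continuousAt_const.mul ((hgs N z hz J).continuousAt.sub (hus z hz J).continuousAt))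
      (fun J => (hconv e he i K hK h3 J).mul_bdd hKm (C := ‖eps m I J‖) fun z _ => le_rfl)
    refine h4.congr hKm fun N z hz => ?_
    simp only [cf, Matrix.mulVec, dotProduct]
    rw [← Finset.sum_sub_distrib]
    exact Finset.sum_congr rfl fun J _ => by ring
  have hdvL : L2z l (fun N z => dv (cf (g N) i e I) z - dv (cf u i e I) z) K := by
    have h4 := L2z.sum (l := l) Finset.univ (f := fun (p : Fin d × FI d) N z =>
      eps p.1 I p.2 * dz p.1 (fun y => g N i e y p.2 - u i e y p.2) z) hKm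
      (fun p N => hmeas fun z hz => continuousAt_const.mul
        (cdz' p.1 ((hgs N z hz p.2).sub (hus z hz p.2))))
      (fun p => (hdL p.1 p.2).mul_bdd hKm (C := ‖eps p.1 I p.2‖) fun z _ => le_rfl)
    refine h4.congr hKm fun N z hz => ?_
    have hz' := h3 hz
    have e1 : ∀ m, dz m (cf (g N) i e I m) z = ∑ J, eps m I J * dz m (fun y => g N i e y J) z := by
      intro m
      have := eps_DV (hgs N z hz') m I
      rw [show dz m (cf (g N) i e I m) z = dz m (fun y => (eps m *ᵥ g N i e y) I) z from rfl,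
        ← this]
      rfl
    have e2 : ∀ m, dz m (cf u i e I m) z = ∑ J, eps m I J * dz m (fun y => u i e y J) z := by
      intro m
      have := eps_DV (hus z hz') m I
      rw [show dz m (cf u i e I m) z = dz m (fun y => (eps m *ᵥ u i e y) I) z from rfl,
        ← this]
      rfl
    unfold dv
    rw [Fintype.sum_prod_type, ← Finset.sum_sub_distrib]
    refine Finset.sum_congr rfl fun m _ => ?_
    rw [e1, e2, ← Finset.sum_sub_distrib]
    refine Finset.sum_congr rfl fun J _ => ?_
    have f1 : DifferentiableAt ℝ (fun y => g N i e y J) z :=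
      (hgs N z hz' J).differentiableAt (by simp)
    have f2 : DifferentiableAt ℝ (fun y => u i e y J) z :=
      (hus z hz' J).differentiableAt (by simp)
    rw [C2.dz_sub m f1 f2]
    ring
  -- the integrands
  set H : Cm d → ℂ := fun z => ∑ m, cf u i e I m z * dz m ξ z +
    ((1 - (lam : ℂ)) • dF u i e z) I * ξ z with hH
  set HN : α → Cm d → ℂ := fun N z => ∑ m, cf (g N) i e I m z * dz m ξ z +
    ((1 - (lam : ℂ)) * dv (cf (g N) i e I) z +
      lam * DX (fun i x => ρ i x + v N x) (g N) i e z I) * ξ z with hHN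
  have hibp : ∀ N, ∫ z in dom M i e, (wtf ρ (v N) lam i e z : ℂ) * HN N z = 0 := by
    intro N
    have h4 := ibp_weight hdo (ψ := fun z => (lam : ℝ) * wt (fun i x => ρ i x + v N x) i e z)
      (fun z hz => contDiffAt_const.mul (hψs N z hz)) (B := cf (g N) i e I) (cB N) h1 h2 h3
    rw [← h4]
    refine setIntegral_congr_fun hdo.measurableSet fun z hz => ?_
    have e1 : ∀ m, dz m (cw fun z => (lam : ℝ) * wt (fun i x => ρ i x + v N x) i e z) z =
        lam * dz m (cw (wt (fun i x => ρ i x + v N x) i e)) z := by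
      intro m
      have h5 : (cw fun z => (lam : ℝ) * wt (fun i x => ρ i x + v N x) i e z) =
          fun z => (lam : ℂ) * cw (wt (fun i x => ρ i x + v N x) i e) z := by
        funext z
        simp [cw]
      rw [h5]
      exact C2.dz_const_mul m (lam : ℂ)
        ((C2.contDiffAt_ofReal (hψs N z hz)).differentiableAt (by simp))
    have e2 : DX (fun i x => ρ i x + v N x) (g N) i e z I = dv (cf (g N) i e I) z -
        ∑ m, dz m (cw (wt (fun i x => ρ i x + v N x) i e)) z * cf (g N) i e I m z :=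
      Dw_apply (hgs N z hz) I
    have e3 : wtf ρ (v N) lam i e z =
        Real.exp (-((lam : ℝ) * wt (fun i x => ρ i x + v N x) i e z)) := by
      simp only [wtf, wt]
      congr 1
      ring
    simp only [hHN, e1, e2, e3]
    congr 2
    have e4 : ∑ m, ↑lam * dz m (cw (wt (fun i x => ρ i x + v N x) i e)) z *
        cf (g N) i e I m z = lam * ∑ m, dz m (cw (wt (fun i x => ρ i x + v N x) i e)) z *
          cf (g N) i e I m z := by
      rw [Finset.mul_sum]
      exact Finset.sum_congr rfl fun m _ => by ring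
    rw [e4]
    ring
  -- convergence of the integrands
  obtain ⟨Cξ, hCξ⟩ := hK.exists_bound_of_continuousOn h1.continuous.continuousOn
  have hdξc : ∀ m, ContinuousOn (dz m ξ) K := fun m z _ =>
    (cdz' m h1.contDiffAt).continuousWithinAt
  have hHL : L2z l (fun N z => HN N z - H z) K := by
    have h4 : L2z l (fun N z => ∑ m, dz m ξ z * (cf (g N) i e I m z - cf u i e I m z)) K := by
      refine L2z.sum (l := l) Finset.univ (f := fun m N z =>
        dz m ξ z * (cf (g N) i e I m z - cf u i e I m z)) hKm (fun m N => hmeas fun z hz => ?_)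
        fun m => ?_
      · exact (cdz' m h1.contDiffAt).mul ((cB N m z hz).continuousAt.sub (cU m z hz).continuousAt)
      · obtain ⟨C, hC⟩ := hK.exists_bound_of_continuousOn (hdξc m)
        exact (hcfL m).mul_bdd hKm hC
    have h5 : L2z l (fun N z => ((1 - (lam : ℂ)) * ξ z) *
        (dv (cf (g N) i e I) z - dv (cf u i e I) z)) K := by
      refine hdvL.mul_bdd hKm (C := ‖1 - (lam : ℂ)‖ * Cξ) fun z hz => ?_
      rw [norm_mul]
      gcongr
      exact hCξ z hz
    have h6 : L2z l (fun N z => ((lam : ℂ) * ξ z) *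
        DX (fun i x => ρ i x + v N x) (g N) i e z I) K := by
      refine (hDL K h3 hK I).mul_bdd hKm (C := ‖(lam : ℂ)‖ * Cξ) fun z hz => ?_
      rw [norm_mul]
      gcongr
      exact hCξ z hz
    have hdvc : ∀ {B : Fin d → Cm d → ℂ} {z : Cm d}, (∀ m, ContDiffAt ℝ ∞ (B m) z) →
        ContinuousAt (dv B) z := fun h => tendsto_finsetSum _ fun m _ => cdz' m (h m)
    have hDXs : ∀ N, ∀ z ∈ dom M i e,
        VC ∞ (DX (fun i x => ρ i x + v N x) (g N) i e) z := fun N z hz => by
      have h4 := At.of_dom he hz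
      have := ((hg N).DX (hρN N)).smooth i e _ h4.1 h4.2.1
      rwa [h4.2.2] at this
    refine L2z.congr hKm (L2z.add hKm (fun N => hmeas fun z hz => ?_) h4
      (L2z.add hKm (fun N => hmeas fun z hz => ?_) h5 h6)) fun N z hz => ?_
    · exact ((continuousAt_const.mul h1.continuous.continuousAt).mul
        ((hdvc fun m => cB N m z hz).sub (hdvc fun m => cU m z hz))).add
        ((continuousAt_const.mul h1.continuous.continuousAt).mul (hDXs N z hz I).continuousAt)
    · exact (continuousAt_const.mul h1.continuous.continuousAt).mul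
        (hDXs N z hz I).continuousAt
    · simp only [hHN, hH]
      have e1 : ((1 - (lam : ℂ)) • dF u i e z) I = (1 - (lam : ℂ)) * dv (cf u i e I) z := rfl
      rw [e1]
      have e2 : ∑ m, dz m ξ z * (cf (g N) i e I m z - cf u i e I m z) =
          ∑ m, cf (g N) i e I m z * dz m ξ z - ∑ m, cf u i e I m z * dz m ξ z := by
        rw [← Finset.sum_sub_distrib]
        exact Finset.sum_congr rfl fun m _ => by ring
      rw [e2]
      ring
  -- the weights
  have hKe : K ⊆ e.target := h3.trans inter_subset_left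
  have hρc : ContinuousOn (fun z => ρ i (e.symm z)) K := fun z hz => by
    have h4 := At.of_dom he (h3 hz)
    have := (hρ.smooth i e _ h4.1 h4.2.1).continuousAt
    rw [h4.2.2] at this
    exact this.continuousWithinAt
  obtain ⟨R, hR⟩ := hK.exists_bound_of_continuousOn hρc
  have hwc : ∀ N, ∀ z ∈ dom M i e, ContinuousAt (fun z => (wtf ρ (v N) lam i e z : ℂ)) z := by
    intro N z hz
    have h4 := hψs N z hz
    have h5 : (fun z => (wtf ρ (v N) lam i e z : ℂ)) = fun z =>
        (Real.exp (-((lam : ℝ) * wt (fun i x => ρ i x + v N x) i e z)) : ℂ) := by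
      funext z
      simp only [wtf, wt]
      congr 2
      ring
    rw [h5]
    exact Complex.continuous_ofReal.continuousAt.comp
      (Real.continuous_exp.continuousAt.comp (continuousAt_const.mul h4.continuousAt).neg)
  obtain ⟨B, hB, hBN⟩ : ∃ B : ℝ≥0∞, B ≠ ⊤ ∧ ∀ᶠ N in l,
      ∫⁻ z in K, ‖(wtf ρ (v N) lam i e z : ℂ)‖ₑ ^ 2 ≤ B := by
    have h4 := hW2.lim e he K hK hKe
    have h5 := hW2.int e he K hK hKe
    have h6 : ∫⁻ z in K, ‖Real.exp (-(((2 * lam : ℕ) : ℝ) * φ (e.symm z)))‖ₑ ≠ ⊤ :=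
      h5.2.ne
    refine ⟨ENNReal.ofReal (Real.exp (2 * lam * R)) *
      (1 + ∫⁻ z in K, ‖Real.exp (-(((2 * lam : ℕ) : ℝ) * φ (e.symm z)))‖ₑ), by finiteness, ?_⟩
    filter_upwards [h4.eventually (ge_mem_nhds (show (0 : ℝ≥0∞) < 1 by norm_num))] with N hN
    calc ∫⁻ z in K, ‖(wtf ρ (v N) lam i e z : ℂ)‖ₑ ^ 2
        ≤ ∫⁻ z in K, ENNReal.ofReal (Real.exp (2 * lam * R)) *
          (‖Real.exp (-(((2 * lam : ℕ) : ℝ) * v N (e.symm z))) -
            Real.exp (-(((2 * lam : ℕ) : ℝ) * φ (e.symm z)))‖ₑ +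
            ‖Real.exp (-(((2 * lam : ℕ) : ℝ) * φ (e.symm z)))‖ₑ) := by
          refine setLIntegral_mono' hKm fun z hz => ?_
          have e1 : ‖(wtf ρ (v N) lam i e z : ℂ)‖ₑ ^ 2 =
              ENNReal.ofReal (Real.exp (-(2 * lam * ρ i (e.symm z))) *
                Real.exp (-(((2 * lam : ℕ) : ℝ) * v N (e.symm z)))) := by
            rw [← ofReal_norm, Complex.norm_real, Real.norm_eq_abs]
            unfold wtf
            rw [abs_of_pos (Real.exp_pos _), ← ENNReal.ofReal_pow (Real.exp_pos _).le,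
              ← Real.exp_nat_mul, ← Real.exp_add]
            congr 2
            push_cast
            ring
          rw [e1, ENNReal.ofReal_mul (Real.exp_pos _).le]
          refine mul_le_mul' (ENNReal.ofReal_le_ofReal (Real.exp_le_exp.2 ?_)) ?_
          · have h7 := (abs_le.1 (hR z hz)).1
            have h8 : (0 : ℝ) ≤ 2 * lam := by positivity
            nlinarith
          · have e2 : ENNReal.ofReal (Real.exp (-(((2 * lam : ℕ) : ℝ) * v N (e.symm z)))) =
                ‖Real.exp (-(((2 * lam : ℕ) : ℝ) * v N (e.symm z)))‖ₑ := by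
              rw [← ofReal_norm, Real.norm_eq_abs, abs_of_pos (Real.exp_pos _)]
            rw [e2]
            have h7 := enorm_add_le (Real.exp (-(((2 * lam : ℕ) : ℝ) * v N (e.symm z))) -
              Real.exp (-(((2 * lam : ℕ) : ℝ) * φ (e.symm z))))
              (Real.exp (-(((2 * lam : ℕ) : ℝ) * φ (e.symm z))))
            rwa [sub_add_cancel] at h7
      _ = ENNReal.ofReal (Real.exp (2 * lam * R)) *
          ((∫⁻ z in K, ‖Real.exp (-(((2 * lam : ℕ) : ℝ) * v N (e.symm z))) -
            Real.exp (-(((2 * lam : ℕ) : ℝ) * φ (e.symm z)))‖ₑ) +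
            ∫⁻ z in K, ‖Real.exp (-(((2 * lam : ℕ) : ℝ) * φ (e.symm z)))‖ₑ) := by
          rw [lintegral_const_mul' _ _ ENNReal.ofReal_ne_top,
            lintegral_add_right' _ h5.aestronglyMeasurable.aemeasurable.enorm]
      _ ≤ _ := by gcongr
  have hcs := cs_limit (l := l) (W := fun N z => (wtf ρ (v N) lam i e z : ℂ))
    (f := fun N z => HN N z - H z) (K := K) (fun N => hmeas (hwc N)) (fun N => hmeas fun z hz => ?_)
    hB hBN hHL
  · -- conclusion
    have hHc : ∀ z ∈ dom M i e, ContinuousAt H z := by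
      intro z hz
      refine ContinuousAt.add ?_ (ContinuousAt.mul ?_ h1.continuous.continuousAt)
      · exact tendsto_finsetSum _ fun m _ => (cU m z hz).continuousAt.mul
          (cdz' m h1.contDiffAt)
      · have : (fun z => ((1 - (lam : ℂ)) • dF u i e z) I) = fun z =>
          (1 - (lam : ℂ)) * dv (cf u i e I) z := rfl
        rw [this]
        refine continuousAt_const.mul ?_
        exact tendsto_finsetSum _ fun m _ => cdz' m (cU m z hz)
    have hH0 : ∀ z, z ∉ K → H z = 0 := fun z hz =>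
      wk_zero (B := cf u i e I) (h := fun z => ((1 - (lam : ℂ)) • dF u i e z) I) hz
    have hHN0 : ∀ N z, z ∉ K → HN N z = 0 := fun N z hz =>
      wk_zero (B := cf (g N) i e I) (h := fun z => ((1 - (lam : ℂ)) * dv (cf (g N) i e I) z +
        lam * DX (fun i x => ρ i x + v N x) (g N) i e z I)) hz
    have toK : ∀ (W : Cm d → ℝ) (G : Cm d → ℂ), (∀ z, z ∉ K → G z = 0) →
        ∫ z in dom M i e, (W z : ℂ) * G z = ∫ z in K, (W z : ℂ) * G z := by
      intro W G hG
      refine setIntegral_eq_of_subset_of_forall_sdiff_eq_zero hdo.measurableSet h3 fun z hz => ?_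
      rw [hG z hz.2, mul_zero]
    -- `∫ W_N H → ∫ W H`
    have hG : ContinuousOn (fun z => (Real.exp (-((lam : ℝ) * ρ i (e.symm z))) : ℂ) * H z) K := by
      intro z hz
      refine ContinuousWithinAt.mul ?_ (hHc z (h3 hz)).continuousWithinAt
      exact (Complex.continuous_ofReal.continuousAt.comp_continuousWithinAt
        (Real.continuous_exp.continuousAt.comp_continuousWithinAt
          ((continuousWithinAt_const.mul (hρc z hz)).neg)))
    have t1 := tendsto_weight hW (fun N => Smooth.const_mul _ (hv N)) he hK hKe hG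
    have e1 : ∀ ψ : X → ℝ, ∫ z in K, (Real.exp (-((lam : ℝ) * ψ (e.symm z))) : ℂ) *
        ((Real.exp (-((lam : ℝ) * ρ i (e.symm z))) : ℂ) * H z) =
        ∫ z in K, (wtf ρ ψ lam i e z : ℂ) * H z := by
      intro ψ
      refine setIntegral_congr_fun hKm fun z hz => ?_
      simp only [wtf]
      rw [neg_add, Real.exp_add]
      push_cast
      ring
    simp only [e1] at t1
    -- the difference
    have t2 : Tendsto (fun N => ∫ z in K, (wtf ρ (v N) lam i e z : ℂ) * (HN N z - H z)) l
        (𝓝 0) := by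
      rw [tendsto_zero_iff_norm_tendsto_zero]
      have h4 : Tendsto (fun N => (∫⁻ z in K,
          ‖(wtf ρ (v N) lam i e z : ℂ) * (HN N z - H z)‖ₑ).toReal) l (𝓝 0) := by
        have := (ENNReal.tendsto_toReal (a := 0) (by norm_num)).comp hcs
        rwa [ENNReal.toReal_zero] at this
      refine squeeze_zero' (Eventually.of_forall fun N => norm_nonneg _) ?_ h4
      filter_upwards [hcs.eventually (ge_mem_nhds (show (0 : ℝ≥0∞) < 1 by norm_num))] with N hN
      have h5 := enorm_integral_le_lintegral_enorm (μ := volume.restrict K)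
        (fun z => (wtf ρ (v N) lam i e z : ℂ) * (HN N z - H z))
      have h6 := ENNReal.toReal_mono (ne_top_of_le_ne_top ENNReal.one_ne_top hN) h5
      rwa [← ofReal_norm, ENNReal.toReal_ofReal (norm_nonneg _)] at h6
    have hHNc : ∀ N, ∀ z ∈ dom M i e, ContinuousAt (HN N) z := by
      intro N z hz
      have hDXs : VC ∞ (DX (fun i x => ρ i x + v N x) (g N) i e) z := by
        have h4 := At.of_dom he hz
        have := ((hg N).DX (hρN N)).smooth i e _ h4.1 h4.2.1
        rwa [h4.2.2] at this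
      refine ContinuousAt.add ?_ (ContinuousAt.mul ?_ h1.continuous.continuousAt)
      · exact tendsto_finsetSum _ fun m _ => (cB N m z hz).continuousAt.mul
          (cdz' m h1.contDiffAt)
      · refine (continuousAt_const.mul ?_).add (continuousAt_const.mul (hDXs I).continuousAt)
        exact tendsto_finsetSum _ fun m _ => cdz' m (cB N m z hz)
    have t3 : ∀ N, ∫ z in K, (wtf ρ (v N) lam i e z : ℂ) * (HN N z - H z) =
        -∫ z in K, (wtf ρ (v N) lam i e z : ℂ) * H z := by
      intro N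
      have i1 : IntegrableOn (fun z => (wtf ρ (v N) lam i e z : ℂ) * HN N z) K :=
        ContinuousOn.integrableOn_compact hK fun z hz =>
          ((hwc N z (h3 hz)).mul (hHNc N z (h3 hz))).continuousWithinAt
      have i2 : IntegrableOn (fun z => (wtf ρ (v N) lam i e z : ℂ) * H z) K :=
        ContinuousOn.integrableOn_compact hK fun z hz =>
          ((hwc N z (h3 hz)).mul (hHc z (h3 hz))).continuousWithinAt
      simp only [mul_sub]
      rw [integral_sub i1 i2, ← toK _ _ (hHN0 N), hibp N, zero_sub]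
    simp only [t3] at t2
    have t4 := t2.neg
    rw [neg_zero] at t4
    simp only [neg_neg] at t4
    have t5 := tendsto_nhds_unique t1 t4
    show ∫ z in dom M i e, (wtf ρ φ lam i e z : ℂ) * H z = 0
    rw [toK _ _ hH0]
    exact t5
  · have hDXs : VC ∞ (DX (fun i x => ρ i x + v N x) (g N) i e) z := by
      have h4 := At.of_dom he hz
      have := ((hg N).DX (hρN N)).smooth i e _ h4.1 h4.2.1
      rwa [h4.2.2] at this
    refine ContinuousAt.sub (ContinuousAt.add ?_ (ContinuousAt.mul ?_ h1.continuous.continuousAt))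
      (ContinuousAt.add ?_ (ContinuousAt.mul ?_ h1.continuous.continuousAt))
    · exact tendsto_finsetSum _ fun m _ => (cB N m z hz).continuousAt.mul
        (cdz' m h1.contDiffAt)
    · refine (continuousAt_const.mul ?_).add (continuousAt_const.mul (hDXs I).continuousAt)
      exact tendsto_finsetSum _ fun m _ => cdz' m (cB N m z hz)
    · exact tendsto_finsetSum _ fun m _ => (cU m z hz).continuousAt.mul
        (cdz' m h1.contDiffAt)
    · have : (fun z => ((1 - (lam : ℂ)) • dF u i e z) I) = fun z =>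
        (1 - (lam : ℂ)) * dv (cf u i e I) z := rfl
      rw [this]
      refine continuousAt_const.mul ?_
      exact tendsto_finsetSum _ fun m _ => cdz' m (cU m z hz)

end Vale.Agent.P301.H599
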