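import Vale.Agent.P301.H599.HorLoc

/-! # P301, F1: `L²` convergence of derivatives -/

open scoped Manifold ContDiff ComplexOrder Topology Matrix ENNReal ComplexConjugate
open Vale.Agent.P272.K Vale.Agent.P272.K.C2 Vale.Agent.P299.H954 Vale.Agent.P299.IX
open Vale.Agent.P299.IX.Fock Vale.Agent.P301.H862 MeasureTheory Set Filter Metric
open Vale.Agent.P301.H794 (integrable_test ext_smooth)

set_option linter.all false

noncomputable section

namespace Vale.Agent.P301.H599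

variable {d : ℕ} {α : Type*} {l : Filter α}

/-- convergence to zero in `L²` -/
def L2z (l : Filter α) (f : α → Cm d → ℂ) (S : Set (Cm d)) : Prop :=
  Tendsto (fun n => ∫⁻ z in S, ‖f n z‖ₑ ^ 2) l (𝓝 0)

lemma enorm_add_sq (a b : ℂ) : ‖a + b‖ₑ ^ 2 ≤ 2 * ‖a‖ₑ ^ 2 + 2 * ‖b‖ₑ ^ 2 := by
  rw [← ofReal_norm, ← ofReal_norm, ← ofReal_norm, ← ENNReal.ofReal_pow (norm_nonneg _),
    ← ENNReal.ofReal_pow (norm_nonneg _), ← ENNReal.ofReal_pow (norm_nonneg _)]
  have h2 : (2 : ℝ≥0∞) = ENNReal.ofReal 2 := by norm_num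
  rw [h2, ← ENNReal.ofReal_mul (by norm_num), ← ENNReal.ofReal_mul (by norm_num),
    ← ENNReal.ofReal_add (by positivity) (by positivity)]
  refine ENNReal.ofReal_le_ofReal ?_
  have h1 := norm_add_le a b
  nlinarith [sq_nonneg (‖a‖ - ‖b‖), norm_nonneg (a + b), norm_nonneg a, norm_nonneg b]

lemma L2z.mono {f : α → Cm d → ℂ} {S S' : Set (Cm d)} (h : L2z l f S) (hS : S' ⊆ S) :
    L2z l f S' :=
  tendsto_of_tendsto_of_tendsto_of_le_of_le tendsto_const_nhds h (fun _ => zero_le)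
    fun n => lintegral_mono_set hS

lemma L2z.add {f g : α → Cm d → ℂ} {S : Set (Cm d)} (hS : MeasurableSet S)
    (hg0 : ∀ n, AEMeasurable (g n) (volume.restrict S))
    (hf : L2z l f S) (hg : L2z l g S) : L2z l (fun n z => f n z + g n z) S := by
  have h1 : Tendsto (fun n => (2 * ∫⁻ z in S, ‖f n z‖ₑ ^ 2) + 2 * ∫⁻ z in S, ‖g n z‖ₑ ^ 2) l
      (𝓝 (2 * 0 + 2 * 0)) :=
    (ENNReal.Tendsto.const_mul (a := (2 : ℝ≥0∞)) hf (Or.inr ENNReal.ofNat_ne_top)).add
      (ENNReal.Tendsto.const_mul (a := (2 : ℝ≥0∞)) hg (Or.inr ENNReal.ofNat_ne_top))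
  rw [mul_zero, add_zero] at h1
  refine tendsto_of_tendsto_of_tendsto_of_le_of_le tendsto_const_nhds h1 (fun _ => zero_le)
    fun n => ?_
  refine (lintegral_mono fun z => enorm_add_sq (f n z) (g n z)).trans (le_of_eq ?_)
  have hm : AEMeasurable (fun z => 2 * ‖g n z‖ₑ ^ 2) (volume.restrict S) :=
    ((hg0 n).enorm.pow_const 2).const_mul 2
  rw [lintegral_add_right' _ hm, lintegral_const_mul' _ _ (by norm_num),
    lintegral_const_mul' _ _ (by norm_num)]

lemma L2z.mul_bdd {f : α → Cm d → ℂ} {S : Set (Cm d)} (hS : MeasurableSet S) {c : Cm d → ℂ}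
    {C : ℝ} (hc : ∀ z ∈ S, ‖c z‖ ≤ C) (hf : L2z l f S) : L2z l (fun n z => c z * f n z) S := by
  have h1 : Tendsto (fun n => ENNReal.ofReal C ^ 2 * ∫⁻ z in S, ‖f n z‖ₑ ^ 2) l
      (𝓝 (ENNReal.ofReal C ^ 2 * 0)) :=
    ENNReal.Tendsto.const_mul hf (Or.inr (by finiteness))
  rw [mul_zero] at h1
  refine tendsto_of_tendsto_of_tendsto_of_le_of_le tendsto_const_nhds h1 (fun _ => zero_le)
    fun n => ?_
  rw [← lintegral_const_mul' _ _ (by finiteness)]
  refine setLIntegral_mono' hS fun z hz => ?_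
  rw [enorm_mul, mul_pow]
  gcongr
  rw [← ofReal_norm]
  exact ENNReal.ofReal_le_ofReal (hc z hz)

lemma L2z.sum {ι : Type*} (s : Finset ι) {f : ι → α → Cm d → ℂ} {S : Set (Cm d)}
    (hS : MeasurableSet S) (hm : ∀ i n, AEMeasurable (f i n) (volume.restrict S))
    (hf : ∀ i, L2z l (f i) S) : L2z l (fun n z => ∑ i ∈ s, f i n z) S := by
  classical
  induction s using Finset.induction_on with
  | empty =>
    simp [L2z]
    exact tendsto_const_nhds
  | insert a t ha ih =>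
    simp only [Finset.sum_insert ha]
    refine L2z.add hS (fun n => ?_) (hf a) ih
    exact Finset.aemeasurable_fun_sum _ fun i _ => hm i n

lemma L2z.congr {f g : α → Cm d → ℂ} {S : Set (Cm d)} (hS : MeasurableSet S) (hf : L2z l f S)
    (h : ∀ n, ∀ z ∈ S, g n z = f n z) : L2z l g S := by
  refine Tendsto.congr (fun n => ?_) hf
  exact setLIntegral_congr_fun hS fun z hz => by rw [h n z hz]

/-- `L²` convergence is local -/
theorem l2_of_local {f : α → Cm d → ℂ} {K : Set (Cm d)} (hK : IsCompact K)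
    (h : ∀ z ∈ K, ∃ r : ℝ, 0 < r ∧ L2z l f (closedBall z r)) : L2z l f K := by
  refine hK.induction_on (p := fun S => L2z l f S) ?_ ?_ ?_ ?_
  · simp [L2z]
    exact tendsto_const_nhds
  · intro S T hST hT
    exact hT.mono hST
  · intro S T hS hT
    have h1 : Tendsto (fun n => (∫⁻ z in S, ‖f n z‖ₑ ^ 2) + ∫⁻ z in T, ‖f n z‖ₑ ^ 2) l
        (𝓝 (0 + 0)) := Tendsto.add hS hT
    rw [add_zero] at h1
    exact tendsto_of_tendsto_of_tendsto_of_le_of_le tendsto_const_nhds h1 (fun _ => zero_le)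
      fun n => lintegral_union_le _ _ _
  · intro z hz
    obtain ⟨r, hr, h1⟩ := h z hz
    exact ⟨closedBall z r, mem_nhdsWithin_of_mem_nhds (closedBall_mem_nhds z hr), h1⟩

/-- `∫ |∂_j f|² = ∫ |∂̄_j f|²` -/
theorem int_dz_dzb {f : Cm d → ℂ} (hf : ContDiff ℝ ∞ f) (hc : HasCompactSupport f) (j : Fin d) :
    ∫⁻ z, ‖dz j f z‖ₑ ^ 2 = ∫⁻ z, ‖dzb j f z‖ₑ ^ 2 := by
  set fb : Cm d → ℂ := fun z => conj (f z) with hfb
  have hfbs : ContDiff ℝ ∞ fb := Complex.conjCLE.contDiff.comp hf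
  have hfbc : HasCompactSupport fb := hc.comp_left (map_zero _)
  have two : (2 : WithTop ℕ∞) ≤ ((⊤ : ℕ∞) : WithTop ℕ∞) := by norm_cast
  have s1 : ∀ {F : Cm d → ℂ}, ContDiff ℝ ∞ F → ContDiff ℝ ∞ (dz j F) := fun h => by
    rw [contDiff_iff_contDiffAt]
    intro z
    exact contDiffAt_dz j h.contDiffAt (by norm_cast)
  have s2 : ∀ {F : Cm d → ℂ}, ContDiff ℝ ∞ F → ContDiff ℝ ∞ (dzb j F) := fun h => by
    rw [contDiff_iff_contDiffAt]
    intro z
    exact contDiffAt_dzb j h.contDiffAt (by norm_cast)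
  have dif : ∀ {F : Cm d → ℂ} (z : Cm d), ContDiff ℝ ∞ F → DifferentiableAt ℝ F z := fun z h =>
    h.contDiffAt.differentiableAt (by simp)
  have e1 : ∀ z, dzb j fb z = conj (dz j f z) := fun z => dzb_conj j (dif z hf)
  have e2 : ∀ z, dz j fb z = conj (dzb j f z) := fun z => dz_conj j (dif z hf)
  -- the two integrals
  have one : (1 : WithTop ℕ∞) ≤ ((⊤ : ℕ∞) : WithTop ℕ∞) := by exact_mod_cast le_top
  have i1 := INT.integral_dz_eq_zero (F := fun z => f z * dzb j fb z)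
    ((hf.mul (s2 hfbs)).of_le one) hc.mul_right j
  have i2 := INT.integral_dzb_eq_zero (F := fun z => f z * dz j fb z)
    ((hf.mul (s1 hfbs)).of_le one) hc.mul_right j
  have p1 : ∀ z, dz j (fun z => f z * dzb j fb z) z =
      ((‖dz j f z‖ ^ 2 : ℝ) : ℂ) + f z * dz j (dzb j fb) z := by
    intro z
    rw [dz_mul j (dif z hf) (dif z (s2 hfbs)), e1, Complex.mul_conj, Complex.normSq_eq_norm_sq]
  have p2 : ∀ z, dzb j (fun z => f z * dz j fb z) z =
      ((‖dzb j f z‖ ^ 2 : ℝ) : ℂ) + f z * dz j (dzb j fb) z := by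
    intro z
    rw [dzb_mul j (dif z hf) (dif z (s1 hfbs)), e2, Complex.mul_conj, Complex.normSq_eq_norm_sq,
      ← dz_dzb_comm j j (hfbs.contDiffAt.of_le two)]
  simp only [p1] at i1
  simp only [p2] at i2
  have c1 : HasCompactSupport (dz j f) := by
    refine HasCompactSupport.intro hc.isCompact fun z hz => ?_
    have h3 : f =ᶠ[𝓝 z] fun _ => 0 := notMem_tsupport_iff_eventuallyEq.1 hz
    rw [C2.dz_congr _ h3, C2.dz_const]
  have c2 : HasCompactSupport (dzb j f) := by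
    refine HasCompactSupport.intro hc.isCompact fun z hz => ?_
    have h3 : f =ᶠ[𝓝 z] fun _ => 0 := notMem_tsupport_iff_eventuallyEq.1 hz
    rw [C2.dzb_congr _ h3, C2.dzb_const]
  have n1 : Integrable fun z => ‖dz j f z‖ ^ 2 := by
    refine Continuous.integrable_of_hasCompactSupport (by
      have := (s1 hf).continuous; fun_prop) ?_
    exact c1.comp_left (g := fun z : ℂ => ‖z‖ ^ 2) (by simp)
  have n2 : Integrable fun z => ‖dzb j f z‖ ^ 2 := by
    refine Continuous.integrable_of_hasCompactSupport (by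
      have := (s2 hf).continuous; fun_prop) ?_
    exact c2.comp_left (g := fun z : ℂ => ‖z‖ ^ 2) (by simp)
  have n3 : Integrable fun z => f z * dz j (dzb j fb) z :=
    (hf.continuous.mul (s1 (s2 hfbs)).continuous).integrable_of_hasCompactSupport hc.mul_right
  have n1' : Integrable fun z => ((‖dz j f z‖ ^ 2 : ℝ) : ℂ) := n1.ofReal
  have n2' : Integrable fun z => ((‖dzb j f z‖ ^ 2 : ℝ) : ℂ) := n2.ofReal
  rw [integral_add n1' n3] at i1
  rw [integral_add n2' n3] at i2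
  have h5 : ∫ z, ((‖dz j f z‖ ^ 2 : ℝ) : ℂ) = ∫ z, ((‖dzb j f z‖ ^ 2 : ℝ) : ℂ) := by
    linear_combination i1 - i2
  rw [integral_complex_ofReal, integral_complex_ofReal] at h5
  have h6 : ∫ z, ‖dz j f z‖ ^ 2 = ∫ z, ‖dzb j f z‖ ^ 2 := by exact_mod_cast h5
  have h7 : ∀ F : Cm d → ℂ, Integrable (fun z => ‖F z‖ ^ 2) →
      ∫⁻ z, ‖F z‖ₑ ^ 2 = ENNReal.ofReal (∫ z, ‖F z‖ ^ 2) := by
    intro F hF
    rw [ofReal_integral_eq_lintegral_ofReal hF (Eventually.of_forall fun z => sq_nonneg _)]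
    refine lintegral_congr fun z => ?_
    rw [ENNReal.ofReal_pow (norm_nonneg _), ofReal_norm]
  rw [h7 _ n1, h7 _ n2, h6]

lemma lint_supp {g : Cm d → ℝ≥0∞} {B : Set (Cm d)} (hB : MeasurableSet B)
    (h : ∀ z, z ∉ B → g z = 0) : ∫⁻ z in B, g z = ∫⁻ z, g z := by
  rw [← lintegral_indicator hB]
  refine lintegral_congr fun z => ?_
  by_cases hz : z ∈ B
  · rw [indicator_of_mem hz]
  · rw [indicator_of_notMem hz, h z hz]

/-- **`L²` convergence of `∂h` from that of `h` and `∂̄h`** -/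
theorem l2_dz {Ω : Set (Cm d)} (hΩ : IsOpen Ω) {h : α → Cm d → ℂ}
    (hs : ∀ n, ∀ z ∈ Ω, ContDiffAt ℝ ∞ (h n) z)
    (h0 : ∀ K ⊆ Ω, IsCompact K → L2z l h K) (j : Fin d)
    (h1 : ∀ K ⊆ Ω, IsCompact K → L2z l (fun n => dzb j (h n)) K) {K : Set (Cm d)}
    (hK : IsCompact K) (hKΩ : K ⊆ Ω) : L2z l (fun n => dz j (h n)) K := by
  refine l2_of_local hK fun z0 hz0 => ?_
  obtain ⟨r, hr, hrΩ⟩ := Metric.nhds_basis_closedBall.mem_iff.1 (hΩ.mem_nhds (hKΩ hz0))
  let b : ContDiffBump z0 := ⟨r / 2, r, half_pos hr, half_lt_self hr⟩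
  have hbs : ContDiff ℝ ∞ b := b.contDiff
  have hbt : tsupport b = closedBall z0 r := b.tsupport_eq
  refine ⟨r / 2, half_pos hr, ?_⟩
  set B := closedBall z0 r with hB
  have hBc : IsCompact B := isCompact_closedBall _ _
  have hBm : MeasurableSet B := measurableSet_closedBall
  set c : Cm d → ℂ := fun z => (b z : ℂ) with hc
  have hcs : ContDiff ℝ ∞ c := Complex.ofRealCLM.contDiff.comp hbs
  have hext := fun n => ext_smooth (Ω := Ω) (C := B) hBc hrΩ hΩ (V := fun z => c z * h n z)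
    (fun z hz => hcs.contDiffAt.mul (hs n z hz)) (fun z hz hzB => by
      have : b z = 0 := image_eq_zero_of_notMem_tsupport (by rw [hbt]; exact hzB)
      simp only [hc, this, Complex.ofReal_zero, zero_mul])
  set F : α → Cm d → ℂ := fun n => Ω.indicator fun z => c z * h n z with hF
  have dif : ∀ n, ∀ z ∈ Ω, DifferentiableAt ℝ (h n) z := fun n z hz =>
    (hs n z hz).differentiableAt (by simp)
  have difc : ∀ z, DifferentiableAt ℝ c z := fun z => hcs.contDiffAt.differentiableAt (by simp)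
  have F1 : ∀ n, ∀ z ∈ Ω, dz j (F n) z = dz j c z * h n z + c z * dz j (h n) z := by
    intro n z hz
    rw [C2.dz_congr j ((hext n).2.2.2 z hz), dz_mul j (difc z) (dif n z hz)]
  have F2 : ∀ n, ∀ z ∈ Ω, dzb j (F n) z = dzb j c z * h n z + c z * dzb j (h n) z := by
    intro n z hz
    rw [C2.dzb_congr j ((hext n).2.2.2 z hz), dzb_mul j (difc z) (dif n z hz)]
  have cont1 : Continuous (dz j c) := by
    rw [continuous_iff_continuousAt]
    intro z
    exact (contDiffAt_dz (m := 0) j (hcs.contDiffAt.of_le (by norm_cast))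
      (by norm_num)).continuousAt
  have cont2 : Continuous (dzb j c) := by
    rw [continuous_iff_continuousAt]
    intro z
    exact (contDiffAt_dzb (m := 0) j (hcs.contDiffAt.of_le (by norm_cast))
      (by norm_num)).continuousAt
  obtain ⟨C1, hC1⟩ := hBc.exists_bound_of_continuousOn cont1.continuousOn
  obtain ⟨C2', hC2⟩ := hBc.exists_bound_of_continuousOn cont2.continuousOn
  have hC3 : ∀ z ∈ B, ‖c z‖ ≤ 1 := by
    intro z _
    simp only [hc, Complex.norm_real, Real.norm_eq_abs]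
    rw [abs_of_nonneg b.nonneg]
    exact b.le_one
  have hmeas : ∀ {G : Cm d → ℂ}, (∀ z ∈ Ω, ContinuousAt G z) →
      AEMeasurable G (volume.restrict B) := fun {G} hG =>
    (ContinuousOn.aemeasurable (fun z hz => (hG z (hrΩ hz)).continuousWithinAt) hBm)
  -- `∂̄ F → 0`
  have hFb : L2z l (fun n => dzb j (F n)) B := by
    refine L2z.congr hBm (L2z.add hBm (fun n => hmeas fun z hz => ?_)
      ((h0 B hrΩ hBc).mul_bdd hBm hC2) ((h1 B hrΩ hBc).mul_bdd hBm hC3))
      fun n z hz => F2 n z (hrΩ hz)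
    exact hcs.continuous.continuousAt.mul (contDiffAt_dzb (m := 0) j
      ((hs n z hz).of_le (by norm_cast)) (by norm_num)).continuousAt
  have hsupp : ∀ n, ∀ z, z ∉ B → F n =ᶠ[𝓝 z] fun _ => 0 := fun n z hz =>
    notMem_tsupport_iff_eventuallyEq.1 fun h => hz ((hext n).2.2.1 h)
  have hz1 : ∀ n, ∀ z, z ∉ B → ‖dz j (F n) z‖ₑ ^ 2 = 0 := by
    intro n z hz
    rw [C2.dz_congr j (hsupp n z hz), C2.dz_const, enorm_zero]
    simp
  have hz2 : ∀ n, ∀ z, z ∉ B → ‖dzb j (F n) z‖ₑ ^ 2 = 0 := by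
    intro n z hz
    rw [C2.dzb_congr j (hsupp n z hz), C2.dzb_const, enorm_zero]
    simp
  have hFz : L2z l (fun n => dz j (F n)) B := by
    refine Tendsto.congr (fun n => ?_) hFb
    show ∫⁻ z in B, ‖dzb j (F n) z‖ₑ ^ 2 = ∫⁻ z in B, ‖dz j (F n) z‖ₑ ^ 2
    rw [lint_supp hBm (hz1 n), lint_supp hBm (hz2 n)]
    exact (int_dz_dzb (hext n).1 (hext n).2.1 j).symm
  have hss : closedBall z0 (r / 2) ⊆ B := closedBall_subset_closedBall (by linarith)
  have hfin : L2z l (fun n z => dz j (F n) z + -dz j c z * h n z) B := by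
    refine L2z.add hBm (fun n => hmeas fun z hz => ?_) hFz
      ((h0 B hrΩ hBc).mul_bdd hBm (C := C1) fun z hz => by rw [norm_neg]; exact hC1 z hz)
    exact cont1.continuousAt.neg.mul (hs n z hz).continuousAt
  refine L2z.congr measurableSet_closedBall (hfin.mono hss) fun n z hz => ?_
  have hb1 : c z = 1 := by
    simp only [hc]
    rw [b.one_of_mem_closedBall hz, Complex.ofReal_one]
  rw [F1 n z (hrΩ (hss hz)), hb1]
  ring

end Vale.Agent.P301.H599
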