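import Vale.Agent.P301.H794.ZEnd

/-! # P301: horizontal forms, definitions -/

open scoped Manifold ContDiff ComplexOrder Topology Matrix ENNReal
open Vale.Agent.P272.K Vale.Agent.P272.K.C2 Vale.Agent.P299.H954 Vale.Agent.P299.IX
open Vale.Agent.P299.IX.Fock Vale.Agent.P301.H862 MeasureTheory Set Filter

set_option linter.all false

noncomputable section

namespace Vale.Agent.P301.H599

variable {d : ℕ} {X : Type} [TopologicalSpace X] [ChartedSpace (Cm d) X] {ι : Type}

/-- the exterior derivative of the local expressions of a section -/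
def dF (u : H862.Fam d X ι) : H862.Fam d X ι :=
  fun i e z I => ∑ k, dz k (fun y => (eps k *ᵥ u i e y) I) z

/-- the exterior products of `g` with one-forms are generically linear combinations of those of the
`u a`, with the same coefficients for all one-forms -/
def Hz {A : Type} [Fintype A] (L : LineBundle d X ι) (u : A → H862.Fam d X ι)
    (g : H862.Fam d X ι) : Prop :=
  ∀ i e x, At e x → x ∈ L.U i → ∀ I : FI d, ∃ (s : Cm d → ℂ) (c : A → FI d → Cm d → ℂ),
    AnalyticAt ℂ s (e x) ∧ (∃ᶠ z in 𝓝 (e x), s z ≠ 0) ∧ (∀ a K, AnalyticAt ℂ (c a K) (e x)) ∧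
    ∀ᶠ z in 𝓝 (e x), ∀ l, s z * (eps l *ᵥ g i e z) I = ∑ a, ∑ K, c a K z * (eps l *ᵥ u a i e z) K

end Vale.Agent.P301.H599
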