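import Vale.Agent.P301.H599.Hor1
import Vale.Agent.P301.H479.DivW

/-! # P301: horizontal forms satisfy the weak equation, final form -/

open scoped Manifold ContDiff ComplexOrder Topology Matrix ENNReal
open Vale.Agent.P272.K Vale.Agent.P272.K.C2 Vale.Agent.P299.H954 Vale.Agent.P299.IX
open Vale.Agent.P299.IX.Fock Vale.Agent.P301.H862 MeasureTheory Set Filter
open Vale.Agent.P301.H794 (LocEq WLim)

set_option linter.all false

noncomputable section

namespace Vale.Agent.P301.H599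

theorem divLoc (d : ℕ) (A : Type) [Fintype A] : DivLoc d A := by
  intro Ω f s U γ H B h hΩ hf hf2 hs hs0 hU hγ hH hB hh hrel hW hrel'
  have C : ∀ {G : Cm d → ℂ} {z : Cm d}, ContDiffAt ℂ ω G z → ContinuousWithinAt G Ω z :=
    fun h => h.continuousAt.continuousWithinAt
  refine H479.div_local hΩ hf hf2 hs hs0 (fun α l z hz => C (hU α l z hz))
    (fun α z hz => hor_toR (hγ α z hz)) (fun l z hz => C (hB l z hz))
    (fun α z hz => C (hH α z hz)) (fun z hz => C (hh z hz)) hrel (fun z hz => ?_) hW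
  rw [← hrel' z hz, Finset.sum_add_distrib]

variable {d : ℕ} {X : Type} [TopologicalSpace X] [ChartedSpace (Cm d) X]
variable {ι : Type} {L : LineBundle d X ι} {α : Type*}
variable {w : Fm d X} {ρ : ι → X → ℝ} {l : Filter α} {v : α → X → ℝ} {φ : X → ℝ}
variable [IsManifold 𝓘(ℂ, Cm d) ω X] [T2Space X] [CompactSpace X]
variable {A : Type} [Fintype A] {u : A → H862.Fam d X ι} {g : H862.Fam d X ι}
  {f : ι → X → ℂ} {k m Q : ℕ}

/-- **HOR.** Horizontal forms satisfy the weak equation. -/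
theorem hor' [l.NeBot] [ConnectedSpace X] (hk : IsKahler w)
    (hρ : IsMetric L ρ) (hv : ∀ N, Smooth (d := d) (v N))
    (hW : ∀ lam : ℕ, lam ≤ Q → WLim d l (fun N x => (lam : ℝ) * v N x) fun x => (lam : ℝ) * φ x)
    (hu : ∀ a, H724.IsSec L H897.LamF 1 (u a))
    (hF1 : ∀ a, ∀ lam : ℕ, 1 ≤ lam → lam ≤ Q →
      LocEq L (fun i x => (lam : ℝ) * ρ i x) (fun x => (lam : ℝ) * φ x) (u a)
        (fun i e z => (1 - (lam : ℂ)) • dF (u a) i e z))
    (hk1 : 1 ≤ k) (hf : H450.IsSecPow L k f) (hf0 : ∃ i x, x ∈ L.U i ∧ f i x ≠ 0)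
    (hm : 1 ≤ m) (hQ : 2 * (m + k) ≤ Q) (hg : H724.IsSec L H897.LamF m g) (hz : Hz L u g) :
    LocEq L (fun i x => (m : ℝ) * ρ i x) (fun x => (m : ℝ) * φ x) g 0 :=
  hor (divLoc d (A × FI d)) hk hρ hv hW hu hF1 hk1 hf hf0 hm hQ hg hz

/-- The relation `Hz` from a relation with each member of the family -/
theorem hz_single {ι : Type} {L : LineBundle d X ι} {r : ℕ} {u : Fin r → H862.Fam d X ι}
    {g : H862.Fam d X ι} (j : Fin r)
    (h : ∀ i e x, At e x → x ∈ L.U i → ∀ I : FI d, ∃ (s : Cm d → ℂ) (C : FI d → Cm d → ℂ),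
      AnalyticAt ℂ s (e x) ∧ (∃ᶠ z in 𝓝 (e x), s z ≠ 0) ∧ (∀ K, AnalyticAt ℂ (C K) (e x)) ∧
      ∀ᶠ z in 𝓝 (e x), ∀ l, s z * (eps l *ᵥ g i e z) I = ∑ K, C K z * (eps l *ᵥ u j i e z) K) :
    Hz L u g := by
  intro i e x hx hi I
  obtain ⟨s, C, h1, h2, h3, h4⟩ := h i e x hx hi I
  refine ⟨s, fun a K z => if a = j then C K z else 0, h1, h2, fun a K => ?_, ?_⟩
  · by_cases ha : a = j
    · simp only [if_pos ha]; exact h3 K
    · simp only [if_neg ha]; exact analyticAt_const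
  · filter_upwards [h4] with z hz l
    rw [hz l, Finset.sum_eq_single j]
    · simp
    · intro b _ hb
      simp [hb]
    · intro hj
      exact absurd (Finset.mem_univ _) hj

end Vale.Agent.P301.H599
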