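import Vale.Agent.P301.H599.Hor0

/-! # P301: weak equations on open subsets of `ℂ^d`, localisation and multiplication -/

open scoped Manifold ContDiff ComplexOrder Topology Matrix ENNReal
open Vale.Agent.P272.K Vale.Agent.P272.K.C2 Vale.Agent.P299.H954 Vale.Agent.P299.IX
open Vale.Agent.P299.IX.Fock Vale.Agent.P301.H862 MeasureTheory Set Filter
open Vale.Agent.P301.H794 (integrable_test ext_smooth)

set_option linter.all false

noncomputable section

namespace Vale.Agent.P301.H599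

variable {d : ℕ}

/-- the weak equation `Σ ∂_l (f B_l) = f h` on `Ω` -/
def WkE (Ω : Set (Cm d)) (f : Cm d → ℝ) (B : Fin d → Cm d → ℂ) (h : Cm d → ℂ) : Prop :=
  ∀ ξ : Cm d → ℂ, ContDiff ℝ ∞ ξ → HasCompactSupport ξ → tsupport ξ ⊆ Ω →
    ∫ z in Ω, (f z : ℂ) * (∑ l, B l z * dz l ξ z + h z * ξ z) = 0

/-- division of weak equations -/
def DivLoc (d : ℕ) (A : Type) [Fintype A] : Prop :=
  ∀ (Ω : Set (Cm d)) (f : Cm d → ℝ) (s : Cm d → ℂ) (U : A → Fin d → Cm d → ℂ)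
    (γ H : A → Cm d → ℂ) (B : Fin d → Cm d → ℂ) (h : Cm d → ℂ), IsOpen Ω →
    (∀ K ⊆ Ω, IsCompact K → IntegrableOn f K) →
    (∀ K ⊆ Ω, IsCompact K → IntegrableOn (fun z => f z ^ 2) K) →
    (∀ z ∈ Ω, ContDiffAt ℂ ω s z) → (∀ᵐ z ∂(volume.restrict Ω), s z ≠ 0) →
    (∀ α l, ∀ z ∈ Ω, ContDiffAt ℂ ω (U α l) z) → (∀ α, ∀ z ∈ Ω, ContDiffAt ℂ ω (γ α) z) →
    (∀ α, ∀ z ∈ Ω, ContDiffAt ℂ ω (H α) z) → (∀ l, ∀ z ∈ Ω, ContDiffAt ℂ ω (B l) z) →
    (∀ z ∈ Ω, ContDiffAt ℂ ω h z) →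
    (∀ z ∈ Ω, ∀ l, s z * B l z = ∑ α, γ α z * U α l z) →
    (∀ α, WkE Ω f (U α) (H α)) →
    (∀ z ∈ Ω, ∑ α, (∑ l, U α l z * dz l (γ α) z + γ α z * H α z) =
      ∑ l, B l z * dz l s z + s z * h z) →
    WkE Ω f B h

variable {Ω Ω' O : Set (Cm d)} {f : Cm d → ℝ} {B : Fin d → Cm d → ℂ} {h : Cm d → ℂ}

lemma hor_toR {F : Cm d → ℂ} {z : Cm d} (h : ContDiffAt ℂ ω F z) : ContDiffAt ℝ ∞ F z :=
  (h.restrict_scalars ℝ).of_le (by exact_mod_cast le_top)

lemma hor_cdz {F : Cm d → ℂ} {z : Cm d} (l : Fin d) (h : ContDiffAt ℝ ∞ F z) :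
    ContinuousAt (dz l F) z :=
  (contDiffAt_dz (m := 0) l (h.of_le (by norm_cast)) (by norm_num)).continuousAt

lemma hor_adz {F : Cm d → ℂ} {z : Cm d} (m : Fin d) (hF : AnalyticAt ℂ F z) :
    AnalyticAt ℂ (dz m F) z := by
  have h1 : dz m F =ᶠ[𝓝 z] fun y => fderiv ℂ F y (Pi.single m 1) := by
    filter_upwards [hF.eventually_analyticAt] with y hy
    exact dz_of_holo hy.differentiableAt
  refine AnalyticAt.congr ?_ h1.symm
  exact (ContinuousLinearMap.apply ℂ ℂ (Pi.single m (1 : ℂ) : Cm d)).analyticAt _ |>.comp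
    hF.fderiv

/-- the integrand of a weak equation vanishes outside the support of the test function -/
lemma wk_zero {ξ : Cm d → ℂ} {z : Cm d} (hz : z ∉ tsupport ξ) :
    ∑ l, B l z * dz l ξ z + h z * ξ z = 0 := by
  have h3 : ξ =ᶠ[𝓝 z] fun _ => 0 := notMem_tsupport_iff_eventuallyEq.1 hz
  simp only [C2.dz_congr _ h3, C2.dz_const, mul_zero, Finset.sum_const_zero, h3.self_of_nhds,
    add_zero]

lemma wk_int (hO : IsOpen O) (hf : ∀ K ⊆ O, IsCompact K → IntegrableOn f K)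
    (hB : ∀ l, ContinuousOn (B l) O) (hh : ContinuousOn h O) {ξ : Cm d → ℂ}
    (h1 : ContDiff ℝ ∞ ξ) (h2 : HasCompactSupport ξ) (h3 : tsupport ξ ⊆ O) :
    IntegrableOn (fun z => (f z : ℂ) * (∑ l, B l z * dz l ξ z + h z * ξ z)) O := by
  refine integrable_test hO h2 h3 hf (fun z hz => ?_) fun z hz hzn => wk_zero hzn
  refine ContinuousWithinAt.add ?_ ((hh z hz).mul h1.continuous.continuousWithinAt)
  exact tendsto_finsetSum _ fun l _ => (hB l z hz).mul
    (hor_cdz l h1.contDiffAt).continuousWithinAt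

lemma wk_restrict (hO : IsOpen O) (hΩ : IsOpen Ω) (hΩO : Ω ⊆ O) {ξ : Cm d → ℂ}
    (h3 : tsupport ξ ⊆ Ω) : ∫ z in O, (f z : ℂ) * (∑ l, B l z * dz l ξ z + h z * ξ z) =
      ∫ z in Ω, (f z : ℂ) * (∑ l, B l z * dz l ξ z + h z * ξ z) := by
  refine setIntegral_eq_of_subset_of_forall_sdiff_eq_zero hO.measurableSet hΩO fun z hz => ?_
  rw [wk_zero fun h => hz.2 (h3 h), mul_zero]

lemma WkE.mono (hO : IsOpen O) (hΩ : IsOpen Ω) (hΩO : Ω ⊆ O) (hW : WkE O f B h) : WkE Ω f B h := by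
  intro ξ h1 h2 h3
  rw [← wk_restrict hO hΩ hΩO h3]
  exact hW ξ h1 h2 (h3.trans hΩO)

lemma WkE.congr (hO : IsOpen O) {B' : Fin d → Cm d → ℂ} {h' : Cm d → ℂ} (hW : WkE O f B h)
    (hB : ∀ z ∈ O, ∀ l, B' l z = B l z) (hh : ∀ z ∈ O, h' z = h z) : WkE O f B' h' := by
  intro ξ h1 h2 h3
  rw [← hW ξ h1 h2 h3]
  refine setIntegral_congr_fun hO.measurableSet fun z hz => ?_
  simp only [hB z hz, hh z hz]

/-- **weak equations are local** -/
theorem wk_local (hO : IsOpen O) (hf : ∀ K ⊆ O, IsCompact K → IntegrableOn f K)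
    (hB : ∀ l, ContinuousOn (B l) O) (hh : ContinuousOn h O)
    (hloc : ∀ z ∈ O, ∃ Ω : Set (Cm d), IsOpen Ω ∧ z ∈ Ω ∧ Ω ⊆ O ∧ WkE Ω f B h) : WkE O f B h := by
  intro ξ h1 h2 h3
  choose! Ω hΩ hz hΩO hW using hloc
  obtain ⟨t, ht⟩ := h2.isCompact.elim_nhds_subcover' (fun z hz' => Ω z)
    fun z hz' => (hΩ z (h3 hz')).mem_nhds (hz z (h3 hz'))
  have htc' : tsupport ξ ⊆ ⋃ i : t, Ω i.1.1 := by
    intro z hz'
    obtain ⟨i, hi, hzi⟩ := mem_iUnion₂.1 (ht hz')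
    exact mem_iUnion.2 ⟨⟨i, hi⟩, hzi⟩
  obtain ⟨χ, hχ⟩ := SmoothPartitionOfUnity.exists_isSubordinate 𝓘(ℝ, Cm d)
    (isClosed_tsupport ξ) (fun i : t => Ω i.1.1) (fun i => hΩ _ (h3 i.1.2)) htc'
  have hs : ∀ z ∈ tsupport ξ, ∑ i : t, χ i z = 1 := by
    intro z hz'
    have := χ.sum_eq_one hz'
    rwa [finsum_eq_sum_of_fintype] at this
  have hc : ∀ i : t, ContDiff ℝ ∞ fun z => (χ i z : ℂ) * ξ z := by
    intro i
    have h4 : ContDiff ℝ ∞ fun z => χ i z := (χ i).contMDiff.contDiff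
    exact (Complex.ofRealCLM.contDiff.comp h4).mul h1
  have hts : ∀ i : t, tsupport (fun z => (χ i z : ℂ) * ξ z) ⊆ tsupport ξ ∩ Ω i.1.1 := by
    intro i
    refine subset_inter ?_ ?_
    · exact tsupport_mul_subset_right (f := fun z => (χ i z : ℂ)) (g := ξ)
    · refine (tsupport_mul_subset_left (f := fun z => (χ i z : ℂ)) (g := ξ)).trans ?_
      refine (closure_mono ?_).trans (hχ i)
      intro z hz'
      rw [Function.mem_support] at hz' ⊢
      intro h0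
      exact hz' (by rw [h0]; simp)
  have hcs : ∀ i : t, HasCompactSupport fun z => (χ i z : ℂ) * ξ z := fun i =>
    h2.mul_left
  have hxi : ∀ z, ξ z = ∑ i : t, (χ i z : ℂ) * ξ z := by
    intro z
    by_cases hz' : z ∈ tsupport ξ
    · rw [← Finset.sum_mul, ← Complex.ofReal_sum, hs z hz', Complex.ofReal_one, one_mul]
    · rw [image_eq_zero_of_notMem_tsupport hz']; simp
  have hd : ∀ (l : Fin d) z, dz l ξ z = ∑ i : t, dz l (fun z => (χ i z : ℂ) * ξ z) z := by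
    intro l z
    have h4 : dz l ξ z = dz l (fun z => ∑ i : t, (χ i z : ℂ) * ξ z) z := by
      congr 1
      funext z'
      exact hxi z'
    rw [h4]
    exact C2.dz_sum l Finset.univ fun i _ => (hc i).contDiffAt.differentiableAt (by simp)
  have hsum : ∫ z in O, (f z : ℂ) * (∑ l, B l z * dz l ξ z + h z * ξ z) =
      ∫ z in O, ∑ i : t, (f z : ℂ) * (∑ l, B l z * dz l (fun z => (χ i z : ℂ) * ξ z) z +
        h z * ((χ i z : ℂ) * ξ z)) := by
    refine setIntegral_congr_fun hO.measurableSet fun z _ => ?_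
    rw [← Finset.mul_sum, Finset.sum_add_distrib, ← Finset.mul_sum, ← hxi z, Finset.sum_comm]
    congr 2
    refine Finset.sum_congr rfl fun l _ => ?_
    rw [← Finset.mul_sum, ← hd l z]
  rw [hsum, integral_finsetSum _ fun i _ =>
    wk_int hO hf hB hh (hc i) (hcs i) ((hts i).trans (inter_subset_left.trans h3))]
  refine Finset.sum_eq_zero fun i _ => ?_
  have h5 := (h3 i.1.2)
  rw [wk_restrict hO (hΩ _ h5) (hΩO _ h5) ((hts i).trans inter_subset_right)]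
  exact hW _ h5 _ (hc i) (hcs i) ((hts i).trans inter_subset_right)

/-- multiplication of a weak equation by a holomorphic function -/
theorem WkE.mul (hO : IsOpen O) (hW : WkE O f B h) {F : Cm d → ℂ}
    (hF : ∀ z ∈ O, ContDiffAt ℂ ω F z) :
    WkE O f (fun l z => F z * B l z) (fun z => ∑ l, B l z * dz l F z + F z * h z) := by
  intro ξ h1 h2 h3
  have hte := ext_smooth (Ω := O) (C := tsupport ξ) h2 h3 hO (V := fun z => F z * ξ z)
    (fun z hz => (hor_toR (hF z hz)).mul h1.contDiffAt)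
    (fun z hz hzn => by simp only [image_eq_zero_of_notMem_tsupport hzn, mul_zero])
  rw [← hW _ hte.1 hte.2.1 (hte.2.2.1.trans h3)]
  refine setIntegral_congr_fun hO.measurableSet fun z hz => ?_
  have e1 : DifferentiableAt ℝ F z := (hor_toR (hF z hz)).differentiableAt (by simp)
  have e2 : DifferentiableAt ℝ ξ z := h1.contDiffAt.differentiableAt (by simp)
  have e3 := hte.2.2.2 z hz
  simp only [C2.dz_congr _ e3, e3.self_of_nhds, dz_mul _ e1 e2]
  congr 1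
  have e4 : ∑ l, B l z * (dz l F z * ξ z + F z * dz l ξ z) =
      (∑ l, B l z * dz l F z) * ξ z + ∑ l, F z * B l z * dz l ξ z := by
    rw [Finset.sum_mul, ← Finset.sum_add_distrib]
    exact Finset.sum_congr rfl fun l _ => by ring
  rw [e4]
  ring

/-- the divergence -/
def dv (B : Fin d → Cm d → ℂ) (z : Cm d) : ℂ := ∑ l, dz l (B l) z

section alg

variable {A : Type} [Fintype A] {s F : Cm d → ℂ} {U : A → Fin d → Cm d → ℂ} {γ : A → Cm d → ℂ}

/-- the divergence of the relation `s B = Σ γ U` -/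
theorem dv_rel (hΩ : IsOpen Ω) (hs : ∀ z ∈ Ω, ContDiffAt ℂ ω s z)
    (hU : ∀ α l, ∀ z ∈ Ω, ContDiffAt ℂ ω (U α l) z) (hγ : ∀ α, ∀ z ∈ Ω, ContDiffAt ℂ ω (γ α) z)
    (hB : ∀ l, ∀ z ∈ Ω, ContDiffAt ℂ ω (B l) z)
    (hrel : ∀ z ∈ Ω, ∀ l, s z * B l z = ∑ α, γ α z * U α l z) {z : Cm d} (hz : z ∈ Ω) :
    ∑ α, ∑ l, U α l z * dz l (γ α) z = ∑ l, B l z * dz l s z + s z * dv B z -
      ∑ α, γ α z * dv (U α) z := by
  have D : ∀ {G : Cm d → ℂ}, ContDiffAt ℂ ω G z → DifferentiableAt ℝ G z := fun h =>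
    (hor_toR h).differentiableAt (by simp)
  have h1 : ∀ l, dz l (fun y => s y * B l y) z = dz l (fun y => ∑ α, γ α y * U α l y) z := by
    intro l
    refine C2.dz_congr l ?_
    filter_upwards [hΩ.mem_nhds hz] with y hy using hrel y hy l
  have h2 : ∀ l, dz l s z * B l z + s z * dz l (B l) z =
      ∑ α, (dz l (γ α) z * U α l z + γ α z * dz l (U α l) z) := by
    intro l
    have h3 := h1 l
    rw [dz_mul l (D (hs z hz)) (D (hB l z hz)), C2.dz_sum l Finset.univ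
      (F := fun α y => γ α y * U α l y) fun α _ => (D (hγ α z hz)).mul (D (hU α l z hz))] at h3
    rw [h3]
    exact Finset.sum_congr rfl fun α _ => dz_mul l (D (hγ α z hz)) (D (hU α l z hz))
  have h4 := Finset.sum_congr rfl fun l (_ : l ∈ Finset.univ) => h2 l
  rw [Finset.sum_add_distrib, Finset.sum_comm] at h4
  simp only [Finset.sum_add_distrib] at h4
  have e1 : ∑ α, ∑ l, U α l z * dz l (γ α) z = ∑ α, ∑ l, dz l (γ α) z * U α l z :=
    Finset.sum_congr rfl fun α _ => Finset.sum_congr rfl fun l _ => mul_comm _ _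
  have e2 : ∑ l, B l z * dz l s z = ∑ l, dz l s z * B l z :=
    Finset.sum_congr rfl fun l _ => mul_comm _ _
  have e3 : s z * dv B z = ∑ l, s z * dz l (B l) z := by rw [dv, Finset.mul_sum]
  have e4 : ∑ α, γ α z * dv (U α) z = ∑ α, ∑ l, γ α z * dz l (U α l) z :=
    Finset.sum_congr rfl fun α _ => by rw [dv, Finset.mul_sum]
  rw [e1, e2, e3, e4]
  linear_combination -h4

end alg

end Vale.Agent.P301.H599
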