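import Vale.Agent.P301.H599.UB
import Vale.Agent.P301.H599.Sym
import Vale.Agent.P301.H599.Avg

/-! P301, H599: the function `h`, the bounds for its iterated sums and the orbit points. -/

open scoped Manifold ContDiff ComplexOrder Topology
open Filter Metric Set MeasureTheory

set_option linter.all false

noncomputable section

namespace Vale.Agent.P301.H599

open Vale.Agent.P272.K Vale.Agent.P272.K.QN

variable {d : ℕ} {X : Type} [TopologicalSpace X] [ChartedSpace (Cm d) X]
  [IsManifold 𝓘(ℂ, Cm d) ω X] [T2Space X] [CompactSpace X] [ConnectedSpace X]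

omit [T2Space X] [CompactSpace X] [ConnectedSpace X] in
lemma FEq.add {a b a' b' : Fm d X} (h : FEq a b) (h' : FEq a' b') :
    FEq (fun e z => a e z + a' e z) (fun e z => b e z + b' e z) := fun e x hx => by
  show a e (e x) + a' e (e x) = b e (e x) + b' e (e x)
  rw [h e x hx, h' e x hx]

omit [T2Space X] [CompactSpace X] [ConnectedSpace X] in
lemma FEq.sub {a b a' b' : Fm d X} (h : FEq a b) (h' : FEq a' b') :
    FEq (fun e z => a e z - a' e z) (fun e z => b e z - b' e z) := fun e x hx => by
  show a e (e x) - a' e (e x) = b e (e x) - b' e (e x)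
  rw [h e x hx, h' e x hx]

omit [T2Space X] [CompactSpace X] [ConnectedSpace X] in
/-- `F'^* F^* = 1` -/
lemma pull_inv (F : Auto d X) {b : Fm d X} (hb : IsForm b) :
    FEq (pull F.symm (pull F b)) b := by
  have hF := F.contMDiff
  have hF' := F.symm.contMDiff
  have h1 := pull_pull hF' hF hb
  have h2 : (fun y => F (F.symm y)) = fun y : X => y := by
    funext y; exact F.apply_symm_apply y
  rw [h2] at h1
  exact h1.trans (pull_id hb)

omit [T2Space X] [CompactSpace X] [ConnectedSpace X] in
lemma ddc_comp' {F : X → X} (hF : ContMDiff 𝓘(ℂ, Cm d) 𝓘(ℂ, Cm d) ω F) {u : X → ℝ}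
    (hu : Smooth (d := d) u) :
    FEq (d := d) (pull (d := d) F (ddc u)) (ddc (d := d) (fun x => u (F x))) :=
  fun e x hx => (ddc_comp hF hu e x hx).symm

omit [T2Space X] [CompactSpace X] [ConnectedSpace X] in
/-- the second difference for the inverse -/
theorem DD_inv (F : Auto d X) {w : Fm d X} (hw : IsForm w) {h : X → ℝ}
    (hh : Smooth (d := d) h)
    (hD : FEq (pull F (DD F w)) (fun e z => DD F w e z + ddc h e z)) :
    FEq (pull F.symm (DD F.symm w)) (fun e z => DD F.symm w e z +
      ddc (fun x => -h (F.symm (F.symm (F.symm x)))) e z) := by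
  have hF := F.contMDiff
  have hG := F.symm.contMDiff
  set G : Auto d X := F.symm with hGd
  set D := DD F w with hDd
  have fD : IsForm D := isForm_DD hF hw
  have fFw := isForm_pull hF hw
  have fFFw := isForm_pull hF fFw
  -- `G^* D = G^* F^* F^* w - 2 G^* F^* w + G^* w = F^* w - 2 w + G^* w`
  have e1 : FEq (pull G D) (fun e z => pull F w e z - (2 : ℂ) • w e z + pull G w e z) := by
    rw [hDd]
    unfold DD
    rw [pull_add G (fun e z => pull F (pull F w) e z - (2 : ℂ) • pull F w e z) w,
      pull_sub G (pull F (pull F w)) (fun e z => (2 : ℂ) • pull F w e z), pull_smul]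
    intro e x hx
    show pull G (pull F (pull F w)) e (e x) - (2 : ℂ) • pull G (pull F w) e (e x) +
      pull G w e (e x) = _
    rw [pull_inv F fFw e x hx, pull_inv F hw e x hx]
  -- `G^* G^* D = DD G w`
  have e2 : FEq (pull G (pull G D)) (DD G w) := by
    refine (pull_congr G e1).trans ?_
    rw [pull_add G (fun e z => pull F w e z - (2 : ℂ) • w e z) (pull G w),
      pull_sub G (pull F w) (fun e z => (2 : ℂ) • w e z), pull_smul]
    intro e x hx
    show pull G (pull F w) e (e x) - (2 : ℂ) • pull G w e (e x) + pull G (pull G w) e (e x) =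
      pull G (pull G w) e (e x) - (2 : ℂ) • pull G w e (e x) + w e (e x)
    rw [pull_inv F hw e x hx]
    abel
  -- `G^* D = D - ddc (h ∘ G)`
  have hhG : Smooth (d := d) (fun x => h (G x)) := Smooth.comp hG hh
  have hhGG : Smooth (d := d) (fun x => h (G (G x))) := Smooth.comp hG hhG
  have hhGGG : Smooth (d := d) (fun x => h (G (G (G x)))) := Smooth.comp hG hhGG
  have e3 : FEq (pull G D) (fun e z => D e z - ddc (fun x => h (G x)) e z) := by
    have h1 := pull_congr G hD
    rw [pull_add] at h1
    intro e x hx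
    have h2 := h1 e x hx
    rw [pull_inv F fD e x hx] at h2
    have h3 := ddc_comp' hG hh e x hx
    have h4 : D e (e x) = pull G D e (e x) + pull G (ddc h) e (e x) := h2
    show pull G D e (e x) = D e (e x) - ddc (fun x => h (G x)) e (e x)
    rw [h4, h3]; abel
  have e4 : FEq (pull G (pull G D)) (fun e z => pull G D e z - ddc (fun x => h (G (G x))) e z) := by
    refine (pull_congr G e3).trans ?_
    rw [pull_sub]
    intro e x hx
    show pull G D e (e x) - pull G (ddc (fun x => h (G x))) e (e x) =
      pull G D e (e x) - ddc (fun x => h (G (G x))) e (e x)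
    rw [ddc_comp' hG hhG e x hx]
  have e5 : FEq (pull G (pull G (pull G D)))
      (fun e z => pull G (pull G D) e z - ddc (fun x => h (G (G (G x)))) e z) := by
    refine (pull_congr G e4).trans ?_
    rw [pull_sub]
    intro e x hx
    show pull G (pull G D) e (e x) - pull G (ddc (fun x => h (G (G x)))) e (e x) =
      pull G (pull G D) e (e x) - ddc (fun x => h (G (G (G x)))) e (e x)
    rw [ddc_comp' hG hhGG e x hx]
  intro e x hx
  have h6 := (pull_congr G e2).symm e x hx
  have h8 := e5 e x hx
  simp only [] at h8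
  rw [h6, h8, e2 e x hx]
  show DD G w e (e x) - ddc (fun x => h (G (G (G x)))) e (e x) =
    DD G w e (e x) + ddc (fun x => -h (G (G (G x)))) e (e x)
  have h7 : (fun x => -h (G (G (G x)))) = fun x => (-1 : ℝ) * h (G (G (G x))) := by
    funext x; ring
  rw [h7, ddc_const_mul (-1) hhGGG e x hx]
  ext i j
  simp
  ring

/-- **The data of the proof**: `h` with `F^* DD = DD + ddc h`, upper bounds for its iterated sums,
and a point of every orbit where the iterated sums are bounded below. -/
theorem exists_data (F : Auto d X) {w s : Fm d X} (hs : IsSymplectic d X w s) {h₀ : X → ℝ}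
    (hh₀ : Smooth (d := d) h₀)
    (hD₀ : FEq (pull F (DD F w)) (fun e z => DD F w e z + ddc h₀ e z)) :
    ∃ t : ℝ, (∃ C : ℝ, ∀ (k : ℕ) (x : X), S3 F (fun y => h₀ y - t) k x ≤ C * (k : ℝ) ^ 2) ∧
      FEq (pull F (DD F w)) (fun e z => DD F w e z + ddc (fun y => h₀ y - t) e z) ∧
      ∀ (k : ℕ) (x : X), ∃ i : ℕ, -1 ≤ S3 F (fun y => h₀ y - t) k (F^[i] x) := by
  have hF := F.contMDiff
  have hG := F.symm.contMDiff
  have hw := hs.kahler
  have hwF : IsForm w := hw.toIsHermitian.isForm
  have hV := isDensity_vol2 hs.form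
  have hVp : ∀ e x, At e x → 0 < vol2 s e (e x) := fun e x h => by
    unfold vol2
    exact norm_pos_iff.2 (hs.nondeg e x h)
  have hI : 0 < INT.intX (vol2 s) := INT.intX_pos hV hVp
  have hcont : ∀ {u : X → ℝ}, Smooth (d := d) u → Continuous u := fun hu =>
    INT.SmoothFn.continuous hu
  set t : ℝ := INT.intX (fun e z => h₀ (e.symm z) * vol2 s e z) / INT.intX (vol2 s) with ht
  set h : X → ℝ := fun y => h₀ y - t with hh
  have hhs : Smooth (d := d) h := hh₀.sub (Smooth.const _)
  have hc := hcont hhs
  have hint : INT.intX (fun e z => h (e.symm z) * vol2 s e z) = 0 := by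
    have h1 : INT.intX (fun e z => h (e.symm z) * vol2 s e z) =
        INT.intX (fun e z => h₀ (e.symm z) * vol2 s e z) - t * INT.intX (vol2 s) := by
      rw [← INT.intX_const_mul, ← INT.intX_sub (hV.smul (hcont hh₀)) (hV.const_mul _)]
      refine INT.intX_congr fun e x hx => ?_
      simp only [hh]
      ring
    rw [h1, ht, div_mul_cancel₀ _ hI.ne', sub_self]
  have hD : FEq (pull F (DD F w)) (fun e z => DD F w e z + ddc h e z) := by
    intro e x hx
    rw [hD₀ e x hx]
    show DD F w e (e x) + ddc h₀ e (e x) = DD F w e (e x) + ddc h e (e x)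
    rw [hh, ddc_sub hh₀ (Smooth.const t) e x hx]
    simp only []
    rw [ddc_const t e x hx, sub_zero]
  obtain ⟨C, hC⟩ := S3_upper F hw hhs hD hV hVp (fun f hf => intX_comp F hs hf) hint
  have hD' := DD_inv F hwF hhs hD
  have hhs' : Smooth (d := d) (fun x => -h (F.symm (F.symm (F.symm x)))) := by
    have h1 := Smooth.comp hG (Smooth.comp hG (Smooth.comp hG hhs))
    have h2 := h1.const_mul (-1)
    have h7 : (fun x => -h (F.symm (F.symm (F.symm x)))) =
        fun x => (-1 : ℝ) * h (F.symm (F.symm (F.symm x))) := by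
      funext x; ring
    rw [h7]; exact h2
  have hint' : INT.intX (fun e z => (-h (F.symm (F.symm (F.symm (e.symm z))))) * vol2 s e z) = 0 := by
    have hGc : Continuous F.symm := F.symm.continuous
    have h1 := intX_comp F.symm hs (f := fun x => h (F.symm (F.symm x)))
      (hc.comp (hGc.comp hGc))
    have h2 := intX_comp F.symm hs (f := fun x => h (F.symm x)) (hc.comp hGc)
    have h3 := intX_comp F.symm hs (f := h) hc
    have h4 : INT.intX (fun e z => (-h (F.symm (F.symm (F.symm (e.symm z))))) * vol2 s e z) =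
        (-1) * INT.intX (fun e z => h (F.symm (F.symm (F.symm (e.symm z)))) * vol2 s e z) := by
      rw [← INT.intX_const_mul]
      refine INT.intX_congr fun e x hx => ?_
      ring
    rw [h4]
    have h5 : INT.intX (fun e z => h (F.symm (F.symm (F.symm (e.symm z)))) * vol2 s e z) = 0 := by
      rw [h1, h2, h3, hint]
    rw [h5, mul_zero]
  obtain ⟨C', hC'⟩ := S3_upper F.symm hw hhs' hD' hV hVp (fun f hf => intX_comp F.symm hs hf) hint'
  refine ⟨t, ⟨C, hC⟩, hD, fun k x => ?_⟩
  have hb : Bdd h := by
    obtain ⟨B, hB⟩ := isCompact_univ.exists_bound_of_continuousOn hc.continuousOn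
    exact ⟨B, fun x => hB x (mem_univ x)⟩
  exact exists_orbit_point (F := F) (G := F.symm) (fun x => F.symm_apply_apply x)
    (fun x => F.apply_symm_apply x) hb hC' k x one_pos

end Vale.Agent.P301.H599
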