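import Mathlib.Topology.Semicontinuity.Basic
import Mathlib.Topology.Instances.EReal.Lemmas
import Mathlib.Topology.Order.LiminfLimsup
import Mathlib.Tactic

/-! P301, H599: upper limits `limsup g k y` for `k → ∞`, `y → x`. -/

open Filter Topology Set

set_option linter.all false

noncomputable section

namespace Vale.Agent.P301.H599

variable {Y Z : Type} [TopologicalSpace Y] [TopologicalSpace Z]

/-- the upper limit of `g k y` for `k → ∞`, `y → x` -/
def LS (g : ℕ → Y → ℝ) (x : Y) : EReal :=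
  limsup (fun p : ℕ × Y => ((g p.1 p.2 : ℝ) : EReal)) (atTop ×ˢ 𝓝 x)

variable {g g' : ℕ → Y → ℝ} {x : Y}

lemma LS_lt {t : EReal} (h : LS g x < t) : ∀ᶠ p in atTop ×ˢ 𝓝 x, ((g p.1 p.2 : ℝ) : EReal) < t :=
  eventually_lt_of_limsup_lt h

lemma LS_lt' {t : ℝ} (h : LS g x < (t : EReal)) : ∀ᶠ p in atTop ×ˢ 𝓝 x, g p.1 p.2 < t :=
  (LS_lt h).mono fun p hp => by exact_mod_cast hp

lemma LS_le {t : EReal} (h : ∀ᶠ p in atTop ×ˢ 𝓝 x, ((g p.1 p.2 : ℝ) : EReal) ≤ t) :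
    LS g x ≤ t := limsup_le_of_le (h := h)

lemma LS_le' {t : ℝ} (h : ∀ᶠ p in atTop ×ˢ 𝓝 x, g p.1 p.2 ≤ t) : LS g x ≤ (t : EReal) :=
  LS_le (h.mono fun p hp => by exact_mod_cast hp)

lemma le_LS' {t : ℝ} (h : ∃ᶠ p in atTop ×ˢ 𝓝 x, t ≤ g p.1 p.2) : (t : EReal) ≤ LS g x :=
  le_limsup_of_frequently_le' (h.mono fun p hp => by exact_mod_cast hp)

lemma usc_LS (g : ℕ → Y → ℝ) : UpperSemicontinuous (LS g) := by
  intro x t ht
  obtain ⟨t', h1, h2⟩ := exists_between ht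
  have h3 := LS_lt h1
  rw [eventually_prod_iff] at h3
  obtain ⟨P, hP, Q, hQ, h⟩ := h3
  have h4 := eventually_eventually_nhds.2 hQ
  filter_upwards [h4] with y hy
  refine lt_of_le_of_lt (LS_le ?_) h2
  filter_upwards [hP.prod_mk hy] with p hp
  exact (h hp.1 hp.2).le

/-- transport of a comparison -/
lemma LS_le_add {g : ℕ → Y → ℝ} {g' : ℕ → Z → ℝ} {x : Y} {x' : Z} (b : ℝ)
    (H : ∀ s s' : ℝ, s < s' → (∀ᶠ p in atTop ×ˢ 𝓝 x, g p.1 p.2 < s) →
      ∀ᶠ p in atTop ×ˢ 𝓝 x', g' p.1 p.2 < s' + b) : LS g' x' ≤ LS g x + (b : EReal) := by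
  rw [← EReal.le_of_forall_lt_iff_le]
  intro z hz
  have h1 : LS g x < ((z - b : ℝ) : EReal) := by
    induction hx : LS g x using EReal.rec with
    | bot => exact EReal.bot_lt_coe _
    | coe r =>
      rw [hx, ← EReal.coe_add, EReal.coe_lt_coe_iff] at hz
      rw [EReal.coe_lt_coe_iff]; linarith
    | top => rw [hx, EReal.top_add_coe] at hz; exact absurd hz not_top_lt
  obtain ⟨s, hs1, hs2⟩ := EReal.lt_iff_exists_real_btwn.1 h1
  have h2 := H s (z - b) (by exact_mod_cast hs2) (LS_lt' hs1)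
  refine LS_le' (h2.mono fun p hp => ?_)
  linarith

lemma LS_add {b : Y → ℝ} (hb : ContinuousAt b x) :
    LS (fun k y => g k y + b y) x = LS g x + (b x : EReal) := by
  have hb' : Tendsto (fun p : ℕ × Y => b p.2) (atTop ×ˢ 𝓝 x) (𝓝 (b x)) :=
    hb.tendsto.comp tendsto_snd
  apply le_antisymm
  · refine LS_le_add (b x) fun s s' hs h => ?_
    have h1 : ∀ᶠ p : ℕ × Y in atTop ×ˢ 𝓝 x, b p.2 < b x + (s' - s) :=
      hb'.eventually_lt_const (by linarith)
    filter_upwards [h, h1] with p hp hp'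
    linarith
  · have h2 : LS g x ≤ LS (fun k y => g k y + b y) x + ((-(b x) : ℝ) : EReal) := by
      refine LS_le_add (-(b x)) fun s s' hs h => ?_
      have h1 : ∀ᶠ p : ℕ × Y in atTop ×ˢ 𝓝 x, b x - (s' - s) < b p.2 :=
        hb'.eventually_const_lt (by linarith)
      filter_upwards [h, h1] with p hp hp'
      linarith
    have h3 := add_le_add_left h2 (b x : EReal)
    rw [add_assoc, ← EReal.coe_add, neg_add_cancel, EReal.coe_zero, add_zero] at h3
    exact h3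

lemma LS_congr (h : ∀ᶠ y in 𝓝 x, ∀ k, g k y = g' k y) : LS g x = LS g' x := by
  refine limsup_congr ?_
  have := (tendsto_snd (f := (atTop : Filter ℕ)) (g := 𝓝 x)).eventually h
  filter_upwards [this] with p hp
  rw [hp]

lemma LS_map {φ : Z → Y} {z : Z} (h : map φ (𝓝 z) = 𝓝 x) :
    LS g x = LS (fun k y => g k (φ y)) z := by
  unfold LS
  have h1 : (atTop : Filter ℕ) ×ˢ 𝓝 x = map (fun p : ℕ × Z => (p.1, φ p.2)) (atTop ×ˢ 𝓝 z) := by
    have := prod_map_map_eq (f₁ := (atTop : Filter ℕ)) (f₂ := 𝓝 z) (m₁ := fun k => k) (m₂ := φ)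
    rw [← this, h, map_id']
  rw [h1]
  rfl

lemma LS_shift : LS (fun k y => g (k + 1) y) x = LS g x := by
  unfold LS
  have h1 : (atTop : Filter ℕ) ×ˢ 𝓝 x =
      map (fun p : ℕ × Y => (p.1 + 1, p.2)) (atTop ×ˢ 𝓝 x) := by
    have := prod_map_map_eq (f₁ := (atTop : Filter ℕ)) (f₂ := 𝓝 x) (m₁ := fun k => k + 1)
      (m₂ := fun y => y)
    rw [← this, map_id', map_add_atTop_eq_nat 1]
  conv_rhs => rw [h1]
  rfl

end Vale.Agent.P301.H599
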