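import Vale.Agent.P301.H599.Stmt
import Vale.Agent.P301.H474.Lel

/-! P301, H599: logarithmic poles. -/

open scoped Topology
open Filter Metric Set

set_option linter.all false

noncomputable section

namespace Vale.Agent.P301.H599

open Vale.Agent.P272.K

variable {d : ℕ}

/-- `u ≤ κ log r + C` on the balls of small radius `r` -/
def PoleAt (κ : ℝ) (u : Cm d → EReal) (a : Cm d) : Prop :=
  ∃ C : ℝ, ∀ᶠ r in 𝓝[>] (0:ℝ), ∀ z ∈ ball a r, u z ≤ ((κ * Real.log r + C : ℝ) : EReal)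

lemma PoleAt.comp {κ : ℝ} (hκ : 0 < κ) {u u' : Cm d → EReal} {a a' : Cm d} {T : Cm d → Cm d}
    {M B : ℝ} (hM : 0 < M) (hT : ∀ᶠ z in 𝓝 a', ‖T z - a‖ ≤ M * ‖z - a'‖)
    (hle : ∀ᶠ z in 𝓝 a', u' z ≤ u (T z) + (B : EReal)) (h : PoleAt κ u a) : PoleAt κ u' a' := by
  obtain ⟨C, hC⟩ := h
  refine ⟨κ * Real.log M + C + B, ?_⟩
  have h1 : Tendsto (fun r : ℝ => M * r) (𝓝[>] 0) (𝓝[>] 0) := by
    rw [tendsto_nhdsWithin_iff]
    constructor
    · have : Tendsto (fun r : ℝ => M * r) (𝓝[>] 0) (𝓝 (M * 0)) :=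
        (tendsto_const_nhds.mul tendsto_id).mono_left nhdsWithin_le_nhds
      simpa using this
    · filter_upwards [self_mem_nhdsWithin] with r hr
      exact mul_pos hM hr
  obtain ⟨R, hR, hball⟩ := Metric.eventually_nhds_iff.1 (hT.and hle)
  have h2 : ∀ᶠ r in 𝓝[>] (0:ℝ), r < R := by
    have : ∀ᶠ r in 𝓝 (0:ℝ), r < R := eventually_lt_nhds hR
    exact this.filter_mono nhdsWithin_le_nhds
  filter_upwards [h1.eventually hC, h2, self_mem_nhdsWithin] with r hr hrR hr0 z hz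
  have hr0' : (0:ℝ) < r := hr0
  have hz' : dist z a' < r := hz
  obtain ⟨h3, h4⟩ := hball (hz'.trans hrR)
  have h5 : T z ∈ ball a (M * r) := by
    rw [mem_ball, dist_eq_norm]
    rw [dist_eq_norm] at hz'
    exact h3.trans_lt (mul_lt_mul_of_pos_left hz' hM)
  refine h4.trans ?_
  have h6 := add_le_add_left (hr _ h5) (B : EReal)
  refine h6.trans (le_of_eq ?_)
  rw [← EReal.coe_add, Real.log_mul hM.ne' hr0'.ne']
  congr 1
  ring

lemma PoleAt.mono {κ κ' : ℝ} (h : κ' ≤ κ) {u : Cm d → EReal} {a : Cm d} (hu : PoleAt κ u a) :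
    PoleAt κ' u a := by
  obtain ⟨C, hC⟩ := hu
  refine ⟨C, ?_⟩
  have h2 : ∀ᶠ r in 𝓝[>] (0:ℝ), r < 1 := by
    have : ∀ᶠ r in 𝓝 (0:ℝ), r < 1 := eventually_lt_nhds one_pos
    exact this.filter_mono nhdsWithin_le_nhds
  filter_upwards [hC, h2, self_mem_nhdsWithin] with r hr hr1 hr0 z hz
  refine (hr z hz).trans ?_
  rw [EReal.coe_le_coe_iff]
  have hr0' : (0:ℝ) < r := hr0
  have : Real.log r ≤ 0 := Real.log_nonpos hr0'.le hr1.le
  nlinarith

lemma PoleAt.frequently {κ κ' : ℝ} (h : κ' < κ) {u : Cm d → EReal} {a : Cm d}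
    (hu : PoleAt κ u a) :
    ∀ᶠ r in 𝓝[>] (0:ℝ), ∀ z ∈ ball a r, u z ≤ ((κ' * Real.log r : ℝ) : EReal) := by
  obtain ⟨C, hC⟩ := hu
  have h2 : ∀ᶠ r in 𝓝[>] (0:ℝ), Real.log r < -|C| / (κ - κ') :=
    Real.tendsto_log_nhdsGT_zero.eventually_lt_atBot _
  filter_upwards [hC, h2] with r hr hr1 z hz
  refine (hr z hz).trans ?_
  rw [EReal.coe_le_coe_iff]
  rw [lt_div_iff₀ (by linarith)] at hr1
  have := le_abs_self C
  nlinarith

/-- centres of poles accumulate at points where `u = ⊥` -/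
theorem eq_bot_of_frequently_pole {a : Cm d} {R : ℝ} (hR : 0 < R) {u : Cm d → EReal}
    (hu : IsPSH (ball a R) u) {C κ : ℝ} (hκ : 0 < κ) (hC : ∀ z ∈ ball a R, u z ≤ (C : EReal))
    (hf : ∃ᶠ b in 𝓝 a, PoleAt κ u b) : u a = ⊥ := by
  by_cases ha : PoleAt κ u a
  · exact H474.eq_bot_of_frequently (half_pos hκ) (ha.frequently (half_lt_self hκ)).frequently
  rw [EReal.eq_bot_iff_forall_lt]
  intro y
  -- near `a`
  have h1 : ∀ᶠ b in 𝓝 a, dist b a < R / 2 := by
    exact Metric.eventually_nhds_iff.2 ⟨R / 2, by positivity, fun _ h => h⟩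
  have h2 : ∀ᶠ b in 𝓝[≠] a, κ / 2 * Real.log (‖a - b‖ / (R / 2)) + C < y := by
    have h3 : Tendsto (fun b : Cm d => ‖a - b‖ / (R / 2)) (𝓝[≠] a) (𝓝[>] 0) := by
      rw [tendsto_nhdsWithin_iff]
      constructor
      · have : ContinuousAt (fun b : Cm d => ‖a - b‖ / (R / 2)) a := by fun_prop
        have h4 := this.tendsto
        simp only [sub_self, norm_zero, zero_div] at h4
        exact h4.mono_left nhdsWithin_le_nhds
      · filter_upwards [self_mem_nhdsWithin] with b hb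
        have : 0 < ‖a - b‖ := norm_pos_iff.2 (sub_ne_zero.2 (Ne.symm hb))
        show (0:ℝ) < _
        positivity
    have h5 := (Real.tendsto_log_nhdsGT_zero.comp h3).const_mul_atBot (half_pos hκ)
    have h6 := tendsto_atBot_add_const_right (𝓝[≠] a) C h5
    exact h6.eventually_lt_atBot y
  rw [eventually_nhdsWithin_iff] at h2
  obtain ⟨b, hb, hb1, hb2⟩ := (hf.and_eventually (h1.and h2)).exists
  have hba : b ≠ a := fun h => ha (h ▸ hb)
  have hsub : ball b (R / 2) ⊆ ball a R := by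
    refine ball_subset_ball' ?_
    linarith
  have hu' : IsPSH (ball b (R / 2)) u :=
    ⟨hu.1.mono hsub, fun z hz => hu.2.1 z (hsub hz), fun p q hpq =>
      hu.2.2 p q fun ζ hζ => hsub (hpq ζ hζ)⟩
  have key := H474.bound_of_frequently (half_pos hR) hu' (half_pos hκ)
    (fun z hz => hC z (hsub hz)) (hb.frequently (half_lt_self hκ)).frequently a
    (by rw [mem_ball, dist_comm]; exact hb1) (Ne.symm hba)
  refine lt_of_le_of_lt key ?_
  exact_mod_cast hb2 hba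

end Vale.Agent.P301.H599
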