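import Vale.Agent.P301.H599.Stmt
import Vale.Agent.P301.H599.LS
import Vale.Agent.P272.K.QN.H86.Diag
import Vale.Agent.P272.K.N.Hess

/-! P301, H599: the upper limit of almost plurisubharmonic smooth functions is plurisubharmonic. -/

open scoped Manifold ContDiff ComplexOrder Topology
open Filter Metric Set MeasureTheory

set_option linter.all false

noncomputable section

namespace Vale.Agent.P301.H599

open Vale.Agent.P272.K Vale.Agent.P272.K.QN

variable {d : ℕ}

/-- smooth sub-mean value inequality with error -/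
theorem smooth_submean {f : Cm d → ℝ} {a b : Cm d} {ε : ℝ}
    (hf : ∀ ζ : ℂ, ‖ζ‖ ≤ 1 → ContDiffAt ℝ ∞ f (a + ζ • b))
    (hH : ∀ ζ : ℂ, ‖ζ‖ ≤ 1 → (cHess f (a + ζ • b) + ((ε : ℝ) : ℂ) • 1).PosSemidef) :
    f a ≤ Real.circleAverage (fun ζ => f (a + ζ • b)) 0 1 + |ε| * (d * ‖b‖ ^ 2) := by
  have key := H86.circle_submean_dir (f := f) (p := a) (w := b) (a := |ε| * (d * ‖b‖ ^ 2))
    (fun ζ hζ => (hf ζ (by simpa using hζ)).of_le (by norm_cast))
    (fun ζ hζ => by
      have hζ' : ‖ζ‖ ≤ 1 := by simpa using hζ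
      have h2 : ContDiffAt ℝ 2 f (a + ζ • b) :=
        (hf ζ hζ').of_le (by norm_cast)
      have hd : DifferentiableAt ℝ (fderiv ℝ f) (a + ζ • b) :=
        (h2.fderiv_right (m := 1) (by norm_num)).differentiableAt (by norm_num)
      have hsym : ∀ v w, fderiv ℝ (fderiv ℝ f) (a + ζ • b) v w =
          fderiv ℝ (fderiv ℝ f) (a + ζ • b) w v := by
        have := h2.isSymmSndFDerivAt (by simp)
        intro v w; exact this.eq v w
      have h3 := (hH ζ hζ').dotProduct_mulVec_nonneg (star b)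
      rw [N.cHess_eq_lev hd, Matrix.add_mulVec, dotProduct_add, N.lev_quadratic hsym,
        Matrix.smul_mulVec, Matrix.one_mulVec, star_star, dotProduct_smul] at h3
      have h4 : b ⬝ᵥ star b = ((∑ i, ‖b i‖ ^ 2 : ℝ) : ℂ) := by
        simp only [dotProduct, Pi.star_apply]
        push_cast
        refine Finset.sum_congr rfl fun i _ => ?_
        rw [Complex.star_def, Complex.mul_conj, Complex.normSq_eq_norm_sq]
        push_cast; rfl
      rw [h4, smul_eq_mul, ← Complex.ofReal_mul, ← Complex.ofReal_add, Complex.zero_le_real] at h3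
      have h5 : (∑ i, ‖b i‖ ^ 2 : ℝ) ≤ d * ‖b‖ ^ 2 := by
        have : (∑ i, ‖b i‖ ^ 2 : ℝ) ≤ ∑ i : Fin d, ‖b‖ ^ 2 := by
          refine Finset.sum_le_sum fun i _ => ?_
          have := norm_le_pi_norm b i
          gcongr
        simpa using this
      have h6 : ε * (∑ i, ‖b i‖ ^ 2 : ℝ) ≤ |ε| * (d * ‖b‖ ^ 2) := by
        refine (mul_le_mul_of_nonneg_right (le_abs_self ε) (by positivity)).trans ?_
        exact mul_le_mul_of_nonneg_left h5 (abs_nonneg _)
      linarith)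
  have hper : Function.Periodic (fun θ : ℝ => f (a + Complex.exp (θ * Complex.I) • b))
      (2 * Real.pi) := by
    intro θ
    simp only []
    congr 3
    push_cast
    rw [add_mul, Complex.exp_add, Complex.exp_two_pi_mul_I, mul_one]
  have e1 := hper.intervalIntegral_add_eq (-Real.pi) 0
  rw [zero_add, show -Real.pi + 2 * Real.pi = Real.pi by ring] at e1
  rw [e1] at key
  rw [Real.circleAverage_def]
  have e2 : (∫ θ in (0:ℝ)..2 * Real.pi, f (a + circleMap 0 1 θ • b)) =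
      ∫ θ in (0:ℝ)..2 * Real.pi, f (a + Complex.exp (θ * Complex.I) • b) := by
    simp only [circleMap, zero_add, Complex.ofReal_one, one_mul]
  rw [e2, smul_eq_mul]
  set J := ∫ θ in (0:ℝ)..2 * Real.pi, f (a + Complex.exp (θ * Complex.I) • b)
  have hpi : 0 < 2 * Real.pi := by positivity
  have : f a ≤ (2 * Real.pi)⁻¹ * (J + 2 * Real.pi * (|ε| * (d * ‖b‖ ^ 2))) := by
    rw [inv_mul_eq_div, le_div_iff₀ hpi]
    linarith
  refine this.trans (le_of_eq ?_)
  field_simp

/-- eventually all -/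
lemma compact_eventually {α β : Type} [TopologicalSpace β] {K : Set β} (hK : IsCompact K)
    {l : Filter α} {P : α → β → Prop}
    (h : ∀ y ∈ K, ∃ t ∈ 𝓝 y, ∀ᶠ a in l, ∀ z ∈ t, P a z) : ∀ᶠ a in l, ∀ z ∈ K, P a z := by
  refine hK.induction_on (p := fun s => ∀ᶠ a in l, ∀ z ∈ s, P a z) ?_ ?_ ?_ ?_
  · simp
  · intro s t hst ht
    exact ht.mono fun a ha z hz => ha z (hst hz)
  · intro s t hs ht
    filter_upwards [hs, ht] with a ha ha' z hz
    rcases hz with hz | hz
    · exact ha z hz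
    · exact ha' z hz
  · intro y hy
    obtain ⟨t, ht, h'⟩ := h y hy
    exact ⟨t, mem_nhdsWithin_of_mem_nhds ht, h'⟩

/-- **The upper limit is plurisubharmonic.** -/
theorem isPSH_LS {Ω : Set (Cm d)} (hΩ : IsOpen Ω) {g : ℕ → Cm d → ℝ}
    (hs : ∀ k : ℕ, 1 ≤ k → ∀ z ∈ Ω, ContDiffAt ℝ ∞ (g k) z)
    (hup : ∀ z ∈ Ω, ∃ C : ℝ, ∀ᶠ p in atTop ×ˢ 𝓝 z, g p.1 p.2 ≤ C)
    (hH : ∀ K ⊆ Ω, IsCompact K → ∃ B : ℝ, ∀ k : ℕ, 1 ≤ k → ∀ z ∈ K,
      (cHess (g k) z + ((B / k : ℝ) : ℂ) • 1).PosSemidef) : IsPSH Ω (LS g) := by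
  refine ⟨(usc_LS g).upperSemicontinuousOn Ω, fun z hz => ?_, ?_⟩
  · obtain ⟨C, hC⟩ := hup z hz
    exact ne_top_of_le_ne_top (EReal.coe_ne_top C) (LS_le' hC)
  intro a b hab f hf hfm
  -- the disc and a compact neighbourhood
  set D : Set (Cm d) := (fun ζ : ℂ => a + ζ • b) '' closedBall 0 1 with hD
  have hDc : IsCompact D := (isCompact_closedBall _ _).image (by fun_prop)
  have hDΩ : D ⊆ Ω := by
    rintro _ ⟨ζ, hζ, rfl⟩
    exact hab ζ (by simpa using hζ)
  obtain ⟨r, hr, hrΩ⟩ := hDc.exists_cthickening_subset_open hΩ hDΩ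
  obtain ⟨B, hB⟩ := hH _ hrΩ hDc.cthickening
  have hmem : ∀ y : Cm d, ‖y‖ ≤ r → ∀ ζ : ℂ, ‖ζ‖ ≤ 1 → (a + y) + ζ • b ∈ cthickening r D := by
    intro y hy ζ hζ
    refine mem_cthickening_of_dist_le _ (a + ζ • b) _ _ ⟨ζ, by simpa using hζ, rfl⟩ ?_
    rw [dist_eq_norm]
    have : a + y + ζ • b - (a + ζ • b) = y := by abel
    rw [this]; exact hy
  have hfint : CircleIntegrable f 0 1 := hf.continuousOn.circleIntegrable (by norm_num)
  -- the estimate
  have main : ∀ δ : ℝ, 0 < δ → LS g a ≤ ((Real.circleAverage f 0 1 + 2 * δ : ℝ) : EReal) := by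
    intro δ hδ
    have h1 : ∀ᶠ p : ℕ × Cm d in atTop ×ˢ 𝓝 0, ∀ ζ ∈ sphere (0:ℂ) 1,
        g p.1 (a + p.2 + ζ • b) < f ζ + δ := by
      refine compact_eventually (isCompact_sphere _ _) fun ζ₀ hζ₀ => ?_
      have hz : ‖ζ₀‖ = 1 := by simpa using hζ₀
      have h2 : LS g (a + ζ₀ • b) < ((f ζ₀ + δ / 2 : ℝ) : EReal) := by
        refine lt_of_le_of_lt (hfm ζ₀ hz) ?_
        exact_mod_cast (by linarith : f ζ₀ < f ζ₀ + δ / 2)
      have h3 := LS_lt' h2
      rw [eventually_prod_iff] at h3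
      obtain ⟨P, hP, Q, hQ, h⟩ := h3
      obtain ⟨ρ, hρ, hQ'⟩ := Metric.eventually_nhds_iff.1 hQ
      refine ⟨{ζ : ℂ | ‖(ζ - ζ₀) • b‖ < ρ / 2 ∧ f ζ₀ - δ / 2 < f ζ}, ?_, ?_⟩
      · have c1 : ∀ᶠ ζ in 𝓝 ζ₀, ‖(ζ - ζ₀) • b‖ < ρ / 2 := by
          have : ContinuousAt (fun ζ : ℂ => ‖(ζ - ζ₀) • b‖) ζ₀ := by fun_prop
          have h5 := this.tendsto
          simp only [sub_self, zero_smul, norm_zero] at h5
          exact h5.eventually_lt_const (by positivity)
        have c2 : ∀ᶠ ζ in 𝓝 ζ₀, f ζ₀ - δ / 2 < f ζ :=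
          hf.continuousAt.tendsto.eventually_const_lt (by linarith)
        exact c1.and c2
      · have hb : ∀ᶠ y : Cm d in 𝓝 0, ‖y‖ < ρ / 2 := by
          have : ContinuousAt (fun y : Cm d => ‖y‖) 0 := by fun_prop
          have h5 := this.tendsto
          simp only [norm_zero] at h5
          exact h5.eventually_lt_const (by positivity)
        filter_upwards [hP.prod_mk hb] with p hp ζ hζ
        have h6 : dist (a + p.2 + ζ • b) (a + ζ₀ • b) < ρ := by
          rw [dist_eq_norm]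
          have : a + p.2 + ζ • b - (a + ζ₀ • b) = p.2 + (ζ - ζ₀) • b := by
            rw [sub_smul]; abel
          rw [this]
          exact (norm_add_le _ _).trans_lt (by linarith [hp.2, hζ.1])
        have h7 := h hp.1 (hQ' h6)
        linarith [hζ.2]
    -- averages
    have h8 : ∀ᶠ p : ℕ × Cm d in atTop ×ˢ 𝓝 0, g p.1 (a + p.2) ≤ Real.circleAverage f 0 1 +
        2 * δ := by
      have hy : ∀ᶠ y : Cm d in 𝓝 0, ‖y‖ < r := by
        have : ContinuousAt (fun y : Cm d => ‖y‖) 0 := by fun_prop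
        have h5 := this.tendsto
        simp only [norm_zero] at h5
        exact h5.eventually_lt_const hr
      have hk : ∀ᶠ k : ℕ in atTop, 1 ≤ k ∧ |B / k| * (d * ‖b‖ ^ 2) < δ := by
        refine (eventually_ge_atTop 1).and ?_
        have h9 : Tendsto (fun k : ℕ => |B / k| * (d * ‖b‖ ^ 2)) atTop (𝓝 0) := by
          have h10 : Tendsto (fun k : ℕ => B / (k : ℝ)) atTop (𝓝 0) :=
            tendsto_const_div_atTop_nhds_zero_nat B
          have := (h10.abs).mul_const (d * ‖b‖ ^ 2)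
          simpa using this
        exact h9.eventually_lt_const hδ
      filter_upwards [h1, hk.prod_mk hy] with p hp hp'
      obtain ⟨⟨hk1, hk2⟩, hyr⟩ := hp'
      have h11 : ∀ ζ : ℂ, ‖ζ‖ ≤ 1 → (a + p.2) + ζ • b ∈ Ω := fun ζ hζ =>
        hrΩ (hmem p.2 hyr.le ζ hζ)
      have h12 := smooth_submean (f := g p.1) (a := a + p.2) (b := b) (ε := B / p.1)
        (fun ζ hζ => hs p.1 hk1 _ (h11 ζ hζ))
        (fun ζ hζ => hB p.1 hk1 _ (hmem p.2 hyr.le ζ hζ))
      have hgi : CircleIntegrable (fun ζ => g p.1 (a + p.2 + ζ • b)) 0 1 := by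
        apply ContinuousOn.circleIntegrable (by norm_num)
        intro ζ hζ
        have hζ1 : ‖ζ‖ ≤ 1 := by
          have : ‖ζ‖ = 1 := by simpa using hζ
          exact this.le
        have c1 : ContinuousAt (g p.1) (a + p.2 + ζ • b) :=
          (hs p.1 hk1 _ (h11 ζ hζ1)).continuousAt
        have c2 : ContinuousAt (fun ζ : ℂ => a + p.2 + ζ • b) ζ := by fun_prop
        exact (ContinuousAt.comp (f := fun ζ : ℂ => a + p.2 + ζ • b) c1 c2).continuousWithinAt
      have h13 : Real.circleAverage (fun ζ => g p.1 (a + p.2 + ζ • b)) 0 1 ≤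
          Real.circleAverage (fun ζ => f ζ + δ) 0 1 := by
        apply Real.circleAverage_mono hgi (hfint.add (circleIntegrable_const _ _ _))
        intro ζ hζ
        rw [abs_one] at hζ
        exact (hp ζ hζ).le
      have h14 : Real.circleAverage (fun ζ => f ζ + δ) 0 1 = Real.circleAverage f 0 1 + δ := by
        rw [Real.circleAverage_fun_add hfint (circleIntegrable_const _ _ _),
          Real.circleAverage_const]
      linarith
    refine LS_le' ?_
    have h15 : map (fun y : Cm d => a + y) (𝓝 0) = 𝓝 a := by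
      simpa using (Homeomorph.addLeft a).map_nhds_eq 0
    have h16 : (atTop : Filter ℕ) ×ˢ 𝓝 a =
        map (fun p : ℕ × Cm d => (p.1, a + p.2)) (atTop ×ˢ 𝓝 0) := by
      have := prod_map_map_eq (f₁ := (atTop : Filter ℕ)) (f₂ := 𝓝 (0 : Cm d)) (m₁ := fun k => k)
        (m₂ := fun y => a + y)
      rw [← this, h15, map_id']
    rw [h16, eventually_map]
    exact h8
  rw [← EReal.le_of_forall_lt_iff_le]
  intro z hz
  have hz' : Real.circleAverage f 0 1 < z := by exact_mod_cast hz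
  have := main ((z - Real.circleAverage f 0 1) / 2) (by linarith)
  refine this.trans (le_of_eq ?_)
  congr 1; ring

end Vale.Agent.P301.H599
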