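import Vale.Agent.P301.H599.Stmt
import Vale.Agent.P272.K.Inv.Chart
import Vale.Agent.P272.K.Inv.Compact

/-! P301, H599: pullbacks of `(1,1)`-forms under holomorphic maps. -/

open scoped Manifold ContDiff ComplexOrder Topology
open Filter Metric Set

set_option linter.all false

noncomputable section

namespace Vale.Agent.P301.H599

open Vale.Agent.P272.K

variable {d : ℕ} {X : Type} [TopologicalSpace X] [ChartedSpace (Cm d) X]

/-- forms (coefficient matrices) -/
abbrev Fm (d : ℕ) (X : Type) [TopologicalSpace X] : Type :=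
  Chart d X → Cm d → Matrix (Fin d) (Fin d) ℂ

/-- equality of forms -/
def FEq (a b : Fm d X) : Prop := ∀ e x, At e x → a e (e x) = b e (e x)

lemma FEq.refl (a : Fm d X) : FEq a a := fun _ _ _ => rfl
lemma FEq.symm {a b : Fm d X} (h : FEq a b) : FEq b a := fun e x hx => (h e x hx).symm
lemma FEq.trans {a b c : Fm d X} (h : FEq a b) (h' : FEq b c) : FEq a c := fun e x hx =>
  (h e x hx).trans (h' e x hx)

lemma atChart (x : X) : At (chartAt (Cm d) x) x := ⟨chart_mem_atlas _ x, mem_chart_source _ x⟩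

lemma FEq.eventually {a b : Fm d X} (h : FEq a b) {e : Chart d X} {x : X} (hx : At e x) :
    a e =ᶠ[𝓝 (e x)] b e := by
  filter_upwards [hx.nhds_target] with z hz
  have := h e (e.symm z) (At.of_target hx.1 hz)
  rwa [e.right_inv hz] at this

variable [IsManifold 𝓘(ℂ, Cm d) ω X]

section maps
variable {F G : X → X}

lemma map_holo (hF : ContMDiff 𝓘(ℂ, Cm d) 𝓘(ℂ, Cm d) ω F) {e e' : Chart d X} {x : X}
    (h : At e x) (h' : At e' (F x)) : ContDiffAt ℂ ω (fun z => e' (F (e.symm z))) (e x) := by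
  rw [← contMDiffAt_iff_contDiffAt]
  have h1 := chart_symm_contMDiffAt h.1 h.mem_target
  have h2 : ContMDiffAt 𝓘(ℂ, Cm d) 𝓘(ℂ, Cm d) ω F (e.symm (e x)) := hF.contMDiffAt
  have h3 : ContMDiffAt 𝓘(ℂ, Cm d) 𝓘(ℂ, Cm d) ω (fun z => F (e.symm z)) (e x) :=
    ContMDiffAt.comp (e x) (g := F) h2 h1
  refine ContMDiffAt.comp (e x) (g := e') ?_ h3
  rw [h.left_inv]
  exact chart_contMDiffAt h'

lemma map_near (hF : Continuous F) {e e' : Chart d X} {x : X}
    (h : At e x) (h' : At e' (F x)) : ∀ᶠ z in 𝓝 (e x), z ∈ e.target ∧ At e (e.symm z) ∧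
      At e' (F (e.symm z)) := by
  have h1 : ContinuousAt (fun z => F (e.symm z)) (e x) :=
    hF.continuousAt.comp (e.continuousAt_symm h.mem_target)
  have h2 : ∀ᶠ z in 𝓝 (e x), F (e.symm z) ∈ e'.source := by
    apply h1.eventually
    show ∀ᶠ y in 𝓝 (F (e.symm (e x))), y ∈ e'.source
    rw [h.left_inv]
    exact e'.open_source.mem_nhds h'.2
  filter_upwards [h.nhds_target, h2] with z hz hz'
  exact ⟨hz, At.of_target h.1 hz, ⟨h'.1, hz'⟩⟩

lemma jacF_eq (F : X → X) (e e' : Chart d X) (z : Cm d) :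
    jacF F e e' z = jmat (fun y => e' (F (e.symm y))) z := rfl

lemma jacF_change (hF : ContMDiff 𝓘(ℂ, Cm d) 𝓘(ℂ, Cm d) ω F) {e e' e'' : Chart d X} {x : X}
    (h : At e x) (h' : At e' (F x)) (h'' : At e'' (F x)) :
    jacF F e e'' (e x) = jacM e' e'' (F x) * jacF F e e' (e x) := by
  rw [jacF_eq, jacF_eq, jacM_eq]
  have h1 : (fun z => e'' (F (e.symm z))) =ᶠ[𝓝 (e x)]
      fun z => e'' (e'.symm (e' (F (e.symm z)))) := by
    filter_upwards [map_near hF.continuous h h'] with z hz
    rw [hz.2.2.left_inv]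
  rw [jmat_congr h1]
  have h2 : e' (F (e.symm (e x))) = e' (F x) := by rw [h.left_inv]
  have := jmat_comp (τ := fun z => e' (F (e.symm z))) (σ := fun z => e'' (e'.symm z)) (z := e x)
    (by rw [h2]; exact transition_differentiableAt h' h'')
    ((map_holo hF h h').differentiableAt (by simp))
  rw [this, h2]

lemma jacF_source (hF : ContMDiff 𝓘(ℂ, Cm d) 𝓘(ℂ, Cm d) ω F) {e e' e'' : Chart d X} {x : X}
    (h : At e x) (h' : At e' x) (h'' : At e'' (F x)) :
    jacF F e e'' (e x) = jacF F e' e'' (e' x) * jacM e e' x := by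
  rw [jacF_eq, jacF_eq, jacM_eq]
  have h1 : (fun z => e'' (F (e.symm z))) =ᶠ[𝓝 (e x)]
      fun z => e'' (F (e'.symm (e' (e.symm z)))) := by
    filter_upwards [h.nhds_at h'] with z hz
    rw [hz.2.2.left_inv]
  rw [jmat_congr h1]
  have h2 : e' (e.symm (e x)) = e' x := by rw [h.left_inv]
  have := jmat_comp (τ := fun z => e' (e.symm z)) (σ := fun z => e'' (F (e'.symm z))) (z := e x)
    (by rw [h2]; exact (map_holo hF h' h'').differentiableAt (by simp))
    (transition_differentiableAt h h')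
  rw [this, h2]

lemma jacF_comp (hF : ContMDiff 𝓘(ℂ, Cm d) 𝓘(ℂ, Cm d) ω F)
    (hG : ContMDiff 𝓘(ℂ, Cm d) 𝓘(ℂ, Cm d) ω G) {e e' e'' : Chart d X} {x : X}
    (h : At e x) (h' : At e' (F x)) (h'' : At e'' (G (F x))) :
    jacF (fun y => G (F y)) e e'' (e x) = jacF G e' e'' (e' (F x)) * jacF F e e' (e x) := by
  rw [jacF_eq, jacF_eq, jacF_eq]
  have h1 : (fun z => e'' (G (F (e.symm z)))) =ᶠ[𝓝 (e x)]
      fun z => e'' (G (e'.symm (e' (F (e.symm z))))) := by
    filter_upwards [map_near hF.continuous h h'] with z hz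
    rw [hz.2.2.left_inv]
  rw [jmat_congr h1]
  have h2 : e' (F (e.symm (e x))) = e' (F x) := by rw [h.left_inv]
  have := jmat_comp (τ := fun z => e' (F (e.symm z))) (σ := fun z => e'' (G (e'.symm z)))
    (z := e x) (by rw [h2]; exact (map_holo hG h' h'').differentiableAt (by simp))
    ((map_holo hF h h').differentiableAt (by simp))
  rw [this, h2]

lemma jacF_id {e : Chart d X} {x : X} (h : At e x) : jacF (fun y : X => y) e e (e x) = 1 :=
  jacM_self h

/-- the pullback may be computed in any chart of the target -/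
lemma pull_eq (hF : ContMDiff 𝓘(ℂ, Cm d) 𝓘(ℂ, Cm d) ω F) {b : Fm d X} (hb : IsForm b)
    {e e' : Chart d X} {x : X} (h : At e x) (h' : At e' (F x)) :
    pull F b e (e x) = (jacF F e e' (e x)).transpose * b e' (e' (F x)) *
      (jacF F e e' (e x)).map (starRingEnd ℂ) := by
  have h0 : e.symm (e x) = x := h.left_inv
  unfold pull
  simp only [h0]
  have hc := atChart (d := d) (F x)
  rw [jacF_change hF h h' hc, hb e' _ (F x) h' hc]
  simp only [Matrix.transpose_mul, Matrix.map_mul, Matrix.mul_assoc]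

lemma isForm_pull (hF : ContMDiff 𝓘(ℂ, Cm d) 𝓘(ℂ, Cm d) ω F) {b : Fm d X} (hb : IsForm b) :
    IsForm (pull F b) := by
  intro e e' x h h'
  have hc := atChart (d := d) (F x)
  rw [pull_eq hF hb h hc, pull_eq hF hb h' hc, jacF_source hF h h' hc]
  simp only [Matrix.transpose_mul, Matrix.map_mul, Matrix.mul_assoc]

lemma pull_congr (F : X → X) {a b : Fm d X} (h : FEq a b) : FEq (pull F a) (pull F b) := by
  intro e x hx
  unfold pull
  simp only []
  rw [h _ _ (atChart _)]

lemma pull_add (F : X → X) (a b : Fm d X) :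
    pull F (fun e z => a e z + b e z) = fun e z => pull F a e z + pull F b e z := by
  funext e z
  simp only [pull, Matrix.mul_add, Matrix.add_mul]

lemma pull_sub (F : X → X) (a b : Fm d X) :
    pull F (fun e z => a e z - b e z) = fun e z => pull F a e z - pull F b e z := by
  funext e z
  simp only [pull, Matrix.mul_sub, Matrix.sub_mul]

lemma pull_smul (F : X → X) (c : ℂ) (a : Fm d X) :
    pull F (fun e z => c • a e z) = fun e z => c • pull F a e z := by
  funext e z
  simp only [pull, Matrix.mul_smul, Matrix.smul_mul]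

/-- functoriality -/
lemma pull_pull (hF : ContMDiff 𝓘(ℂ, Cm d) 𝓘(ℂ, Cm d) ω F)
    (hG : ContMDiff 𝓘(ℂ, Cm d) 𝓘(ℂ, Cm d) ω G) {b : Fm d X} (hb : IsForm b) :
    FEq (pull F (pull G b)) (pull (fun y => G (F y)) b) := by
  intro e x h
  have hc := atChart (d := d) (F x)
  have hc' := atChart (d := d) (G (F x))
  have h9 := pull_eq (F := fun y => G (F y)) (hG.comp hF) hb h hc'
  rw [pull_eq hF (isForm_pull hG hb) h hc, pull_eq hG hb hc hc', h9,
    jacF_comp hF hG h hc hc']
  simp only [Matrix.transpose_mul, Matrix.map_mul, Matrix.mul_assoc]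

lemma pull_id {b : Fm d X} (hb : IsForm b) : FEq (pull (fun y => y) b) b := by
  intro e x h
  have h1 := pull_eq (F := fun y : X => y) contMDiff_id hb h h
  rw [h1, jacF_id h]
  simp

lemma pull_posSemidef (F : X → X) {b : Fm d X} (hb : ∀ e x, At e x → (b e (e x)).PosSemidef)
    {e : Chart d X} {z : Cm d} : (pull F b e z).PosSemidef := by
  unfold pull
  simp only []
  have h1 := hb _ _ (atChart (d := d) (F (e.symm z)))
  have h2 := h1.conjTranspose_mul_mul_same
    ((jacF F e (chartAt (Cm d) (F (e.symm z))) z).map (starRingEnd ℂ))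
  convert h2 using 2
  congr 1
  ext i j
  simp [Matrix.conjTranspose_apply, Matrix.map_apply]

lemma Smooth.comp (hF : ContMDiff 𝓘(ℂ, Cm d) 𝓘(ℂ, Cm d) ω F) {u : X → ℝ}
    (hu : Smooth (d := d) u) : Smooth (d := d) (fun x => u (F x)) := by
  intro e x h
  have hc := atChart (d := d) (F x)
  have h1 : (fun z => u (F (e.symm z))) =ᶠ[𝓝 (e x)]
      fun z => u ((chartAt (Cm d) (F x)).symm (chartAt (Cm d) (F x) (F (e.symm z)))) := by
    filter_upwards [map_near hF.continuous h hc] with z hz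
    rw [hz.2.2.left_inv]
  refine ContDiffAt.congr_of_eventuallyEq ?_ h1
  have h2 : ContDiffAt ℝ ∞ (fun z => chartAt (Cm d) (F x) (F (e.symm z))) (e x) :=
    ((map_holo hF h hc).restrict_scalars ℝ).of_le (by exact le_top)
  refine ContDiffAt.comp (e x) (g := fun y => u ((chartAt (Cm d) (F x)).symm y)) ?_ h2
  rw [h.left_inv]
  exact hu _ _ hc

lemma isForm_ddc' {u : X → ℝ} (hu : ∀ (e : Chart d X) (x : X), At e x →
    ContDiffAt ℝ 2 (fun z => u (e.symm z)) (e x)) : IsForm (ddc (d := d) u) := isForm_cHess hu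

lemma Smooth.two {u : X → ℝ} (hu : Smooth (d := d) u) (e : Chart d X) (x : X) (h : At e x) :
    ContDiffAt ℝ 2 (fun z => u (e.symm z)) (e x) := (hu e x h).of_le (by norm_cast)

/-- `i∂∂̄(u ∘ F) = F^* (i∂∂̄u)` -/
lemma ddc_comp (hF : ContMDiff 𝓘(ℂ, Cm d) 𝓘(ℂ, Cm d) ω F) {u : X → ℝ}
    (hu : Smooth (d := d) u) : FEq (d := d) (ddc fun x => u (F x)) (pull F (ddc u)) := by
  intro e x h
  have hc := atChart (d := d) (F x)
  rw [pull_eq hF (isForm_ddc' fun e x h => hu.two e x h) h hc]
  have h1 : (fun z => u (F (e.symm z))) =ᶠ[𝓝 (e x)]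
      fun z => u ((chartAt (Cm d) (F x)).symm (chartAt (Cm d) (F x) (F (e.symm z)))) := by
    filter_upwards [map_near hF.continuous h hc] with z hz
    rw [hz.2.2.left_inv]
  unfold ddc
  rw [cHess_congr h1]
  have h2 : chartAt (Cm d) (F x) (F (e.symm (e x))) = chartAt (Cm d) (F x) (F x) := by
    rw [h.left_inv]
  have := cHess_comp (τ := fun z => chartAt (Cm d) (F x) (F (e.symm z)))
    (f := fun y => u ((chartAt (Cm d) (F x)).symm y)) (z := e x)
    (by rw [h2]; exact hu.two _ _ hc) (map_holo hF h hc)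
  rw [h2] at this
  exact this

end maps

section algebra
variable {u v : X → ℝ}

omit [IsManifold 𝓘(ℂ, Cm d) ω X]

lemma Smooth.add (hu : Smooth (d := d) u) (hv : Smooth (d := d) v) :
    Smooth (d := d) (fun x => u x + v x) := fun e x h => (hu e x h).add (hv e x h)

lemma Smooth.sub (hu : Smooth (d := d) u) (hv : Smooth (d := d) v) :
    Smooth (d := d) (fun x => u x - v x) := fun e x h => (hu e x h).sub (hv e x h)

lemma Smooth.const_mul (c : ℝ) (hu : Smooth (d := d) u) :
    Smooth (d := d) (fun x => c * u x) := fun e x h => contDiffAt_const.mul (hu e x h)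

lemma Smooth.const (c : ℝ) : Smooth (d := d) (fun _ : X => c) := fun e x h => contDiffAt_const

lemma Smooth.neg (hu : Smooth (d := d) u) : Smooth (d := d) (fun x => -u x) :=
  fun e x h => (hu e x h).neg

lemma Smooth.sum {ι : Type*} (s : Finset ι) {u : ι → X → ℝ}
    (hu : ∀ i ∈ s, Smooth (d := d) (u i)) : Smooth (d := d) (fun x => ∑ i ∈ s, u i x) :=
  fun e x h => ContDiffAt.sum fun i hi => hu i hi e x h

lemma ddc_add (hu : Smooth (d := d) u) (hv : Smooth (d := d) v) :
    FEq (d := d) (ddc fun x => u x + v x) (fun e z => ddc u e z + ddc v e z) := fun e x h =>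
  cHess_add ((hu e x h).of_le (by norm_cast)) ((hv e x h).of_le (by norm_cast))

lemma ddc_sub (hu : Smooth (d := d) u) (hv : Smooth (d := d) v) :
    FEq (d := d) (ddc fun x => u x - v x) (fun e z => ddc u e z - ddc v e z) := fun e x h =>
  cHess_sub ((hu e x h).of_le (by norm_cast)) ((hv e x h).of_le (by norm_cast))

lemma ddc_const_mul (c : ℝ) (hu : Smooth (d := d) u) :
    FEq (d := d) (ddc fun x => c * u x) (fun e z => (c : ℂ) • ddc u e z) := fun e x h =>
  cHess_const_mul c ((hu e x h).of_le (by norm_cast))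

lemma ddc_const (c : ℝ) : FEq (d := d) (ddc fun _ : X => c) (fun e z => (0 : Matrix (Fin d) (Fin d) ℂ)) := by
  intro e x h
  ext j k
  show dz j (dzb k fun y => ((c : ℝ) : ℂ)) (e x) = 0
  have : (dzb k fun y : Cm d => ((c : ℝ) : ℂ)) = fun _ => 0 := by
    funext y; exact dzb_const _
  rw [this]
  exact dz_const _

end algebra

end Vale.Agent.P301.H599
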