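import Vale.Agent.P301.H599.Vol
import Vale.Agent.P301.H599.Iter
import Vale.Agent.P272.K.QN.H86.SubMean
import Vale.Agent.P272.K.QN.H947.Prop

/-! P301, H599: the upper bound for quasi-plurisubharmonic functions of mean zero. -/

open scoped Manifold ContDiff ComplexOrder Topology
open Filter Metric Set MeasureTheory

set_option linter.all false

noncomputable section

namespace Vale.Agent.P301.H599

open Vale.Agent.P272.K Vale.Agent.P272.K.QN

variable {d : ℕ} {X : Type} [TopologicalSpace X] [ChartedSpace (Cm d) X]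
  [IsManifold 𝓘(ℂ, Cm d) ω X]
  {w : Chart d X → Cm d → Matrix (Fin d) (Fin d) ℂ} {A : ℝ}

lemma exists_ball_int [CompactSpace X] [PreconnectedSpace X]
    (hw : IsHermitian w) (hA : 0 ≤ A) (C : ℝ) {e : Chart d X}
    (he : e ∈ atlas (Cm d) X) {c : Cm d} {R : ℝ} (hR : 0 < R)
    (hc : closedBall c (4 * R) ⊆ e.target) :
    ∃ M : ℝ, 0 ≤ M ∧ ∀ u : X → ℝ, QPsh w A u → (∃ p, -C ≤ u p) →
      ∫ z in ball c (2 * R), -u (e.symm z) ≤ M := by
  obtain ⟨A', hA', hloc⟩ := exists_loc hw hA he hc
  have hcR : ball c R ⊆ e.target := (ball_subset_closedBall.trans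
    (closedBall_subset_closedBall (by linarith))).trans hc
  have hUo : IsOpen (e.source ∩ e ⁻¹' ball c R) := e.isOpen_inter_preimage isOpen_ball
  have hUn : (e.source ∩ e ⁻¹' ball c R).Nonempty := by
    refine ⟨e.symm c, e.map_target (hcR (mem_ball_self hR)), ?_⟩
    show e (e.symm c) ∈ ball c R
    rw [e.right_inv (hcR (mem_ball_self hR))]
    exact mem_ball_self hR
  obtain ⟨M, hM⟩ := exists_lower_point (subMean d) hw hA hUo hUn C
  refine ⟨_, locK_nonneg (n := d) (R := R) (M := M) hA', fun u hu hp => ?_⟩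
  obtain ⟨q, hq, hq'⟩ := hM u hu hp
  have hyc : e q ∈ closedBall c R := ball_subset_closedBall hq.2
  have hyM' : -M ≤ (fun z => u (e.symm z)) (e q) := by
    show -M ≤ u (e.symm (e q))
    rwa [e.left_inv hq.1]
  exact (hloc u hu).integral_le (subMean d) hR hA' hyc hyM'

/-- the integral of `-u D` over the support of a cutoff function in a chart -/
lemma exists_chart_int [CompactSpace X] [PreconnectedSpace X] [T2Space X]
    (hw : IsHermitian w) (hA : 0 ≤ A) (C : ℝ) {D : Chart d X → Cm d → ℝ}
    (hD : INT.IsDensity D) (hD0 : ∀ e x, At e x → 0 ≤ D e (e x)) {e : Chart d X}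
    (he : e ∈ atlas (Cm d) X) {χ : X → ℝ} (hχ : Continuous χ) (hs : tsupport χ ⊆ e.source)
    (h0 : ∀ x, 0 ≤ χ x) (h1 : ∀ x, χ x ≤ 1) :
    ∃ M : ℝ, ∀ u : X → ℝ, QPsh w A u → (∃ p, -C ≤ u p) →
      -M ≤ ∫ z in e.target, χ (e.symm z) * (u (e.symm z) * D e z) := by
  classical
  set K : Set (Cm d) := e '' tsupport χ with hK
  have hKc : IsCompact K :=
    (isClosed_tsupport χ).isCompact.image_of_continuousOn (e.continuousOn.mono hs)
  have hKt : K ⊆ e.target := by
    rintro _ ⟨x, hx, rfl⟩; exact e.map_source (hs hx)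
  have hball : ∀ z : Cm d, ∃ R : ℝ, 0 < R ∧ (z ∈ K → closedBall z (4 * R) ⊆ e.target) := by
    intro z
    by_cases hz : z ∈ K
    · obtain ⟨R, hR, h⟩ := Metric.nhds_basis_closedBall.mem_iff.1 (e.open_target.mem_nhds (hKt hz))
      exact ⟨R / 4, by positivity, fun _ => by rwa [mul_div_cancel₀ R (by norm_num)]⟩
    · exact ⟨1, one_pos, fun h => absurd h hz⟩
  choose R hR hRt using hball
  have hcov : ∀ z ∈ K, ball z (2 * R z) ∈ 𝓝 z := fun z _ =>
    ball_mem_nhds z (by have := hR z; positivity)
  obtain ⟨t, htK, ht⟩ := hKc.elim_nhds_subcover (fun z => ball z (2 * R z)) hcov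
  have hM : ∀ z : Cm d, ∃ M : ℝ, 0 ≤ M ∧ (z ∈ K → ∀ u : X → ℝ, QPsh w A u → (∃ p, -C ≤ u p) →
      ∫ y in ball z (2 * R z), -u (e.symm y) ≤ M) := by
    intro z
    by_cases hz : z ∈ K
    · obtain ⟨M, hM0, hM⟩ := exists_ball_int hw hA C he (hR z) (hRt z hz)
      exact ⟨M, hM0, fun _ => hM⟩
    · exact ⟨0, le_rfl, fun h => absurd h hz⟩
  choose M hM0 hM using hM
  obtain ⟨B, hB⟩ := hKc.exists_bound_of_continuousOn ((hD.continuousOn he).mono hKt)
  refine ⟨|B| * ∑ z ∈ t, M z, fun u hu hp => ?_⟩
  have hucont : Continuous u := INT.SmoothFn.continuous hu.smooth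
  set g : Cm d → ℝ := fun z => χ (e.symm z) * (-u (e.symm z) * D e z) with hg
  have hgint : IntegrableOn g e.target := by
    have h2 := INT.integrableOn_dens (D := fun e z => -u (e.symm z) * D e z)
      (hD.smul (f := fun x => -u x) hucont.neg) he hχ hs
    exact h2
  have hDn : ∀ z ∈ e.target, 0 ≤ D e z := by
    intro z hz
    have := hD0 e (e.symm z) (At.of_target he hz)
    rwa [e.right_inv hz] at this
  have hg0 : ∀ z ∈ e.target, 0 ≤ g z := fun z hz =>
    mul_nonneg (h0 _) (mul_nonneg (neg_nonneg.2 (hu.nonpos _)) (hDn z hz))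
  -- `∫ g ≤ ∑ ∫_{ball} g`
  have hsub : ∫ z in e.target, g z ≤ ∑ z ∈ t, ∫ y in ball z (2 * R z), g y := by
    have hbt : ∀ z ∈ t, ball z (2 * R z) ⊆ e.target := fun z hz =>
      ((ball_subset_closedBall.trans (closedBall_subset_closedBall
        (by have := hR z; linarith))).trans (hRt z (htK z hz)))
    have e1 : ∫ z in e.target, g z = ∫ z in ⋃ z ∈ t, ball z (2 * R z), g z := by
      have hsub' : (⋃ z ∈ t, ball z (2 * R z)) ⊆ e.target := iUnion₂_subset hbt
      refine setIntegral_eq_of_subset_of_forall_sdiff_eq_zero e.open_target.measurableSet hsub' ?_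
      intro z hz
      have hzK : z ∉ K := fun h => hz.2 (ht h)
      have : e.symm z ∉ tsupport χ := fun h => hzK ⟨_, h, e.right_inv hz.1⟩
      simp only [hg]
      rw [image_eq_zero_of_notMem_tsupport this, zero_mul]
    rw [e1]
    have hind : ∀ s : Finset (Cm d), (∀ z ∈ s, ball z (2 * R z) ⊆ e.target) →
        ∫ z in ⋃ z ∈ s, ball z (2 * R z), g z ≤ ∑ z ∈ s, ∫ y in ball z (2 * R z), g y := by
      intro s
      induction s using Finset.induction_on with
      | empty => intro _; simp
      | insert a s ha ih =>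
        intro hs'
        rw [Finset.set_biUnion_insert, Finset.sum_insert ha]
        have ia : IntegrableOn g (ball a (2 * R a)) :=
          hgint.mono_set (hs' a (Finset.mem_insert_self a s))
        have hs'' : ∀ z ∈ s, ball z (2 * R z) ⊆ e.target := fun z hz =>
          hs' z (Finset.mem_insert_of_mem hz)
        have is : IntegrableOn g (⋃ z ∈ s, ball z (2 * R z)) :=
          hgint.mono_set (iUnion₂_subset hs'')
        have hms : MeasurableSet (⋃ z ∈ s, ball z (2 * R z)) :=
          Finset.measurableSet_biUnion _ fun z _ => measurableSet_ball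
        have h3 : ∫ z in ball a (2 * R a) ∪ ⋃ z ∈ s, ball z (2 * R z), g z ≤
            (∫ z in ball a (2 * R a), g z) + ∫ z in ⋃ z ∈ s, ball z (2 * R z), g z := by
          have h4 : ball a (2 * R a) ∪ (⋃ z ∈ s, ball z (2 * R z)) =
              ball a (2 * R a) ∪ ((⋃ z ∈ s, ball z (2 * R z)) \ ball a (2 * R a)) := by
            rw [union_sdiff_self]
          rw [h4, setIntegral_union disjoint_sdiff_right (hms.diff measurableSet_ball) ia
            (is.mono_set diff_subset)]
          refine add_le_add le_rfl ?_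
          refine setIntegral_mono_set is ?_ diff_subset.eventuallyLE
          filter_upwards [self_mem_ae_restrict hms] with z hz
          simp only [mem_iUnion] at hz
          obtain ⟨y, hy, hzy⟩ := hz
          exact hg0 z (hs'' y hy hzy)
        have := ih hs''
        linarith
    exact hind t hbt
  have hball' : ∀ z ∈ t, ∫ y in ball z (2 * R z), g y ≤ |B| * M z := by
    intro z hz
    have hbt : closedBall z (2 * R z) ⊆ e.target :=
      (closedBall_subset_closedBall (by have := hR z; linarith)).trans (hRt z (htK z hz))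
    have i1 : IntegrableOn g (ball z (2 * R z)) :=
      hgint.mono_set (ball_subset_closedBall.trans hbt)
    have i2 : IntegrableOn (fun y => |B| * -u (e.symm y)) (ball z (2 * R z)) := by
      refine IntegrableOn.mono_set ?_ ball_subset_closedBall
      refine ContinuousOn.integrableOn_compact (isCompact_closedBall _ _) ?_
      exact continuousOn_const.mul (hucont.neg.comp_continuousOn
        (e.continuousOn_symm.mono hbt))
    calc ∫ y in ball z (2 * R z), g y ≤ ∫ y in ball z (2 * R z), |B| * -u (e.symm y) := by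
          refine setIntegral_mono_on i1 i2 measurableSet_ball fun y hy => ?_
          have hyt := hbt (ball_subset_closedBall hy)
          by_cases hyK : y ∈ K
          · have hDy : D e y ≤ |B| := (le_abs_self _).trans ((hB y hyK).trans (le_abs_self B))
            have hu0 : 0 ≤ -u (e.symm y) := neg_nonneg.2 (hu.nonpos _)
            have h5 : -u (e.symm y) * D e y ≤ |B| * -u (e.symm y) := by
              rw [mul_comm]; exact mul_le_mul_of_nonneg_right hDy hu0
            calc g y ≤ 1 * (-u (e.symm y) * D e y) :=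
                  mul_le_mul_of_nonneg_right (h1 _) (mul_nonneg hu0 (hDn y hyt))
              _ = -u (e.symm y) * D e y := one_mul _
              _ ≤ _ := h5
          · have : e.symm y ∉ tsupport χ := fun h => hyK ⟨_, h, e.right_inv hyt⟩
            simp only [hg]
            rw [image_eq_zero_of_notMem_tsupport this, zero_mul]
            exact mul_nonneg (abs_nonneg _) (neg_nonneg.2 (hu.nonpos _))
      _ = |B| * ∫ y in ball z (2 * R z), -u (e.symm y) := by rw [integral_const_mul]
      _ ≤ |B| * M z := mul_le_mul_of_nonneg_left (hM z (htK z hz) u hu hp) (abs_nonneg _)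
  have hfin : ∫ z in e.target, g z ≤ |B| * ∑ z ∈ t, M z := by
    refine hsub.trans ((Finset.sum_le_sum hball').trans ?_)
    rw [Finset.mul_sum]
  have hneg : ∫ z in e.target, g z =
      -∫ z in e.target, χ (e.symm z) * (u (e.symm z) * D e z) := by
    rw [← integral_neg]
    congr 1
    funext z
    simp only [hg]
    ring
  rw [hneg] at hfin
  linarith

variable [T2Space X] [CompactSpace X] [PreconnectedSpace X]

theorem exists_intX_lower (hw : IsHermitian w) (hA : 0 ≤ A) (C : ℝ) {D : Chart d X → Cm d → ℝ}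
    (hD : INT.IsDensity D) (hD0 : ∀ e x, At e x → 0 ≤ D e (e x)) :
    ∃ M : ℝ, ∀ u : X → ℝ, QPsh w A u → (∃ p, -C ≤ u p) →
      -M ≤ INT.intX (fun e z => u (e.symm z) * D e z) := by
  set P := INT.part d X with hP
  have hle : ∀ i x, P.ρ i x ≤ 1 := by
    intro i x
    rw [← P.sum x]
    exact Finset.single_le_sum (f := fun i => P.ρ i x) (fun j _ => P.nonneg j x)
      (Finset.mem_univ i)
  choose M hM using fun i => exists_chart_int hw hA C hD hD0 (P.mem i) (P.cont i) (P.supp i)
    (P.nonneg i) (hle i)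
  refine ⟨∑ i, M i, fun u hu hp => ?_⟩
  unfold INT.intX
  rw [← hP, ← Finset.sum_neg_distrib]
  exact Finset.sum_le_sum fun i _ => hM i u hu hp

end Vale.Agent.P301.H599
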