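import Vale.Agent.P301.H599.Hyp
import Vale.Agent.P301.H599.PshLim
import Vale.Agent.P272.K.C2.PosLin

/-! P301, H599: the local weights of the approximating metrics are almost plurisubharmonic. -/

open scoped Manifold ContDiff ComplexOrder Topology
open Filter Metric Set MeasureTheory

set_option linter.all false

noncomputable section

namespace Vale.Agent.P301.H599

open Vale.Agent.P272.K Vale.Agent.P272.K.QN

variable {d : ℕ} {X : Type} [TopologicalSpace X] [ChartedSpace (Cm d) X]
  [IsManifold 𝓘(ℂ, Cm d) ω X] [CompactSpace X]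

lemma IsForm.neg' {a : Fm d X} (ha : IsForm a) : IsForm (fun e z => -a e z) := by
  intro e e' x h h'
  show -a e (e x) = _ * (-a e' (e' x)) * _
  rw [ha e e' x h h']
  simp [Matrix.mul_neg, Matrix.neg_mul]

/-- lower bound for the complex Hessian of the weights in terms of the Kähler form -/
theorem exists_B (F : Auto d X) {w : Fm d X} (hw : IsKahler w) {ι : Type} {L : LineBundle d X ι}
    {ρ : ι → X → ℝ} (hρ : IsMetric L ρ) {c : ℝ} (hc : 0 < c) {u : X → ℝ}
    (hu : Smooth (d := d) u)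
    (hDD : FEq (DD F w) (fun e z => (c : ℂ) • curvature L ρ e z + ddc u e z)) {h : X → ℝ}
    (hh : Smooth (d := d) h)
    (hD : FEq (pull F (DD F w)) (fun e z => DD F w e z + ddc h e z)) :
    ∃ B : ℝ, 0 ≤ B ∧ ∀ k : ℕ, 1 ≤ k → ∀ (i : ι) (e : Chart d X) (x : X), At e x → x ∈ L.U i →
      (cHess (fun z => (2 / c) * (S3 F h k (e.symm z) / (k : ℝ) ^ 2) +
        (ρ i (e.symm z) + u (e.symm z) / c)) (e x) +
        ((B / k : ℝ) : ℂ) • w e (e x)).PosSemidef := by
  have hF := F.contMDiff
  have hwF : IsForm w := hw.toIsHermitian.isForm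
  have hwS : SmF w := hw.smooth
  have hwH : HF w := fun e x h => (hw.posDef e x h).isHermitian
  obtain ⟨B₁, hB₁, h1⟩ := exists_comparison_form hw.toIsHermitian (smF_pull hF hwF hwS)
    (hF_pull hwH) (isForm_pull hF hwF)
  obtain ⟨B₂, hB₂, h2⟩ := exists_comparison_form (b := fun e z => -DD F w e z) hw.toIsHermitian
    (fun e x hx i j => (smF_DD hF hwF hwS e x hx i j).neg)
    (fun e x hx => (hF_DD hwH e x hx).neg) (IsForm.neg' (isForm_DD hF hwF))
  refine ⟨(2 * B₁ + B₂ + 2) / c, by positivity, fun k hk i e x hx hi => ?_⟩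
  have hk0 : (0 : ℝ) < k := by exact_mod_cast hk
  have hk1 : (1 : ℝ) ≤ k := by exact_mod_cast hk
  have hW := Wk_posSemidef (F := F) (w := w) (fun e x h => (hw.posDef e x h).posSemidef) k e x hx
  have hWk := Wk_eq hF hh hD k e x hx
  have hS : Smooth (d := d) (S3 F h k) := smooth_S3 hF hh k
  have hcv := curvature_eq hρ hx hi
  have hDDx := hDD e x hx
  have hH : cHess (fun z => (2 / c) * (S3 F h k (e.symm z) / (k : ℝ) ^ 2) +
        (ρ i (e.symm z) + u (e.symm z) / c)) (e x) =
      ((2 / (c * (k : ℝ) ^ 2) : ℝ) : ℂ) • ddc (S3 F h k) e (e x) +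
        (curvature L ρ e (e x) + ((1 / c : ℝ) : ℂ) • ddc u e (e x)) := by
    have e1 : (fun z => (2 / c) * (S3 F h k (e.symm z) / (k : ℝ) ^ 2) +
        (ρ i (e.symm z) + u (e.symm z) / c)) = fun z =>
        (fun z => (2 / (c * (k : ℝ) ^ 2)) * S3 F h k (e.symm z)) z +
          (fun z => (fun z => ρ i (e.symm z)) z + (fun z => (1 / c) * u (e.symm z)) z) z := by
      funext z
      simp only []
      field_simp
    have s1 := hS.two e x hx
    have s2 : ContDiffAt ℝ 2 (fun z => ρ i (e.symm z)) (e x) :=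
      (hρ.smooth i e x hx hi).of_le (by norm_cast)
    have s3 := hu.two e x hx
    have s3' : ContDiffAt ℝ 2 (fun z => (1 / c) * u (e.symm z)) (e x) := contDiffAt_const.mul s3
    rw [e1, cHess_add (contDiffAt_const.mul s1) (s2.add s3'), cHess_add s2 s3',
      cHess_const_mul _ s1, cHess_const_mul _ s3, hcv]
    rfl
  rw [hH]
  set M := w e (e x) with hM
  set P := pull F w e (e x) with hP
  set Q := DD F w e (e x) with hQ
  set G := ddc (S3 F h k) e (e x) with hG
  set T := curvature L ρ e (e x) with hT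
  set E := ddc u e (e x) with hE
  have hMp : M.PosSemidef := (hw.posDef e x hx).posSemidef
  have c1 := h1 e x hx
  have c2 := h2 e x hx
  rw [← hM, ← hP] at c1
  rw [← hM, ← hQ] at c2
  have hck : (c : ℂ) ≠ 0 := by exact_mod_cast hc.ne'
  have hkk : (k : ℂ) ≠ 0 := by exact_mod_cast hk0.ne'
  have hid : ((2 / (c * (k : ℝ) ^ 2) : ℝ) : ℂ) • G + (T + ((1 / c : ℝ) : ℂ) • E) +
      (((2 * B₁ + B₂ + 2) / c / k : ℝ) : ℂ) • M =
      (2 / (c * (k : ℝ) ^ 2) : ℝ) • Wk F w k e (e x) +
      (2 / (c * k) : ℝ) • ((B₁ : ℂ) • M - P) + (1 / (c * k) : ℝ) • ((B₂ : ℂ) • M - -Q) +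
      (2 / (c * k) + 2 / (c * k) - 2 / (c * (k : ℝ) ^ 2) : ℝ) • M := by
    have hGe : G = Wk F w k e (e x) - (M + (k : ℂ) • (P - M) +
        ((k * (k - 1) / 2 : ℝ) : ℂ) • Q) := by
      rw [hWk]
      simp only []
      rw [← hM, ← hP, ← hQ, ← hG]
      abel
    have hTe : T = ((1 / c : ℝ) : ℂ) • Q - ((1 / c : ℝ) : ℂ) • E := by
      rw [hDDx]
      simp only []
      rw [← hT, ← hE]
      ext i j
      simp only [Matrix.add_apply, Matrix.sub_apply, Matrix.smul_apply, smul_eq_mul]
      push_cast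
      field_simp
      ring
    rw [hGe, hTe]
    ext i j
    simp only [Matrix.add_apply, Matrix.sub_apply, Matrix.smul_apply, Matrix.neg_apply,
      smul_eq_mul, Complex.real_smul]
    push_cast
    field_simp
    ring
  rw [hid]
  have hcoef : (0 : ℝ) ≤ 2 / (c * k) + 2 / (c * k) - 2 / (c * (k : ℝ) ^ 2) := by
    have h3 : 2 / (c * (k : ℝ) ^ 2) ≤ 2 / (c * k) := by
      apply div_le_div_of_nonneg_left (by norm_num) (by positivity)
      have : (k : ℝ) ≤ (k : ℝ) ^ 2 := by nlinarith
      exact mul_le_mul_of_nonneg_left this hc.le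
    have h4 : (0 : ℝ) ≤ 2 / (c * k) := by positivity
    linarith
  exact (((hW.smul (by positivity)).add (c1.smul (by positivity))).add
    (c2.smul (by positivity))).add (hMp.smul hcoef)

/-- on compact subsets of a chart the Kähler form is bounded -/
lemma exists_upper_one {w : Fm d X} (hw : IsKahler w) {e : Chart d X} (he : e ∈ atlas (Cm d) X)
    {K : Set (Cm d)} (hK : IsCompact K) (hKe : K ⊆ e.target) :
    ∃ T : ℝ, ∀ z ∈ K, (((T : ℝ) : ℂ) • (1 : Matrix (Fin d) (Fin d) ℂ) - w e z).PosSemidef := by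
  have h1 : ∀ k : Fin d, ∃ B : ℝ, ∀ z ∈ K, ‖w e z k k‖ ≤ B := fun k =>
    hK.exists_bound_of_continuousOn ((hw.toIsHermitian.continuousOn_entry he k k).mono hKe)
  choose B hB using h1
  refine ⟨∑ k, B k, fun z hz => ?_⟩
  have hp : (w e z).PosSemidef := by
    have := (hw.posDef e (e.symm z) (At.of_target he (hKe hz))).posSemidef
    rwa [e.right_inv (hKe hz)] at this
  have h2 := C2.trace_smul_one_sub_posSemidef hp
  have htr : (w e z).trace = (((w e z).trace.re : ℝ) : ℂ) := by
    apply Complex.ext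
    · simp
    · have h5 := (Complex.le_def.1 hp.trace_nonneg).2
      simpa using h5.symm
  have h3 : (w e z).trace.re ≤ ∑ k, B k := by
    rw [Matrix.trace, Complex.re_sum]
    exact Finset.sum_le_sum fun k _ => ((Complex.re_le_norm _).trans (hB k z hz))
  have h4 : (((∑ k, B k : ℝ) : ℂ) • (1 : Matrix (Fin d) (Fin d) ℂ) - w e z) =
      ((w e z).trace • (1 : Matrix (Fin d) (Fin d) ℂ) - w e z) +
        (∑ k, B k - (w e z).trace.re) • (1 : Matrix (Fin d) (Fin d) ℂ) := by
    ext i j
    simp only [Matrix.add_apply, Matrix.sub_apply, Matrix.smul_apply, smul_eq_mul,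
      Complex.real_smul]
    push_cast
    linear_combination (-(1 : Matrix (Fin d) (Fin d) ℂ) i j) * htr
  rw [h4]
  exact h2.add (Matrix.PosSemidef.one.smul (by linarith))

end Vale.Agent.P301.H599
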